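import Crest.Agent.R227.FG

/-! # Row 227: invariant differential, Frobenius factorisation, heights, rigidity. -/

set_option autoImplicit false

open MvPowerSeries

noncomputable section
namespace Crest.Agent.R227

open Crest.LubinTate

variable {R S : Type} [CommRing R] [CommRing S]

/-- `u_F(X) = (∂F/∂Y)(X, 0)`, the inverse of the invariant differential -/
def uSer (F : FormalGroup R) : PowerSeries R :=
  PowerSeries.mk fun e => coeff (Finsupp.single 0 e + Finsupp.single 1 1) F.toPowerSeries

theorem constantCoeff_uSer (F : FormalGroup R) : PowerSeries.constantCoeff (uSer F) = 1 := by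
  rw [← PowerSeries.coeff_zero_eq_constantCoeff_apply, uSer, PowerSeries.coeff_mk]
  simp [F.lin_coeff_Y]

theorem map_uSer (F : FormalGroup R) (φ : R →+* S) :
    PowerSeries.map φ (uSer F) = uSer (F.map φ) := by
  ext e
  simp [uSer]

/-- the part of a series in two variables which is free of the second variable -/
def frob_c0 (Φ : MvPowerSeries (Fin 2) R) : PowerSeries R :=
  PowerSeries.mk fun e => coeff (Finsupp.single 0 e) Φ

/-- the part of a series in two variables which is linear in the second variable -/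
def frob_c1 (Φ : MvPowerSeries (Fin 2) R) : PowerSeries R :=
  PowerSeries.mk fun e => coeff (Finsupp.single 0 e + Finsupp.single 1 1) Φ

theorem frob_coeff_in0 (a : PowerSeries R) (m : Fin 2 →₀ ℕ) :
    coeff m (in0 a) = if m 1 = 0 then PowerSeries.coeff (m 0) a else 0 := by
  rw [in0, PowerSeries.coeff_subst_single]
  congr 1
  apply propext
  constructor
  · intro h
    rw [h]
    simp
  · intro h
    ext i
    fin_cases i
    · simp
    · simpa using h

theorem frob_coeff_in0_mul (a : PowerSeries R) (m : Fin 2 →₀ ℕ) :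
    coeff m (in0 a * X 1) = if m 1 = 1 then PowerSeries.coeff (m 0) a else 0 := by
  rw [X_def, coeff_mul_monomial, mul_one, frob_coeff_in0]
  simp only [Finsupp.single_le_iff, Finsupp.coe_tsub, Pi.sub_apply, Finsupp.single_eq_same,
    Fin.isValue, ne_eq, zero_ne_one, not_false_eq_true, Finsupp.single_eq_of_ne, tsub_zero]
  split_ifs <;> first | rfl | omega

theorem frob_finsupp_eq (m : Fin 2 →₀ ℕ) :
    m = Finsupp.single 0 (m 0) + Finsupp.single 1 (m 1) := by
  ext i
  fin_cases i <;> simp

/-- expansion to first order in the second variable -/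
theorem frob_decomp (Φ : MvPowerSeries (Fin 2) R) :
    ∃ K, Φ = in0 (frob_c0 Φ) + in0 (frob_c1 Φ) * X 1 + K * X 1 ^ 2 := by
  have : (X 1 : MvPowerSeries (Fin 2) R) ^ 2 ∣ Φ - (in0 (frob_c0 Φ) + in0 (frob_c1 Φ) * X 1) := by
    rw [X_pow_dvd_iff]
    intro m hm
    rw [map_sub, map_add, frob_coeff_in0, frob_coeff_in0_mul, frob_c0, frob_c1,
      PowerSeries.coeff_mk, PowerSeries.coeff_mk]
    have e := frob_finsupp_eq m
    rcases (by omega : m 1 = 0 ∨ m 1 = 1) with h | h
    · rw [h, Finsupp.single_zero, add_zero] at e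
      rw [← e]
      simp [h]
    · rw [h] at e
      rw [← e]
      simp [h]
  obtain ⟨K, hK⟩ := this
  exact ⟨K, by rw [mul_comm K, ← hK]; ring⟩

theorem frob_c1_eq (a b : PowerSeries R) (K : MvPowerSeries (Fin 2) R) :
    frob_c1 (in0 a + in0 b * X 1 + K * X 1 ^ 2) = b := by
  ext e
  rw [frob_c1, PowerSeries.coeff_mk, map_add, map_add, frob_coeff_in0, frob_coeff_in0_mul,
    X_pow_dvd_iff.1 (Dvd.intro_left K rfl) _ (by simp)]
  simp

theorem frob_subst_subst {σ τ : Type} {a : MvPowerSeries σ R} (ha : PowerSeries.HasSubst a)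
    {b : σ → MvPowerSeries τ R} (hb : HasSubst b) (f : PowerSeries R) :
    subst b (PowerSeries.subst a f) = PowerSeries.subst (subst b a) f :=
  subst_comp_subst_apply ha.const hb f

theorem frob_hasSubst2 {τ : Type} {z d : MvPowerSeries τ R} (hz : constantCoeff z = 0)
    (hd : constantCoeff d = 0) : HasSubst ![z, d] :=
  hasSubst_of_constantCoeff_zero fun s => by fin_cases s <;> simpa

/-- substitution into the first order expansion -/
theorem frob_decomp_subst (Φ : MvPowerSeries (Fin 2) R) {τ : Type} {z d : MvPowerSeries τ R}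
    (hz : constantCoeff z = 0) (hd : constantCoeff d = 0) :
    ∃ K, Φ.subst ![z, d] = PowerSeries.subst z (frob_c0 Φ) + PowerSeries.subst z (frob_c1 Φ) * d
      + K * d ^ 2 := by
  obtain ⟨K, hK⟩ := frob_decomp Φ
  have hs := frob_hasSubst2 hz hd
  refine ⟨K.subst ![z, d], ?_⟩
  conv_lhs => rw [hK]
  rw [subst_add hs, subst_add hs, subst_mul hs, subst_mul hs, subst_pow hs, subst_X hs,
    frob_subst_subst (PowerSeries.HasSubst.X 0) hs, frob_subst_subst (PowerSeries.HasSubst.X 0) hs,
    subst_X hs]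
  rfl

theorem frob_c0_law (F : FormalGroup R) : frob_c0 F.toPowerSeries = PowerSeries.X := by
  obtain ⟨K, hK⟩ := frob_decomp_subst F.toPowerSeries (τ := Unit) (z := PowerSeries.X) (d := 0)
    PowerSeries.constantCoeff_X (map_zero _)
  have h1 : F.toPowerSeries.subst ![(PowerSeries.X : PowerSeries R), 0] = PowerSeries.X :=
    F.Xzero_eq_X
  rw [h1, PowerSeries.X_subst] at hK
  simpa using hK.symm

/-- expansion of the group law to first order -/
theorem frob_fadd_expand (F : FormalGroup R) {τ : Type} {z d : MvPowerSeries τ R}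
    (hz : constantCoeff z = 0) (hd : constantCoeff d = 0) :
    ∃ K, fadd F z d = z + PowerSeries.subst z (uSer F) * d + K * d ^ 2 := by
  obtain ⟨K, hK⟩ := frob_decomp_subst F.toPowerSeries hz hd
  rw [frob_c0_law, PowerSeries.subst_X (PowerSeries.HasSubst.of_constantCoeff_zero hz)] at hK
  exact ⟨K, hK⟩

/-- Taylor expansion to first order -/
theorem frob_taylor (f : PowerSeries R) {τ : Type} {z d : MvPowerSeries τ R}
    (hz : constantCoeff z = 0) (hd : constantCoeff d = 0) :
    ∃ K, PowerSeries.subst (z + d) f = PowerSeries.subst z f +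
      PowerSeries.subst z (PowerSeries.derivative R f) * d + K * d ^ 2 := by
  obtain ⟨K, hK⟩ := frob_decomp_subst
    (PowerSeries.subst (X 0 + X 1 : MvPowerSeries (Fin 2) R) f) hz hd
  have hs := frob_hasSubst2 hz hd
  have h0 : frob_c0 (PowerSeries.subst (X 0 + X 1 : MvPowerSeries (Fin 2) R) f) = f := by
    ext e
    rw [frob_c0, PowerSeries.coeff_mk, PowerSeries.coeff_subst_X_zero_add_X_one]
    simp
  have h1 : frob_c1 (PowerSeries.subst (X 0 + X 1 : MvPowerSeries (Fin 2) R) f) =
      PowerSeries.derivative R f := by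
    ext e
    rw [frob_c1, PowerSeries.coeff_mk, PowerSeries.coeff_subst_X_zero_add_X_one,
      PowerSeries.coeff_derivative]
    simp [mul_comm]
  rw [h0, h1, frob_subst_subst (PowerSeries.HasSubst.of_constantCoeff_zero (by simp)) hs,
    subst_add hs, subst_X hs, subst_X hs] at hK
  exact ⟨K, hK⟩

/-- first order expansion `F(z, d) = z + u(z) d` when `d ^ 2 = 0` -/
theorem fadd_sq_zero (F : FormalGroup R) {τ : Type} {z d : MvPowerSeries τ R}
    (hz : constantCoeff z = 0) (hd : constantCoeff d = 0) (hd2 : d * d = 0) :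
    fadd F z d = z + PowerSeries.subst z (uSer F) * d := by
  obtain ⟨K, hK⟩ := frob_fadd_expand F hz hd
  rw [hK, sq, hd2, mul_zero, add_zero]

theorem frob_subst_zero (f : PowerSeries R) {τ : Type} :
    PowerSeries.subst (0 : MvPowerSeries τ R) f = C (PowerSeries.constantCoeff f) := by
  rw [PowerSeries.subst_zero_eq_C_constantCoeff]
  simp

/-- `f'(X) u_F(X) = f'(0) u_G(f(X))` (compare the coefficients of `Y` in `f(F) = G(f, f)`) -/
theorem hom_derivative {F G : FormalGroup R} {f : PowerSeries R} (h : IsFGHom F G f) :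
    PowerSeries.derivative R f * uSer F =
      PowerSeries.C (PowerSeries.coeff 1 f) * PowerSeries.subst f (uSer G) := by
  have hX0 : constantCoeff (X 0 : MvPowerSeries (Fin 2) R) = 0 := constantCoeff_X 0
  have hX1 : constantCoeff (X 1 : MvPowerSeries (Fin 2) R) = 0 := constantCoeff_X 1
  have s0 : PowerSeries.HasSubst (X 0 : MvPowerSeries (Fin 2) R) := PowerSeries.HasSubst.X 0
  have sf : PowerSeries.HasSubst f := PowerSeries.HasSubst.of_constantCoeff_zero' h.1
  -- the left hand side
  obtain ⟨K, hK⟩ := frob_decomp F.toPowerSeries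
  rw [frob_c0_law, in0, PowerSeries.subst_X s0, add_assoc] at hK
  obtain ⟨K', hK'⟩ := frob_taylor f hX0
    (d := in0 (frob_c1 F.toPowerSeries) * X 1 + K * X 1 ^ 2) (by simp)
  rw [← hK] at hK'
  have hL : PowerSeries.subst F.toPowerSeries f = in0 f +
      in0 (PowerSeries.derivative R f * uSer F) * X 1 +
      (in0 (PowerSeries.derivative R f) * K + K' * (in0 (uSer F) + K * X 1) ^ 2) * X 1 ^ 2 := by
    rw [hK', in0, in0, in0, in0, in0, PowerSeries.subst_mul s0]
    change _ + _ * (PowerSeries.subst _ (uSer F) * _ + _) +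
      _ * (PowerSeries.subst _ (uSer F) * _ + _) ^ 2 = _
    ring
  -- the right hand side
  have h0 : constantCoeff (in0 f) = 0 := PowerSeries.constantCoeff_subst_eq_zero hX0 f h.1
  have h1 : constantCoeff (in1 f) = 0 := PowerSeries.constantCoeff_subst_eq_zero hX1 f h.1
  obtain ⟨K₁, hK₁⟩ := frob_fadd_expand G h0 h1
  obtain ⟨K₂, hK₂⟩ := frob_taylor f (z := 0) (map_zero _) hX1
  rw [zero_add, frob_subst_zero, frob_subst_zero, h.1, map_zero, zero_add,
    ← PowerSeries.coeff_zero_eq_constantCoeff_apply, PowerSeries.coeff_derivative] at hK₂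
  simp only [zero_add, Nat.cast_zero, mul_one] at hK₂
  have hR : fadd G (in0 f) (in1 f) = in0 f +
      in0 (PowerSeries.C (PowerSeries.coeff 1 f) * PowerSeries.subst f (uSer G)) * X 1 +
      (PowerSeries.subst (in0 f) (uSer G) * K₂ +
        K₁ * (C (PowerSeries.coeff 1 f) + K₂ * X 1) ^ 2) * X 1 ^ 2 := by
    rw [hK₁, in1, hK₂]
    have e : in0 (PowerSeries.C (PowerSeries.coeff 1 f) * PowerSeries.subst f (uSer G)) =
        C (PowerSeries.coeff 1 f) * PowerSeries.subst (in0 f) (uSer G) := by
      rw [in0, PowerSeries.subst_mul s0, PowerSeries.subst_C,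
        PowerSeries.subst_comp_subst_apply sf s0]
    rw [e]
    ring
  have := congrArg frob_c1 (hL.symm.trans (h.2.trans hR))
  rwa [frob_c1_eq, frob_c1_eq] at this

/-- coefficientwise membership is multiplicative -/
theorem frob_mul_mem {τ : Type} {I J : Ideal R} {φ ψ : MvPowerSeries τ R}
    (hφ : ∀ d, coeff d φ ∈ I) (hψ : ∀ d, coeff d ψ ∈ J) (d : τ →₀ ℕ) :
    coeff d (φ * ψ) ∈ I * J := by
  classical
  rw [coeff_mul]
  exact Ideal.sum_mem _ fun x _ => Ideal.mul_mem_mul (hφ _) (hψ _)

theorem frob_mul_mem_left {τ : Type} {J : Ideal R} (φ : MvPowerSeries τ R) {ψ : MvPowerSeries τ R}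
    (hψ : ∀ d, coeff d ψ ∈ J) (d : τ →₀ ℕ) : coeff d (φ * ψ) ∈ J := by
  have := frob_mul_mem (I := ⊤) (φ := φ) (fun _ => Submodule.mem_top) hψ d
  rwa [Ideal.top_mul] at this

theorem frob_finsum_mem {ι : Type} {I : Ideal R} {f : ι → R} (h : ∀ i, f i ∈ I) :
    ∑ᶠ i, f i ∈ I :=
  finsum_induction (fun x => x ∈ I) I.zero_mem (fun _ _ => I.add_mem) h

theorem frob_subst_mem {τ : Type} {I : Ideal R} {f : PowerSeries R}
    (hf : ∀ e, PowerSeries.coeff e f ∈ I) {z : MvPowerSeries τ R} (hz : constantCoeff z = 0)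
    (d : τ →₀ ℕ) : coeff d (PowerSeries.subst z f) ∈ I := by
  rw [PowerSeries.coeff_subst (PowerSeries.HasSubst.of_constantCoeff_zero hz)]
  exact frob_finsum_mem fun e => Ideal.mul_mem_right _ _ (hf e)

theorem frob_subst_sub_mem {τ : Type} {I J : Ideal R} {f : PowerSeries R}
    (hf : ∀ e, PowerSeries.coeff e f ∈ I) {z z' : MvPowerSeries τ R} (hz : constantCoeff z = 0)
    (hz' : constantCoeff z' = 0) (h : ∀ d, coeff d (z - z') ∈ J) (d : τ →₀ ℕ) :
    coeff d (PowerSeries.subst z f - PowerSeries.subst z' f) ∈ I * J := by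
  have s := PowerSeries.HasSubst.of_constantCoeff_zero hz
  have s' := PowerSeries.HasSubst.of_constantCoeff_zero hz'
  rw [map_sub, PowerSeries.coeff_subst s, PowerSeries.coeff_subst s',
    ← finsum_sub_distrib (PowerSeries.coeff_subst_finite s f d)
      (PowerSeries.coeff_subst_finite s' f d)]
  refine frob_finsum_mem fun e => ?_
  rw [smul_eq_mul, smul_eq_mul, ← mul_sub, ← map_sub]
  refine Ideal.mul_mem_mul (hf e) ?_
  obtain ⟨c, hc⟩ := sub_dvd_pow_sub_pow z z' e
  rw [hc, mul_comm]
  exact frob_mul_mem_left c h d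

/-- Taylor: `f(z) ≡ f(z')` modulo `𝔞 ^ (r + 1)` if `z ≡ z'` modulo `𝔞 ^ r`, `r ≥ 1`, and
`f' ≡ 0` modulo `𝔞` (all congruences coefficientwise) -/
theorem subst_contract (𝔞 : Ideal R) (f : PowerSeries R)
    (hf : ∀ e, PowerSeries.coeff e (PowerSeries.derivative R f) ∈ 𝔞) {τ : Type}
    {z z' : MvPowerSeries τ R} (hz : constantCoeff z = 0) (hz' : constantCoeff z' = 0) {r : ℕ}
    (hr : 1 ≤ r) (h : ∀ d, coeff d (z - z') ∈ 𝔞 ^ r) (d : τ →₀ ℕ) :
    coeff d (PowerSeries.subst z f - PowerSeries.subst z' f) ∈ 𝔞 ^ (r + 1) := by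
  obtain ⟨K, hK⟩ := frob_taylor f hz' (d := z - z') (by rw [map_sub, hz, hz', sub_zero])
  rw [add_sub_cancel] at hK
  rw [hK, add_assoc, add_sub_cancel_left, map_add]
  refine Ideal.add_mem _ ?_ ?_
  · rw [pow_succ']
    exact frob_mul_mem (frob_subst_mem hf hz') h d
  · refine frob_mul_mem_left K (fun d => ?_) d
    have := frob_mul_mem h h d
    rw [← pow_add, ← sq] at this
    exact Ideal.pow_le_pow_right (by omega) this

theorem frob_derivative_mulSeries (F : FormalGroup R) [F.IsComm] (p : ℕ) (𝔞 : Ideal R)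
    (hp : (p : R) ∈ 𝔞) (e : ℕ) :
    PowerSeries.coeff e (PowerSeries.derivative R (mulSeries F p)) ∈ 𝔞 := by
  have h := hom_derivative (hom_mulSeries F p)
  obtain ⟨u, hu⟩ : IsUnit (uSer F) := by
    rw [PowerSeries.isUnit_iff_constantCoeff, constantCoeff_uSer]
    exact isUnit_one
  rw [coeff_one_mulSeries, ← hu, ← Units.eq_mul_inv_iff_mul_eq, mul_assoc] at h
  rw [h, PowerSeries.coeff_C_mul]
  exact Ideal.mul_mem_right _ _ hp

/-- `[p ^ i]` contracts: `z ≡ z' mod 𝔞 ^ r` gives `[p^i] z ≡ [p^i] z' mod 𝔞 ^ (r + i)` if `p ∈ 𝔞` -/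
theorem mulSeries_contract (F : FormalGroup R) [F.IsComm] (p : ℕ) (𝔞 : Ideal R) (hp : (p : R) ∈ 𝔞)
    {τ : Type} {z z' : MvPowerSeries τ R} (hz : constantCoeff z = 0) (hz' : constantCoeff z' = 0)
    {r : ℕ} (hr : 1 ≤ r) (h : ∀ d, coeff d (z - z') ∈ 𝔞 ^ r) (i : ℕ) (d : τ →₀ ℕ) :
    coeff d (PowerSeries.subst z (mulSeries F (p ^ i)) -
      PowerSeries.subst z' (mulSeries F (p ^ i))) ∈ 𝔞 ^ (r + i) := by
  have s := PowerSeries.HasSubst.of_constantCoeff_zero hz
  have s' := PowerSeries.HasSubst.of_constantCoeff_zero hz'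
  induction i generalizing d with
  | zero =>
    rw [pow_zero, mulSeries_one, PowerSeries.subst_X s, PowerSeries.subst_X s']
    exact h d
  | succ i ih =>
    have c0 := constantCoeff_mulSeries F (p ^ i)
    have sm := PowerSeries.HasSubst.of_constantCoeff_zero' c0
    rw [pow_succ', mulSeries_mul, PowerSeries.subst_comp_subst_apply sm s,
      PowerSeries.subst_comp_subst_apply sm s', ← add_assoc]
    exact subst_contract 𝔞 _ (frob_derivative_mulSeries F p 𝔞 hp)
      (PowerSeries.constantCoeff_subst_eq_zero hz _ c0)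
      (PowerSeries.constantCoeff_subst_eq_zero hz' _ c0) (by omega) ih d

/-- substitution of a series congruent to `X ^ N` reflects congruences -/
theorem frob_mem_of_subst (𝔞 : Ideal R) (P : PowerSeries R)
    (h0 : PowerSeries.constantCoeff P = 0) {N : ℕ} (hN : N ≠ 0)
    (hP : ∀ e, PowerSeries.coeff e (P - PowerSeries.X ^ N) ∈ 𝔞) {f : PowerSeries R} {r : ℕ}
    (hf : ∀ e, PowerSeries.coeff e (PowerSeries.subst P f : PowerSeries R) ∈ 𝔞 ^ r) (e : ℕ) :
    PowerSeries.coeff e f ∈ 𝔞 ^ r := by
  have key : ∀ s, s ≤ r → ∀ e, PowerSeries.coeff e f ∈ 𝔞 ^ s := by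
    intro s
    induction s with
    | zero => intro _ e; simp
    | succ s ih =>
      intro hs e
      have h1 := frob_subst_sub_mem (τ := Unit) (ih (by omega)) (z := P)
        (z' := (PowerSeries.X ^ N : PowerSeries R)) h0
        (by change PowerSeries.constantCoeff _ = 0; simp [hN])
        (J := 𝔞) (fun d => by
          have := hP (d ())
          rwa [PowerSeries.coeff, ← Finsupp.unique_single d] at this) (Finsupp.single () (N * e))
      rw [← pow_succ, map_sub] at h1
      have h2 : coeff (Finsupp.single () (N * e)) (PowerSeries.subst P f) ∈ 𝔞 ^ (s + 1) :=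
        Ideal.pow_le_pow_right hs (hf (N * e))
      have h3 := Ideal.sub_mem _ h2 h1
      rw [sub_sub_cancel] at h3
      have h4 := PowerSeries.coeff_subst_X_pow (S := R) hN f (N * e)
      rw [if_pos (Dvd.intro e rfl), Nat.mul_div_cancel_left _ (Nat.pos_of_ne_zero hN)] at h4
      have h5 : PowerSeries.coeff (N * e)
        (PowerSeries.subst (PowerSeries.X ^ N : PowerSeries R) f : PowerSeries R) ∈ 𝔞 ^ (s + 1) := h3
      rwa [h4] at h5
  exact key r le_rfl e

theorem frob_eq_zero_of_haus (𝔞 : Ideal R) [IsHausdorff 𝔞 R] {x : R} (h : ∀ r, x ∈ 𝔞 ^ r) :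
    x = 0 := by
  refine IsHausdorff.haus (I := 𝔞) inferInstance x fun r => ?_
  rw [SModEq.zero, smul_eq_mul, Ideal.mul_top]
  exact h r

/-- substitution of a series congruent to `X ^ N` modulo an ideal with `⋂ 𝔞 ^ r = 0` is injective -/
theorem subst_injective_of_pow (𝔞 : Ideal R) [IsHausdorff 𝔞 R] (P : PowerSeries R)
    (h0 : PowerSeries.constantCoeff P = 0) {N : ℕ} (hN : N ≠ 0)
    (hP : ∀ e, PowerSeries.coeff e (P - PowerSeries.X ^ N) ∈ 𝔞) {f : PowerSeries R}
    (hf : (PowerSeries.subst P f : PowerSeries R) = 0) : f = 0 := by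
  ext e
  rw [map_zero]
  refine frob_eq_zero_of_haus 𝔞 fun r => frob_mem_of_subst 𝔞 P h0 hN hP (fun e => ?_) e
  rw [hf, map_zero]
  exact Ideal.zero_mem _

/-- rigidity of homomorphisms between deformations of laws of finite height -/
theorem rigidity {F G : FormalGroup R} [G.IsComm] (p : ℕ) (𝔞 : Ideal R) [IsHausdorff 𝔞 R]
    (hp : (p : R) ∈ 𝔞) {N : ℕ} (hN : N ≠ 0)
    (hF : ∀ e, PowerSeries.coeff e (mulSeries F p - PowerSeries.X ^ N) ∈ 𝔞)
    {f g : PowerSeries R} (hf : IsFGHom F G f) (hg : IsFGHom F G g)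
    (h : ∀ e, PowerSeries.coeff e (f - g) ∈ 𝔞) : f = g := by
  have key : ∀ (r i : ℕ) (φ : PowerSeries R),
      (∀ e, PowerSeries.coeff e
        (PowerSeries.subst (mulSeries F (p ^ i)) φ : PowerSeries R) ∈ 𝔞 ^ r) →
      ∀ e, PowerSeries.coeff e φ ∈ 𝔞 ^ r := by
    intro r i
    induction i with
    | zero =>
      intro φ hφ
      rwa [pow_zero, mulSeries_one, PowerSeries.X_subst] at hφ
    | succ i ih =>
      intro φ hφ
      apply ih
      refine frob_mem_of_subst 𝔞 (mulSeries F p) (constantCoeff_mulSeries F p) hN hF ?_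
      rwa [PowerSeries.subst_comp_subst_apply
        (PowerSeries.HasSubst.of_constantCoeff_zero' (constantCoeff_mulSeries F _))
        (PowerSeries.HasSubst.of_constantCoeff_zero' (constantCoeff_mulSeries F _)),
        ← mulSeries_mul, ← pow_succ]
  rw [← sub_eq_zero]
  ext e
  rw [map_zero]
  refine frob_eq_zero_of_haus 𝔞 fun r => ?_
  refine Ideal.pow_le_pow_right (Nat.le_add_left r 1) (key (1 + r) r (f - g) (fun e => ?_) e)
  rw [PowerSeries.subst_sub
    (PowerSeries.HasSubst.of_constantCoeff_zero' (constantCoeff_mulSeries F _)),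
    hom_comm_mulSeries hf, hom_comm_mulSeries hg]
  refine mulSeries_contract G p 𝔞 hp (τ := Unit) hf.1 hg.1 le_rfl (fun d => ?_) r _
  have := h (d ())
  rwa [PowerSeries.coeff, ← Finsupp.unique_single d, ← pow_one 𝔞] at this

theorem frob_expand_injective {σ : Type} {p : ℕ} (hp : p ≠ 0) :
    Function.Injective (expand (σ := σ) (R := R) p hp) := by
  intro a b h
  ext m
  rw [← coeff_expand_smul p hp a, h, coeff_expand_smul]

/-- a homomorphism with vanishing linear term factors through Frobenius -/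
theorem hom_frob (p : ℕ) [Fact p.Prime] [CharP R p] {F G : FormalGroup R} {f : PowerSeries R}
    (h : IsFGHom F G f) (h1 : PowerSeries.coeff 1 f = 0) :
    ∃ g : PowerSeries R, IsFGHom (F.map (frobenius R p)) G g ∧
      f = PowerSeries.subst (PowerSeries.X ^ p : PowerSeries R) g := by
  have hpp : p.Prime := Fact.out
  have hp : p ≠ 0 := hpp.ne_zero
  have hd := hom_derivative h
  have hu : IsUnit (uSer F) := by
    rw [PowerSeries.isUnit_iff_constantCoeff, constantCoeff_uSer]
    exact isUnit_one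
  rw [h1, map_zero, zero_mul, hu.mul_left_eq_zero] at hd
  have hc : ∀ m, ¬ p ∣ m → PowerSeries.coeff m f = 0 := by
    intro m hm
    obtain ⟨n, rfl⟩ : ∃ n, m = n + 1 := Nat.exists_eq_succ_of_ne_zero (by rintro rfl; simp at hm)
    have h2 := PowerSeries.coeff_derivative f n
    have h3 : IsUnit ((n + 1 : ℕ) : R) := (CharP.isUnit_natCast_iff hpp).2 hm
    rw [hd, map_zero] at h2
    push_cast at h3
    exact h3.mul_left_eq_zero.1 h2.symm
  set g : PowerSeries R := PowerSeries.mk fun n => PowerSeries.coeff (p * n) f with hg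
  have hfg : f = PowerSeries.subst (PowerSeries.X ^ p : PowerSeries R) g := by
    ext m
    rw [PowerSeries.coeff_subst_X_pow hp]
    split_ifs with hm
    · rw [hg, PowerSeries.coeff_mk, Nat.mul_div_cancel' hm]
      rfl
    · exact hc m hm
  have hg0 : PowerSeries.constantCoeff g = 0 := by
    rw [← PowerSeries.coeff_zero_eq_constantCoeff_apply, hg, PowerSeries.coeff_mk, mul_zero,
      PowerSeries.coeff_zero_eq_constantCoeff_apply, h.1]
  have sp : PowerSeries.HasSubst (PowerSeries.X ^ p : PowerSeries R) := PowerSeries.HasSubst.X_pow hp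
  have hsub : ∀ z : MvPowerSeries (Fin 2) R, constantCoeff z = 0 →
      PowerSeries.subst (z ^ p) g = PowerSeries.subst z f := by
    intro z hz
    have sz := PowerSeries.HasSubst.of_constantCoeff_zero hz
    rw [hfg, PowerSeries.subst_comp_subst_apply sp sz, PowerSeries.subst_pow sz,
      PowerSeries.subst_X sz]
  refine ⟨g, ⟨hg0, ?_⟩, hfg⟩
  apply frob_expand_injective hp
  have c0 : constantCoeff (in0 g) = 0 :=
    PowerSeries.constantCoeff_subst_eq_zero (constantCoeff_X 0) g hg0
  have c1 : constantCoeff (in1 g) = 0 :=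
    PowerSeries.constantCoeff_subst_eq_zero (constantCoeff_X 1) g hg0
  rw [PowerSeries.expand_subst p hp
      (PowerSeries.HasSubst.of_constantCoeff_zero (F.map (frobenius R p)).zero_constantCoeff),
    FormalGroup.map_toPowerSeries, ← map_expand, map_frobenius_expand,
    hsub _ F.zero_constantCoeff, h.2, expand_subst p hp (frob_hasSubst2 c0 c1)]
  congr 1
  funext i
  fin_cases i
  · change _ = expand p hp (in0 g)
    rw [in0, PowerSeries.expand_subst p hp (PowerSeries.HasSubst.X 0), expand_X,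
      hsub _ (constantCoeff_X 0)]
    rfl
  · change _ = expand p hp (in1 g)
    rw [in1, PowerSeries.expand_subst p hp (PowerSeries.HasSubst.X 1), expand_X,
      hsub _ (constantCoeff_X 1)]
    rfl

theorem frob_coeff_subst_X_pow {q : ℕ} (hq : q ≠ 0) (V : PowerSeries R) :
    PowerSeries.coeff q (PowerSeries.subst (PowerSeries.X ^ q : PowerSeries R) V : PowerSeries R) =
      PowerSeries.coeff 1 V := by
  rw [PowerSeries.coeff_subst_X_pow hq, if_pos dvd_rfl, Nat.div_self (Nat.pos_of_ne_zero hq)]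
  rfl

/-- height `≥ h`: the `p`-series factors through `X ^ p ^ h` -/
theorem exists_versch (p : ℕ) [Fact p.Prime] [CharP R p] (F : FormalGroup R) [F.IsComm] (h : ℕ)
    (hv : ∀ l, l < h → PowerSeries.coeff (p ^ l) (mulSeries F p) = 0) :
    ∃ V : PowerSeries R, IsFGHom (F.map (iterateFrobenius R p h)) F V ∧
      mulSeries F p = PowerSeries.subst (PowerSeries.X ^ p ^ h : PowerSeries R) V := by
  have hp : p ≠ 0 := (Fact.out : p.Prime).ne_zero
  induction h with
  | zero =>
    refine ⟨mulSeries F p, ?_, ?_⟩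
    · rw [iterateFrobenius_zero, map_id]
      exact hom_mulSeries F p
    · rw [pow_zero, pow_one, PowerSeries.X_subst]
  | succ h ih =>
    obtain ⟨V, hV, hV'⟩ := ih fun l hl => hv l (by omega)
    have h1 : PowerSeries.coeff 1 V = 0 := by
      rw [← frob_coeff_subst_X_pow (pow_ne_zero h hp), ← hV']
      exact hv h (by omega)
    obtain ⟨g, hg, hg'⟩ := hom_frob p hV h1
    refine ⟨g, ?_, ?_⟩
    · rwa [map_map, ← iterateFrobenius_one, ← iterateFrobenius_add, add_comm] at hg
    · have sq : PowerSeries.HasSubst (PowerSeries.X ^ p ^ h : PowerSeries R) :=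
        PowerSeries.HasSubst.X_pow (pow_ne_zero h hp)
      rw [hV', hg', PowerSeries.subst_comp_subst_apply (PowerSeries.HasSubst.X_pow hp) sq,
        PowerSeries.subst_pow sq, PowerSeries.subst_X sq, ← pow_mul, ← pow_succ]

/-- the height ideals of a law over any ring -/
def htIdeal (p : ℕ) (F : FormalGroup R) : ℕ → Ideal R
  | 0 => ⊥
  | h + 1 => htIdeal p F h ⊔ Ideal.span {PowerSeries.coeff (p ^ h) (mulSeries F p)}

theorem heightIdeal_eq (p : ℕ) [Fact p.Prime] (n : ℕ) (H : FormalGroup (LTRing p n)) (h : ℕ) :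
    heightIdeal p n H h = htIdeal p H h := by
  induction h with
  | zero => rfl
  | succ h ih => rw [heightIdeal, htIdeal, ih]

theorem htIdeal_map (p : ℕ) (F : FormalGroup R) (φ : R →+* S) (h : ℕ) :
    htIdeal p (F.map φ) h = (htIdeal p F h).map φ := by
  induction h with
  | zero => simp [htIdeal]
  | succ h ih =>
    rw [htIdeal, htIdeal, ih, Ideal.map_sup, Ideal.map_span, Set.image_singleton, ← map_mulSeries,
      PowerSeries.coeff_map]

theorem htIdeal_le_iff (p : ℕ) (F : FormalGroup R) (h : ℕ) (J : Ideal R) :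
    htIdeal p F h ≤ J ↔ ∀ l, l < h → PowerSeries.coeff (p ^ l) (mulSeries F p) ∈ J := by
  induction h with
  | zero => simp [htIdeal]
  | succ h ih =>
    rw [htIdeal, sup_le_iff, ih, Ideal.span_singleton_le_iff_mem]
    constructor
    · rintro ⟨h1, h2⟩ l hl
      rcases Nat.lt_succ_iff_lt_or_eq.1 hl with hl | rfl
      · exact h1 l hl
      · exact h2
    · intro h1
      exact ⟨fun l hl => h1 l (by omega), h1 h (by omega)⟩

/-- comparison of the leading coefficients of the `p`-series in characteristic `p` -/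
theorem frob_lead (p : ℕ) [Fact p.Prime] [CharP R p] {F G : FormalGroup R} [F.IsComm] [G.IsComm]
    {θ : PowerSeries R} (hθ : IsFGHom F G θ) (h : ℕ)
    (hF : ∀ l, l < h → PowerSeries.coeff (p ^ l) (mulSeries F p) = 0)
    (hG : ∀ l, l < h → PowerSeries.coeff (p ^ l) (mulSeries G p) = 0) :
    PowerSeries.coeff 1 θ * PowerSeries.coeff (p ^ h) (mulSeries F p) =
      PowerSeries.coeff 1 θ ^ p ^ h * PowerSeries.coeff (p ^ h) (mulSeries G p) := by
  have hp : p ≠ 0 := (Fact.out : p.Prime).ne_zero
  have hq : p ^ h ≠ 0 := pow_ne_zero h hp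
  obtain ⟨V, hV, hV'⟩ := exists_versch p F h hF
  obtain ⟨W, hW, hW'⟩ := exists_versch p G h hG
  have sq : PowerSeries.HasSubst (PowerSeries.X ^ p ^ h : PowerSeries R) :=
    PowerSeries.HasSubst.X_pow hq
  have sθ : PowerSeries.HasSubst θ := PowerSeries.HasSubst.of_constantCoeff_zero' hθ.1
  have sV : PowerSeries.HasSubst V := PowerSeries.HasSubst.of_constantCoeff_zero' hV.1
  have c0 : PowerSeries.constantCoeff (PowerSeries.map (iterateFrobenius R p h) θ) = 0 := by
    rw [← PowerSeries.coeff_zero_eq_constantCoeff_apply, PowerSeries.coeff_map,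
      PowerSeries.coeff_zero_eq_constantCoeff_apply, hθ.1, map_zero]
  have hpow : θ ^ p ^ h = PowerSeries.subst (PowerSeries.X ^ p ^ h : PowerSeries R)
      (PowerSeries.map (iterateFrobenius R p h) θ) := by
    rw [← PowerSeries.expand_apply _ hq, ← PowerSeries.map_expand]
    exact (map_iterateFrobenius_expand p hp θ h).symm
  have key := hom_comm_mulSeries hθ p
  rw [hV', hW', ← PowerSeries.subst_comp_subst_apply sV sq,
    PowerSeries.subst_comp_subst_apply sq sθ, PowerSeries.subst_pow sθ, PowerSeries.subst_X sθ,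
    hpow, ← PowerSeries.subst_comp_subst_apply (PowerSeries.HasSubst.of_constantCoeff_zero' c0) sq]
    at key
  have key2 := congrArg (PowerSeries.coeff (p ^ h)) key
  rw [frob_coeff_subst_X_pow hq, frob_coeff_subst_X_pow hq, coeff_one_subst hV.1,
    coeff_one_subst c0, PowerSeries.coeff_map, iterateFrobenius_def] at key2
  rw [hV', hW', frob_coeff_subst_X_pow hq, frob_coeff_subst_X_pow hq, key2, mul_comm]

theorem frob_sup_eq {I : Ideal R} {a b u v : R} (hu : IsUnit u) (hv : IsUnit v)
    (h : u * a - v * b ∈ I) : I ⊔ Ideal.span {a} = I ⊔ Ideal.span {b} := by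
  apply le_antisymm
  · refine sup_le le_sup_left ((Ideal.span_singleton_le_iff_mem _).2 ?_)
    rw [← Ideal.unit_mul_mem_iff_mem _ hu, ← sub_add_cancel (u * a) (v * b)]
    exact Ideal.add_mem _ (Ideal.mem_sup_left h)
      (Ideal.mem_sup_right (Ideal.mul_mem_left _ _ (Ideal.mem_span_singleton_self b)))
  · refine sup_le le_sup_left ((Ideal.span_singleton_le_iff_mem _).2 ?_)
    rw [← Ideal.unit_mul_mem_iff_mem _ hv, ← sub_sub_cancel (u * a) (v * b)]
    exact Ideal.sub_mem _
      (Ideal.mem_sup_right (Ideal.mul_mem_left _ _ (Ideal.mem_span_singleton_self a)))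
      (Ideal.mem_sup_left h)

/-- isomorphic laws have the same height ideals -/
theorem htIdeal_eq_of_hom (p : ℕ) [Fact p.Prime] {F G : FormalGroup R} [F.IsComm] [G.IsComm]
    {θ : PowerSeries R} (hθ : IsFGHom F G θ) (hu : IsUnit (PowerSeries.coeff 1 θ)) (h : ℕ) :
    htIdeal p F h = htIdeal p G h := by
  have hpp : p.Prime := Fact.out
  induction h with
  | zero => rfl
  | succ h ih =>
    rw [htIdeal, htIdeal, ← ih]
    rcases Nat.eq_zero_or_pos h with rfl | hh
    · rw [pow_zero, coeff_one_mulSeries, coeff_one_mulSeries]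
    by_cases hI : htIdeal p F h = ⊤
    · rw [hI, top_sup_eq, top_sup_eq]
    have hF := (htIdeal_le_iff p F h _).1 le_rfl
    have hG := (htIdeal_le_iff p G h _).1 ih.ge
    set I := htIdeal p F h
    haveI : Nontrivial (R ⧸ I) := Ideal.Quotient.nontrivial_iff.2 hI
    haveI : CharP (R ⧸ I) p := by
      rw [CharP.charP_iff_prime_eq_zero hpp, ← map_natCast (Ideal.Quotient.mk I),
        Ideal.Quotient.eq_zero_iff_mem]
      have := hF 0 hh
      rwa [pow_zero, coeff_one_mulSeries] at this
    have key := frob_lead p (hom_map hθ (Ideal.Quotient.mk I)) h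
      (fun l hl => by
        rw [← map_mulSeries, PowerSeries.coeff_map, Ideal.Quotient.eq_zero_iff_mem]
        exact hF l hl)
      (fun l hl => by
        rw [← map_mulSeries, PowerSeries.coeff_map, Ideal.Quotient.eq_zero_iff_mem]
        exact hG l hl)
    rw [← map_mulSeries, ← map_mulSeries, PowerSeries.coeff_map, PowerSeries.coeff_map,
      PowerSeries.coeff_map, ← map_pow, ← map_mul, ← map_mul, Ideal.Quotient.eq] at key
    exact frob_sup_eq hu (hu.pow _) key

end Crest.Agent.R227
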