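import Crest.Agent.R227.FG

/-! # Row 227: congruences modulo the total degree. -/

set_option autoImplicit false
set_option linter.unusedSectionVars false

open MvPowerSeries Finset

noncomputable section
namespace Crest.Agent.R227

variable {R : Type} [CommRing R]

/-- series all of whose coefficients of total degree `< k` vanish -/
def lazI (τ : Type) (R : Type) [CommRing R] (k : ℕ) : Ideal (MvPowerSeries τ R) where
  carrier := {f | (k : ℕ∞) ≤ f.order}
  add_mem' ha hb := le_trans (le_min ha hb) min_order_le_add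
  zero_mem' := by simp
  smul_mem' c x hx := by
    have := le_order_mul (f := c) (g := x)
    exact le_trans (le_trans hx le_add_self) this

variable {τ σ : Type}

theorem lazI_iff {k : ℕ} {f : MvPowerSeries τ R} :
    f ∈ lazI τ R k ↔ ∀ d : τ →₀ ℕ, d.degree < k → coeff d f = 0 := by
  constructor
  · intro h d hd
    exact coeff_of_lt_order (lt_of_lt_of_le (by exact_mod_cast hd) h)
  · intro h
    exact nat_le_order h

theorem lazI_mono {k l : ℕ} (h : k ≤ l) {f : MvPowerSeries τ R} (hf : f ∈ lazI τ R l) :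
    f ∈ lazI τ R k :=
  lazI_iff.2 fun d hd => lazI_iff.1 hf d (lt_of_lt_of_le hd h)

theorem lazI_zero (f : MvPowerSeries τ R) : f ∈ lazI τ R 0 :=
  lazI_iff.2 fun _ hd => absurd hd (Nat.not_lt_zero _)

theorem lazI_mul {k l : ℕ} {f g : MvPowerSeries τ R} (hf : f ∈ lazI τ R k) (hg : g ∈ lazI τ R l) :
    f * g ∈ lazI τ R (k + l) := by
  have := le_order_mul (f := f) (g := g)
  refine le_trans ?_ this
  push_cast
  exact add_le_add hf hg

theorem lazI_one_iff {f : MvPowerSeries τ R} : f ∈ lazI τ R 1 ↔ constantCoeff f = 0 := by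
  rw [← one_le_order_iff_constCoeff_eq_zero]; rfl

theorem lazI_pow {f : MvPowerSeries τ R} (hf : f ∈ lazI τ R 1) (n : ℕ) : f ^ n ∈ lazI τ R n := by
  induction n with
  | zero => exact lazI_zero _
  | succ n ih => rw [pow_succ]; exact lazI_mul ih hf

theorem lazI_X (i : τ) : (X i : MvPowerSeries τ R) ∈ lazI τ R 1 := lazI_one_iff.2 (by simp)

theorem eq_zero_of_lazI {f : MvPowerSeries τ R} (h : ∀ k, f ∈ lazI τ R k) : f = 0 := by
  ext d
  exact lazI_iff.1 (h (d.degree + 1)) d (Nat.lt_succ_self _)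

theorem lazI_pow_sub {a a' : MvPowerSeries τ R} {r : ℕ} (ha : a ∈ lazI τ R 1)
    (ha' : a' ∈ lazI τ R 1) (h : a - a' ∈ lazI τ R (r + 1)) (n : ℕ) :
    a ^ n - a' ^ n ∈ lazI τ R (n + r) := by
  induction n with
  | zero => simp
  | succ n ih =>
    have e : a ^ (n + 1) - a' ^ (n + 1) = (a ^ n - a' ^ n) * a + a' ^ n * (a - a') := by ring
    rw [e]
    refine add_mem ?_ ?_
    · exact lazI_mono (by omega) (lazI_mul ih ha)
    · exact lazI_mono (by omega) (lazI_mul (lazI_pow ha' n) h)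

theorem lazI_prod {a : σ → MvPowerSeries τ R} (ha : ∀ i, a i ∈ lazI τ R 1) (d : σ →₀ ℕ) :
    d.prod (fun s e => a s ^ e) ∈ lazI τ R d.degree := by
  induction d using Finsupp.induction_linear with
  | zero => exact lazI_mono (by simp) (lazI_zero _)
  | add d₁ d₂ h₁ h₂ =>
    rw [Finsupp.prod_add_index' (by simp) (by intros; rw [pow_add]), map_add]
    exact lazI_mul h₁ h₂
  | single s e =>
    rw [Finsupp.prod_single_index (by simp), Finsupp.degree_single]
    exact lazI_pow (ha s) e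

theorem lazI_prod_sub {a a' : σ → MvPowerSeries τ R} {r : ℕ} (ha : ∀ i, a i ∈ lazI τ R 1)
    (ha' : ∀ i, a' i ∈ lazI τ R 1) (h : ∀ i, a i - a' i ∈ lazI τ R (r + 1)) (d : σ →₀ ℕ) :
    d.prod (fun s e => a s ^ e) - d.prod (fun s e => a' s ^ e) ∈ lazI τ R (d.degree + r) := by
  induction d using Finsupp.induction_linear with
  | zero => simp
  | add d₁ d₂ h₁ h₂ =>
    rw [Finsupp.prod_add_index' (by simp) (by intros; rw [pow_add]),
      Finsupp.prod_add_index' (by simp) (by intros; rw [pow_add]), map_add]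
    have e : ∀ A B A' B' : MvPowerSeries τ R,
        A * B - A' * B' = A * (B - B') + (A - A') * B' := by intros; ring
    rw [e]
    refine add_mem ?_ ?_
    · exact lazI_mono (by omega) (lazI_mul (lazI_prod ha d₁) h₂)
    · exact lazI_mono (by omega) (lazI_mul h₁ (lazI_prod ha' d₂))
  | single s e =>
    rw [Finsupp.prod_single_index (by simp), Finsupp.prod_single_index (by simp),
      Finsupp.degree_single]
    exact lazI_pow_sub (ha s) (ha' s) (h s) e

theorem laz_hasSubst [Finite σ] {a : σ → MvPowerSeries τ R} (ha : ∀ i, a i ∈ lazI τ R 1) :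
    HasSubst a :=
  hasSubst_of_constantCoeff_zero fun i => lazI_one_iff.1 (ha i)

theorem lazI_subst [Finite σ] {a : σ → MvPowerSeries τ R} (ha : ∀ i, a i ∈ lazI τ R 1) {k : ℕ}
    {f : MvPowerSeries σ R} (hf : f ∈ lazI σ R k) : f.subst a ∈ lazI τ R k := by
  rw [lazI_iff]
  intro e he
  rw [coeff_subst (laz_hasSubst ha)]
  refine finsum_eq_zero_of_forall_eq_zero fun d => ?_
  by_cases hd : d.degree < k
  · rw [lazI_iff.1 hf d hd, zero_smul]
  · rw [lazI_iff.1 (lazI_prod ha d) e (by omega), smul_zero]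

theorem lazI_subst_sub [Finite σ] {a a' : σ → MvPowerSeries τ R} {r : ℕ}
    (ha : ∀ i, a i ∈ lazI τ R 1) (ha' : ∀ i, a' i ∈ lazI τ R 1)
    (h : ∀ i, a i - a' i ∈ lazI τ R (r + 1)) {k : ℕ} {f : MvPowerSeries σ R}
    (hf : f ∈ lazI σ R k) : f.subst a - f.subst a' ∈ lazI τ R (k + r) := by
  rw [lazI_iff]
  intro e he
  rw [map_sub, coeff_subst (laz_hasSubst ha), coeff_subst (laz_hasSubst ha'), sub_eq_zero]
  refine finsum_congr fun d => ?_
  by_cases hd : d.degree < k
  · rw [lazI_iff.1 hf d hd, zero_smul, zero_smul]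
  · have := lazI_iff.1 (lazI_prod_sub ha ha' h d) e (by omega)
    rw [map_sub, sub_eq_zero] at this
    rw [this]

theorem laz_pair {A B : MvPowerSeries τ R} {k : ℕ} (hA : A ∈ lazI τ R k) (hB : B ∈ lazI τ R k) :
    ∀ i, (![A, B] : Fin 2 → MvPowerSeries τ R) i ∈ lazI τ R k := by
  intro i; fin_cases i <;> simpa

/-- exponent `(i, j)` -/
def e2 (i j : ℕ) : Fin 2 →₀ ℕ := Finsupp.single 0 i + Finsupp.single 1 j

theorem e2_zero (i j : ℕ) : e2 i j 0 = i := by simp [e2]
theorem e2_one (i j : ℕ) : e2 i j 1 = j := by simp [e2]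

theorem e2_eta (d : Fin 2 →₀ ℕ) : e2 (d 0) (d 1) = d := by
  ext i; fin_cases i <;> simp [e2]

theorem degree_e2 (i j : ℕ) : (e2 i j).degree = i + j := by simp [e2]

theorem e2_inj {i j i' j' : ℕ} : e2 i j = e2 i' j' ↔ i = i' ∧ j = j' := by
  constructor
  · intro h
    exact ⟨by simpa [e2] using DFunLike.congr_fun h 0, by simpa [e2] using DFunLike.congr_fun h 1⟩
  · rintro ⟨rfl, rfl⟩; rfl

theorem coeff_e2_X (i j s t : ℕ) :
    coeff (e2 i j) ((X 0 : MvPowerSeries (Fin 2) R) ^ s * X 1 ^ t) =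
      if i = s ∧ j = t then 1 else 0 := by
  classical
  rw [X_pow_eq, X_pow_eq, monomial_mul_monomial, coeff_monomial, mul_one]
  exact if_congr e2_inj rfl rfl

/-- the form of degree `m` with coefficients `a` -/
def lazForm (a : ℕ → R) (m : ℕ) (A B : MvPowerSeries τ R) : MvPowerSeries τ R :=
  ∑ i ∈ range (m + 1), C (a i) * (A ^ i * B ^ (m - i))

theorem coeff_lazForm (a : ℕ → R) (m : ℕ) (i j : ℕ) :
    coeff (e2 i j) (lazForm a m (X 0 : MvPowerSeries (Fin 2) R) (X 1)) =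
      if i + j = m then a i else 0 := by
  rw [lazForm, map_sum]
  simp only [coeff_C_mul, coeff_e2_X]
  split_ifs with h
  · rw [Finset.sum_eq_single i]
    · rw [if_pos ⟨rfl, by omega⟩, mul_one]
    · intro b _ hb; rw [if_neg (fun h => hb h.1.symm), mul_zero]
    · intro hi; exact absurd (mem_range.2 (by omega)) hi
  · refine Finset.sum_eq_zero fun b hb => ?_
    have := mem_range.1 hb
    rw [if_neg (by omega), mul_zero]

theorem subst_lazForm (a : ℕ → R) (m : ℕ) {A B : MvPowerSeries τ R} (hA : A ∈ lazI τ R 1)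
    (hB : B ∈ lazI τ R 1) :
    (lazForm a m (X 0 : MvPowerSeries (Fin 2) R) (X 1)).subst ![A, B] = lazForm a m A B := by
  have hs := laz_hasSubst (laz_pair hA hB)
  rw [← coe_substAlgHom hs, lazForm, map_sum]
  refine Finset.sum_congr rfl fun i _ => ?_
  rw [map_mul, map_mul, map_pow, map_pow, substAlgHom_X, substAlgHom_X, substAlgHom_apply, subst_C]
  rfl

/-- leading form of a two-variable series -/
theorem lazI_sub_form {D : MvPowerSeries (Fin 2) R} {m : ℕ} (hD : D ∈ lazI (Fin 2) R m) :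
    D - lazForm (fun i => coeff (e2 i (m - i)) D) m (X 0) (X 1) ∈ lazI (Fin 2) R (m + 1) := by
  rw [lazI_iff]
  intro d hd
  rw [← e2_eta d, degree_e2] at hd
  rw [← e2_eta d, map_sub, coeff_lazForm]
  split_ifs with h
  · rw [show m - d 0 = d 1 by omega, sub_self]
  · rw [lazI_iff.1 hD _ (by rw [degree_e2]; omega), sub_zero]

/-- `D(A, B) ≡ Δ(A₁, B₁)` -/
theorem lazI_subst_form {D : MvPowerSeries (Fin 2) R} {m : ℕ} (hD : D ∈ lazI (Fin 2) R m)
    {A B A₁ B₁ : MvPowerSeries τ R} (hA : A ∈ lazI τ R 1) (hB : B ∈ lazI τ R 1)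
    (hA₁ : A₁ ∈ lazI τ R 1) (hB₁ : B₁ ∈ lazI τ R 1) (h₁ : A - A₁ ∈ lazI τ R 2)
    (h₂ : B - B₁ ∈ lazI τ R 2) :
    D.subst ![A, B] - lazForm (fun i => coeff (e2 i (m - i)) D) m A₁ B₁ ∈ lazI τ R (m + 1) := by
  have k1 : D.subst ![A, B] - D.subst ![A₁, B₁] ∈ lazI τ R (m + 1) :=
    lazI_subst_sub (r := 1) (laz_pair hA hB) (laz_pair hA₁ hB₁)
      (by intro i; fin_cases i <;> simpa) hD
  have k2 := lazI_subst (laz_pair hA₁ hB₁) (lazI_sub_form hD)
  rw [subst_sub (laz_hasSubst (laz_pair hA₁ hB₁)), subst_lazForm _ _ hA₁ hB₁] at k2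
  have := add_mem k1 k2
  rwa [sub_add_sub_cancel] at this

theorem lazI_fg (F : FormalGroup R) : F.toPowerSeries - (X 0 + X 1) ∈ lazI (Fin 2) R 2 := by
  rw [lazI_iff]
  intro d hd
  rw [← e2_eta d, degree_e2] at hd
  rw [← e2_eta d]
  have h0 := coeff_e2_X (R := R) (d 0) (d 1) 1 0
  have h1 := coeff_e2_X (R := R) (d 0) (d 1) 0 1
  simp only [pow_one, pow_zero, mul_one, one_mul] at h0 h1
  rw [map_sub, map_add, h0, h1]
  have : (d 0 = 0 ∧ d 1 = 0) ∨ (d 0 = 1 ∧ d 1 = 0) ∨ (d 0 = 0 ∧ d 1 = 1) := by omega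
  rcases this with ⟨a, b⟩ | ⟨a, b⟩ | ⟨a, b⟩ <;> rw [a, b]
  · have : e2 0 0 = 0 := by simp [e2]
    rw [this, coeff_zero_eq_constantCoeff_apply, F.zero_constantCoeff]; simp
  · have : e2 1 0 = Finsupp.single 0 1 := by simp [e2]
    rw [this, F.lin_coeff_X]; simp
  · have : e2 0 1 = Finsupp.single 1 1 := by simp [e2]
    rw [this, F.lin_coeff_Y]; simp

theorem lazI_fg_one (F : FormalGroup R) : F.toPowerSeries ∈ lazI (Fin 2) R 1 :=
  lazI_one_iff.2 F.zero_constantCoeff

theorem lazI_fadd (F : FormalGroup R) {A B : MvPowerSeries τ R} (hA : A ∈ lazI τ R 1)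
    (hB : B ∈ lazI τ R 1) : fadd F A B ∈ lazI τ R 1 :=
  lazI_subst (laz_pair hA hB) (lazI_fg_one F)

theorem subst_X_add_X {A B : MvPowerSeries τ R} (hA : A ∈ lazI τ R 1) (hB : B ∈ lazI τ R 1) :
    (X 0 + X 1 : MvPowerSeries (Fin 2) R).subst ![A, B] = A + B := by
  have hs := laz_hasSubst (laz_pair hA hB)
  rw [subst_add hs, subst_X hs, subst_X hs]; rfl

theorem lazI_fadd_lin (F : FormalGroup R) {A B : MvPowerSeries τ R} (hA : A ∈ lazI τ R 1)
    (hB : B ∈ lazI τ R 1) : fadd F A B - (A + B) ∈ lazI τ R 2 := by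
  have := lazI_subst (laz_pair hA hB) (lazI_fg F)
  rwa [subst_sub (laz_hasSubst (laz_pair hA hB)), subst_X_add_X hA hB] at this

/-- `F(A, B) - F(A', B') ≡ (A - A') + (B - B')` -/
theorem lazI_fadd_sub (F : FormalGroup R) {A B A' B' : MvPowerSeries τ R} {r : ℕ}
    (hA : A ∈ lazI τ R 1) (hB : B ∈ lazI τ R 1) (hA' : A' ∈ lazI τ R 1) (hB' : B' ∈ lazI τ R 1)
    (h₁ : A - A' ∈ lazI τ R (r + 1)) (h₂ : B - B' ∈ lazI τ R (r + 1)) :
    fadd F A B - fadd F A' B' - ((A - A') + (B - B')) ∈ lazI τ R (r + 2) := by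
  have := lazI_subst_sub (r := r) (laz_pair hA hB) (laz_pair hA' hB')
    (by intro i; fin_cases i <;> simpa) (lazI_fg F)
  rw [subst_sub (laz_hasSubst (laz_pair hA hB)), subst_sub (laz_hasSubst (laz_pair hA' hB')),
    subst_X_add_X hA hB, subst_X_add_X hA' hB', add_comm 2 r] at this
  convert this using 1
  simp only [fadd]; ring

end Crest.Agent.R227
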