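import Crest.Agent.R227.Frob
import Crest.Agent.R227.LazOrd

/-! # Row 227: chain rule for partial derivatives, invariance of the differential. -/

set_option autoImplicit false
set_option linter.unusedSectionVars false

open MvPowerSeries

noncomputable section
namespace Crest.Agent.R227

variable {R : Type} [CommRing R]

theorem cz1_lazI_pderiv {σ : Type} (i : σ) {k : ℕ} {f : MvPowerSeries σ R}
    (hf : f ∈ lazI σ R (k + 1)) : pderiv R i f ∈ lazI σ R k := by
  rw [lazI_iff] at hf ⊢
  intro d hd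
  rw [coeff_pderiv, hf _ (by rw [map_add, Finsupp.degree_single]; omega), zero_mul]

theorem cz1_chain_poly {σ τ : Type} [Fintype σ] {a : σ → MvPowerSeries τ R}
    (ha : ∀ s, constantCoeff (a s) = 0) (i : τ) (P : MvPolynomial σ R) :
    pderiv R i (subst a (P : MvPowerSeries σ R)) =
      ∑ s, subst a (pderiv R s (P : MvPowerSeries σ R)) * pderiv R i (a s) := by
  classical
  have hs : HasSubst a := hasSubst_of_constantCoeff_zero ha
  have h0 : subst a (0 : MvPowerSeries σ R) = 0 := by rw [← coe_substAlgHom hs, map_zero]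
  have h1 : subst a (1 : MvPowerSeries σ R) = 1 := by rw [← coe_substAlgHom hs, map_one]
  induction P using MvPolynomial.induction_on with
  | C r => simp [MvPolynomial.coe_C, subst_C, h0]
  | add P Q hP hQ =>
    simp only [MvPolynomial.coe_add, subst_add hs, map_add, hP, hQ, add_mul,
      Finset.sum_add_distrib]
  | mul_X P n hP =>
    simp only [MvPolynomial.coe_mul, MvPolynomial.coe_X, subst_mul hs, subst_X hs,
      Derivation.leibniz, smul_eq_mul, subst_add hs, hP, add_mul, Finset.sum_add_distrib,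
      Finset.mul_sum, mul_assoc]
    congr 1
    rw [Finset.sum_eq_single n]
    · rw [pderiv_X_self, h1, one_mul]
    · intro s _ hsn
      rw [pderiv_X_of_ne hsn.symm, h0, zero_mul, mul_zero]
    · intro h; exact absurd (Finset.mem_univ n) h

/-- chain rule -/
theorem cz1_chain {σ τ : Type} [Fintype σ] {a : σ → MvPowerSeries τ R}
    (ha : ∀ s, constantCoeff (a s) = 0) (i : τ) (f : MvPowerSeries σ R) :
    pderiv R i (subst a f) = ∑ s, subst a (pderiv R s f) * pderiv R i (a s) := by
  classical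
  have hs : HasSubst a := hasSubst_of_constantCoeff_zero ha
  have ha' : ∀ s, a s ∈ lazI τ R 1 := fun s => lazI_one_iff.2 (ha s)
  rw [← sub_eq_zero]
  refine eq_zero_of_lazI fun k => ?_
  obtain ⟨P, g, hg, rfl⟩ : ∃ (P : MvPolynomial σ R) (g : MvPowerSeries σ R),
      g ∈ lazI σ R (k + 1) ∧ f = P + g := by
    refine ⟨truncTotal (k + 1) f, f - (truncTotal (k + 1) f : MvPolynomial σ R), ?_, by ring⟩
    rw [lazI_iff]
    intro d hd
    rw [map_sub, MvPolynomial.coeff_coe, coeff_truncTotal _ hd, sub_self]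
  simp only [subst_add hs, map_add, add_mul, Finset.sum_add_distrib, cz1_chain_poly ha,
    add_sub_add_left_eq_sub]
  exact sub_mem (cz1_lazI_pderiv i (lazI_subst ha' hg))
    (Ideal.sum_mem _ fun s _ => Ideal.mul_mem_right _ _ (lazI_subst ha' (cz1_lazI_pderiv s hg)))

theorem cz1_chain1 {τ : Type} {a : MvPowerSeries τ R} (ha : constantCoeff a = 0) (i : τ)
    (f : PowerSeries R) : pderiv R i (PowerSeries.subst a f) =
      PowerSeries.subst a (PowerSeries.derivative R f) * pderiv R i a := by
  have := cz1_chain (a := fun _ : Unit => a) (fun _ => ha) i f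
  rw [Fintype.sum_unique] at this
  exact this

theorem cz1_chain2 {τ : Type} {a b : MvPowerSeries τ R} (ha : constantCoeff a = 0)
    (hb : constantCoeff b = 0) (i : τ) (P : MvPowerSeries (Fin 2) R) :
    pderiv R i (P.subst ![a, b]) = (pderiv R 0 P).subst ![a, b] * pderiv R i a +
      (pderiv R 1 P).subst ![a, b] * pderiv R i b := by
  rw [cz1_chain (fun s => by fin_cases s <;> simpa) i P, Fin.sum_univ_two]
  rfl

theorem cz1_subst_zero (Φ : MvPowerSeries (Fin 2) R) {τ : Type} {z : MvPowerSeries τ R}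
    (hz : constantCoeff z = 0) : Φ.subst ![z, 0] = PowerSeries.subst z (frob_c0 Φ) := by
  obtain ⟨K, hK⟩ := frob_decomp_subst Φ hz (d := 0) (map_zero _)
  simpa using hK

theorem cz1_c0_pderiv (F : FormalGroup R) : frob_c0 (pderiv R 1 F.toPowerSeries) = uSer F := by
  ext e
  rw [frob_c0, uSer, PowerSeries.coeff_mk, PowerSeries.coeff_mk, coeff_pderiv]
  simp

/-- invariance of the differential -/
theorem cz1_invariant (F : FormalGroup R) :
    PowerSeries.subst F.toPowerSeries (uSer F) = pderiv R 1 F.toPowerSeries * in1 (uSer F) := by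
  have y0 := constantCoeff_X (R := R) (0 : Fin 3)
  have y1 := constantCoeff_X (R := R) (1 : Fin 3)
  have y2 := constantCoeff_X (R := R) (2 : Fin 3)
  have x0 := constantCoeff_X (R := R) (0 : Fin 2)
  have x1 := constantCoeff_X (R := R) (1 : Fin 2)
  have hF := F.zero_constantCoeff
  have h := congrArg (pderiv R (2 : Fin 3)) (F.assoc' (fg_hs y0) (fg_hs y1) (fg_hs y2))
  rw [cz1_chain2 (fg_cc2 hF y0 y1) y2, cz1_chain2 y0 (fg_cc2 hF y1 y2), cz1_chain2 y0 y1,
    cz1_chain2 y1 y2, pderiv_X_self, pderiv_X_of_ne (show (0 : Fin 3) ≠ 2 by decide),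
    pderiv_X_of_ne (show (1 : Fin 3) ≠ 2 by decide)] at h
  simp only [mul_zero, add_zero, zero_add, mul_one] at h
  have hc : HasSubst (![X 0, X 1, 0] : Fin 3 → MvPowerSeries (Fin 2) R) :=
    hasSubst_of_constantCoeff_zero fun s => by fin_cases s <;> simp
  have h2 := congrArg (subst (![X 0, X 1, 0] : Fin 3 → MvPowerSeries (Fin 2) R)) h
  rw [subst_mul hc, fg_subst2 _ (fg_cc2 hF y0 y1) y2 hc, fg_subst2 _ y0 (fg_cc2 hF y1 y2) hc,
    fg_subst2 _ y0 y1 hc, fg_subst2 _ y1 y2 hc, fg_subst2 _ y1 y2 hc, subst_X hc, subst_X hc,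
    subst_X hc] at h2
  change subst ![subst ![X 0, X 1] _, 0] _ = subst ![X 0, subst ![X 1, 0] _] _ *
    subst ![X 1, 0] _ at h2
  rw [fg_self2, F.add_zero (fg_hs x1), fg_self2, cz1_subst_zero _ hF, cz1_subst_zero _ x1,
    cz1_c0_pderiv] at h2
  exact h2

/-- a series in two variables vanishing on `Y = 0` and with zero derivative in `Y` vanishes -/
theorem cz1_eq_zero {K : Type} [Field K] [CharZero K] {Φ : MvPowerSeries (Fin 2) K}
    (h0 : frob_c0 Φ = 0) (h1 : pderiv K 1 Φ = 0) : Φ = 0 := by
  ext d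
  obtain ⟨i, j, rfl⟩ : ∃ i j, d = Finsupp.single 0 i + Finsupp.single 1 j :=
    ⟨_, _, frob_finsupp_eq d⟩
  rw [coeff_zero]
  rcases j with _ | j
  · have := congrArg (PowerSeries.coeff i) h0
    rw [frob_c0, PowerSeries.coeff_mk, (PowerSeries.coeff i).map_zero] at this
    rw [Finsupp.single_zero, add_zero, this]
  · have := congrArg (coeff (Finsupp.single 0 i + Finsupp.single 1 j)) h1
    rw [coeff_pderiv, coeff_zero, add_assoc, ← Finsupp.single_add] at this
    exact (mul_eq_zero.1 this).resolve_right (Nat.cast_add_one_ne_zero _)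

end Crest.Agent.R227
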