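import Crest.Agent.R227.AsymAux

/-! # Row 227: asymptotic evaluation of the formal coordinates along an orbit. -/

set_option autoImplicit false
set_option linter.unusedSectionVars false

open MvPowerSeries Filter Topology

noncomputable section
namespace Crest.Agent.R227

open Crest.LubinTate

variable {K : Type} [NontriviallyNormedField K] [IsUltrametricDist K] [CompleteSpace K]
  [IsAlgClosed K] {p : ℕ} [Fact p.Prime] [CharP K p] {m : ℕ}

/-- Plan (`Q = p^h`, `R = K⟦T⟧`).  Lift `η` to `η_T = ∑ e_k X^k ∈ R⟦X⟧` with `η_T(V_T) = η_T^(Q)` and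
`e_k(0) = η_k`: `e_k^Q - v_T^k e_k = (lower terms)`, `v_T` a unit of `R`, Hensel's lemma.  Put
`S''_i = ∑ e_k S_i^k ∈ R` (define coefficientwise; `≡ ∑_{k<N}` modulo order `N`).  The Jacobian of
`S''` is `η₁` times that of `S`, so `f = F(S'')` (`subst_surjective`, `span_X_le_of_jacobian`).
Given the sequences: `‖T i‖ = O(r^(Q^i))` (invert the Jacobian; `‖T i‖ → 0`).  Let `𝒜` be the ring of
bounded sequences in `K`, `𝒜_N` the ideal of the `O(r^(N Q^i))` (it contains the finitely supported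
sequences), `ev_N : R → 𝒜/𝒜_N` (`exists_ev` with `I = ⊥`); it sends `g ∈ O⟦T⟧` to `(g(T i))_i`
(`hom_ext`).  By induction `ev_N e_k = (coeff k (η' i))_i`: the difference `d` tends to `0` and
`d^Q = v^k d`.  So `ev_N S''_j = (π_j^(Q^i))_i` and `ev_N f = 0`. -/
theorem exists_hypersurface {h : ℕ} (hh : 1 ≤ h) (VT : PowerSeries (MvPowerSeries (Fin m) (OO K)))
    (hV0 : PowerSeries.constantCoeff VT = 0)
    (hV1 : constantCoeff (PowerSeries.coeff 1 VT) ≠ 0) (η : PowerSeries (OO K))
    (hη0 : PowerSeries.constantCoeff η = 0) (hη1 : PowerSeries.coeff 1 η ≠ 0)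
    (hη : (PowerSeries.subst (PowerSeries.map
      (constantCoeff : MvPowerSeries (Fin m) (OO K) →+* OO K) VT) η : PowerSeries (OO K)) =
      PowerSeries.map (iterateFrobenius (OO K) p h) η)
    (S : Fin m → MvPowerSeries (Fin m) (OO K)) (hS0 : ∀ i, constantCoeff (S i) = 0)
    (hJ : ∀ a : Fin m → K,
      (∀ i, ∑ l, ((coeff (Finsupp.single l 1) (S i) : OO K) : K) * a l = 0) → a = 0)
    (f : MvPowerSeries (Fin m) (OO K)) (hf : f ≠ 0) :
    ∃ F : MvPowerSeries (Fin m) K, F ≠ 0 ∧
      ∀ (T : ℕ → Fin m → OO K) (η' : ℕ → PowerSeries (OO K)) (π : Fin m → OO K) (r : ℝ),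
        0 < r → r < 1 → (∀ l, Tendsto (fun i => T i l) atTop (𝓝 0)) →
        (∀ e, Tendsto (fun i => PowerSeries.coeff e (η' i)) atTop (𝓝 (PowerSeries.coeff e η))) →
        (∀ᶠ i in atTop, PowerSeries.constantCoeff (η' i) = 0 ∧
          (PowerSeries.subst (PowerSeries.map (ev (IO K) (RingHom.id _) (T i)) VT) (η' i) :
            PowerSeries (OO K)) = PowerSeries.map (iterateFrobenius (OO K) p h) (η' i) ∧
          (∀ l, ‖ev (IO K) (RingHom.id _) (T i) (S l)‖ ≤ r ^ (p ^ h) ^ i) ∧
          (∀ l, ev1 (IO K) (ev (IO K) (RingHom.id _) (T i) (S l)) (η' i) = π l ^ (p ^ h) ^ i) ∧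
          ev (IO K) (RingHom.id _) (T i) f = 0) →
        AsympVanish (p ^ h) F π r := by
  have hQ : 1 < p ^ h := Nat.one_lt_pow (by omega) (Fact.out : p.Prime).one_lt
  let ι : MvPowerSeries (Fin m) (OO K) →+* MvPowerSeries (Fin m) K :=
    MvPowerSeries.map (OO K).subtype
  have hcc : ∀ g, constantCoeff (ι g) = ((constantCoeff g : OO K) : K) := fun g =>
    constantCoeff_map _ g
  have hv0 : ((constantCoeff (PowerSeries.coeff 1 VT) : OO K) : K) ≠ 0 := fun h0 =>
    hV1 (Subtype.ext h0)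
  obtain ⟨e, he⟩ := asym_exists_lift hh (fun k j => ι (PowerSeries.coeff k (VT ^ j)))
    (ι (PowerSeries.coeff 1 VT)) (fun k => ((PowerSeries.coeff k η : OO K) : K))
    (by rw [hcc]; exact hv0) (fun k => by
      have := congrArg (OO K).subtype (asym_rel hV0 _ hη k)
      simp only [map_pow, map_add, map_sum, map_mul] at this
      simp only [hcc]
      exact this)
  have he0 : e 0 = 0 := by
    have h1 := (he 0).1
    have h2 := (he 0).2
    rw [PowerSeries.coeff_zero_eq_constantCoeff_apply, hη0] at h1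
    rw [Finset.range_zero, Finset.sum_empty, zero_add, pow_zero, mul_one] at h2
    have h3 : e 0 * (e 0 ^ (p ^ h - 1) - 1) = 0 := by
      rw [mul_sub, ← pow_succ', Nat.sub_add_cancel hQ.le, h2, mul_one, sub_self]
    refine (mul_eq_zero.1 h3).resolve_right fun h4 => ?_
    have h5 := congrArg constantCoeff h4
    rw [map_sub, map_pow, h1, map_one, map_zero, ZeroMemClass.coe_zero,
      zero_pow (by omega), zero_sub, neg_eq_zero] at h5
    exact one_ne_zero h5
  set I : Ideal (MvPowerSeries (Fin m) K) := Ideal.span (Set.range X) with hI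
  have hSI : ∀ l, ι (S l) ∈ I := fun l =>
    (TestAux.mem_span_X_iff _).2 (by rw [hcc, hS0, ZeroMemClass.coe_zero])
  let S'' : Fin m → MvPowerSeries (Fin m) K := fun l => ev1 I (ι (S l)) (PowerSeries.mk e)
  have hlin : ∀ l, S'' l - C ((PowerSeries.coeff 1 η : OO K) : K) * ι (S l) ∈ I ^ 2 := by
    intro l
    obtain ⟨c, hc⟩ := ev1_eq I (PowerSeries.mk e) (Ideal.le_radical (hSI l))
    have h1 : e 1 - C ((PowerSeries.coeff 1 η : OO K) : K) ∈ I :=
      (TestAux.mem_span_X_iff _).2 (by rw [map_sub, (he 1).1, constantCoeff_C, sub_self])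
    have h2 : S'' l - C ((PowerSeries.coeff 1 η : OO K) : K) * ι (S l) =
        (e 1 - C ((PowerSeries.coeff 1 η : OO K) : K)) * ι (S l) + ι (S l) ^ 2 * c := by
      simp only [S'']
      rw [hc, PowerSeries.constantCoeff_mk, PowerSeries.coeff_mk, he0]
      ring
    rw [h2]
    refine add_mem ?_ (Ideal.mul_mem_right _ _ (Ideal.pow_mem_pow (hSI l) 2))
    rw [sq]
    exact Ideal.mul_mem_mul h1 (hSI l)
  have hb : ∀ l, constantCoeff (S'' l) = 0 := fun l => by
    have h1 := (mem_span_X_pow_iff _ 2).1 (hlin l) 0 (by simp)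
    rw [coeff_zero_eq_constantCoeff_apply, map_sub, map_mul, hcc, hS0, ZeroMemClass.coe_zero,
      mul_zero, sub_zero] at h1
    exact h1
  have hs : HasSubst S'' := hasSubst_of_constantCoeff_zero hb
  obtain ⟨F, hF⟩ := subst_surjective hb (span_X_le_of_jacobian hb fun a ha => hJ a fun i => by
    have h1 := ha i
    have h2 : ∀ l, coeff (Finsupp.single l 1) (S'' i) = ((PowerSeries.coeff 1 η : OO K) : K) *
        ((coeff (Finsupp.single l 1) (S i) : OO K) : K) := fun l => by
      have h3 := (mem_span_X_pow_iff _ 2).1 (hlin i) (Finsupp.single l 1) (by simp)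
      rw [map_sub, coeff_C_mul, sub_eq_zero] at h3
      exact h3
    simp only [h2, mul_assoc, ← Finset.mul_sum] at h1
    exact (mul_eq_zero.1 h1).resolve_left fun h0 => hη1 (Subtype.ext h0)) (ι f)
  replace hF : F.subst S'' = ι f := hF
  refine ⟨F, ?_, ?_⟩
  · rintro rfl
    rw [← coe_substAlgHom hs, map_zero] at hF
    exact hf (fg_map_injective (OO K).subtype Subtype.val_injective
      (hF.symm.trans (map_zero _).symm))
  intro T η' π r hr0 hr1 hT hη' hev N
  rcases Nat.eq_zero_or_pos N with rfl | hN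
  · have : truncTotal 0 F = 0 := by
      ext d
      rw [coeff_truncTotal_eq_zero _ (Nat.zero_le _), MvPolynomial.coeff_zero]
    exact ⟨0, Eventually.of_forall fun i => by simp [this]⟩
  set ρ : ℕ → ℝ := fun i => r ^ (p ^ h) ^ i with hρ
  have hρ0 : ∀ i, 0 ≤ ρ i := fun i => pow_nonneg hr0.le _
  have hρ1 : ∀ i, ρ i < 1 := fun i => pow_lt_one₀ hr0.le hr1 (by positivity)
  have hρt : Tendsto ρ atTop (𝓝 0) :=
    (tendsto_pow_atTop_nhds_zero_of_lt_one hr0.le hr1).comp (tendsto_pow_atTop_atTop_of_one_lt hQ)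
  have hw : Tendsto (fun i => ρ i ^ N) atTop (𝓝 0) := by
    simpa only [zero_pow hN.ne'] using hρt.pow N
  set J : Ideal (asymC K) := asymJ K fun i => ρ i ^ N with hJ'
  let mk : asymC K →+* asymC K ⧸ J := Ideal.Quotient.mk J
  have hTn : Tendsto (fun i => ‖T i‖) atTop (𝓝 0) :=
    tendsto_zero_iff_norm_tendsto_zero.1 (tendsto_pi_nhds.2 hT)
  have hTm : ∀ᶠ i in atTop, ∀ l, T i l ∈ (IO K).radical := by
    filter_upwards [hTn.eventually (gt_mem_nhds one_pos)] with i hi l
    exact (mem_IO_radical K _).2 ((norm_le_pi_norm (T i) l).trans_lt hi)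
  have hnil : ∀ y ∈ asymJ K ρ, mk y ^ N = 0 := fun y hy => by
    rw [← map_pow]
    exact Ideal.Quotient.eq_zero_iff_mem.2 (asymJ_pow ρ N (Ideal.pow_mem_pow hy N))
  have hX : ∀ l, asymEv hTn (X l) ∈ asymJ K ρ := by
    intro l
    obtain ⟨M, δ, hδ, hM⟩ := asym_bound S hS0 hJ
    refine asymJ_of_le (M := M) ?_
    filter_upwards [hTm, hev, hTn.eventually (gt_mem_nhds hδ)] with i h1 h2 h3
    rw [asymAt_ev, ev_X _ _ h1, OO_norm_coe]
    exact (norm_le_pi_norm (T i) l).trans (hM (T i) (ρ i) (hρ0 i) h3 h2.2.2.1)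
  obtain ⟨ε, hεC, hεX⟩ := exists_ev (⊥ : Ideal (asymC K ⧸ J)) (mk.comp (asymConst K))
    (fun l => mk (asymEv hTn (X l))) fun l => ⟨N, hnil _ (hX l)⟩
  have h1 : ∀ g, ε (ι g) = mk (asymEv hTn g) := by
    have : ε.comp ι = mk.comp (asymEv hTn) := by
      refine hom_ext ⊥ (fun l => ?_) (fun a => ?_) fun l => ?_
      · simp only [RingHom.comp_apply, ι, map_X, hεX]
        exact ⟨N, hnil _ (hX l)⟩
      · simp only [RingHom.comp_apply, ι, map_C, hεC]
        refine Ideal.Quotient.eq.2 (asymJ_of_eventually (Eventually.of_forall fun i => ?_))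
        rw [asymAt_const, asymAt_ev, ev_C]
        rfl
      · simp only [RingHom.comp_apply, ι, map_X, hεX]
    exact RingHom.congr_fun this
  let lim : asymC K ⧸ J →+* K := Ideal.Quotient.lift J (asymLim K) fun x hx => asymJ_lim hw hx
  have hlim : ∀ x, lim (mk x) = asymLim K x := fun x => rfl
  have h2 : ∀ g, lim (ε g) = constantCoeff g := by
    have : lim.comp ε = constantCoeff := by
      refine hom_ext ⊥ (fun l => ?_) (fun a => ?_) fun l => ?_
      · rw [RingHom.comp_apply, hεX, hlim, asymLim_ev, constantCoeff_X]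
        exact zero_mem _
      · rw [RingHom.comp_apply, hεC, RingHom.comp_apply, hlim, asymLim_const, constantCoeff_C]
      · rw [RingHom.comp_apply, hεX, hlim, asymLim_ev, constantCoeff_X, constantCoeff_X]
        rfl
    exact RingHom.congr_fun this
  have : Nontrivial (asymC K ⧸ J) := lim.domain_nontrivial
  have : CharP (asymC K ⧸ J) p := ((mk.comp (asymConst K)).charP_iff_charP p).1 inferInstance
  let x : ℕ → asymC K := fun k => ⟨(fun i => ((PowerSeries.coeff k (η' i) : OO K) : K),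
    ((PowerSeries.coeff k η : OO K) : K)), (continuous_subtype_val.tendsto _).comp (hη' k)⟩
  have hxa : ∀ k i, asymAt K i (x k) = ((PowerSeries.coeff k (η' i) : OO K) : K) := fun _ _ => rfl
  have hxl : ∀ k, asymLim K (x k) = ((PowerSeries.coeff k η : OO K) : K) := fun _ => rfl
  have h3 : ∀ k, ε (e k) = mk (x k) := by
    intro k
    induction k using Nat.strong_induction_on with
    | _ k ih =>
    have r1 : mk (x k ^ p ^ h) = mk (∑ j ∈ Finset.range k,
        x j * asymEv hTn (PowerSeries.coeff k (VT ^ j)) +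
          x k * asymEv hTn (PowerSeries.coeff 1 VT) ^ k) := by
      refine Ideal.Quotient.eq.2 (asymJ_of_eventually ?_)
      filter_upwards [hev] with i hi
      have := congrArg (OO K).subtype (asym_rel hV0 _ hi.2.1 k)
      simp only [map_pow, map_add, map_sum, map_mul] at this ⊢
      exact this
    have r2 := congrArg ε (he k).2
    simp only [map_pow, map_add, map_sum, map_mul, h1] at r1 r2
    have r3 : ∑ j ∈ Finset.range k, ε (e j) * mk (asymEv hTn (PowerSeries.coeff k (VT ^ j))) =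
        ∑ j ∈ Finset.range k, mk (x j) * mk (asymEv hTn (PowerSeries.coeff k (VT ^ j))) :=
      Finset.sum_congr rfl fun j hj => by rw [ih j (Finset.mem_range.1 hj)]
    set d := ε (e k) - mk (x k) with hd
    set V := mk (asymEv hTn (PowerSeries.coeff 1 VT)) with hV
    have r4 : d * (d ^ (p ^ h - 1) - V ^ k) = 0 := by
      rw [mul_sub, ← pow_succ', Nat.sub_add_cancel hQ.le, hd, sub_pow_char_pow, r1, r2, r3]
      ring
    have r5 : lim d = 0 := by rw [hd, map_sub, h2, hlim, hxl, (he k).1, sub_self]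
    obtain ⟨z, hz⟩ := Ideal.Quotient.mk_surjective (d ^ (p ^ h - 1) - V ^ k)
    have r6 : asymLim K z ≠ 0 := by
      rw [← hlim]
      change lim (Ideal.Quotient.mk J z) ≠ 0
      rw [hz, map_sub, map_pow, map_pow, r5, zero_pow (by omega), zero_sub, hV, hlim, asymLim_ev]
      exact neg_ne_zero.2 (pow_ne_zero _ hv0)
    have r7 := asym_isUnit (fun i => ρ i ^ N) r6
    rw [← hJ', hz] at r7
    exact sub_eq_zero.1 (r7.mul_left_eq_zero.1 r4)
  have hπ : ∀ l n, ∀ᶠ i in atTop, ‖(π l : K) ^ (p ^ h) ^ i - ∑ k ∈ Finset.range n,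
      asymAt K i (x k) * asymAt K i (asymEv hTn (S l)) ^ k‖ ≤ 1 * ρ i ^ n := by
    intro l n
    filter_upwards [hev] with i hi
    have a1 := hi.2.2.1 l
    obtain ⟨c, hc⟩ := asym_ev1_trunc (IO K) ((mem_IO_radical K _).2 (a1.trans_lt (hρ1 i)))
      (η' i) n
    rw [hi.2.2.2.1 l, ← sub_eq_iff_eq_add'] at hc
    have a2 := congrArg (OO K).subtype hc
    simp only [map_pow, map_sub, map_sum, map_mul] at a2
    refine (congrArg norm a2).trans_le ?_
    rw [norm_mul, norm_pow, mul_comm]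
    exact mul_le_mul c.2 (pow_le_pow_left₀ (norm_nonneg _) a1 n) (by positivity) zero_le_one
  have hπ1 : ∀ l, ∀ᶠ i in atTop, ‖(π l : K) ^ (p ^ h) ^ i‖ ≤ 1 * ρ i := by
    intro l
    filter_upwards [hev, hπ l 1] with i hi h1
    rw [Finset.sum_range_one, hxa, PowerSeries.coeff_zero_eq_constantCoeff_apply, hi.1,
      ZeroMemClass.coe_zero, zero_mul, sub_zero, pow_one] at h1
    exact h1
  let y : Fin m → asymC K := fun l => ⟨(fun i => (π l : K) ^ (p ^ h) ^ i, 0),
    squeeze_zero_norm' (hπ1 l) (by simpa only [one_mul] using hρt)⟩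
  have hya : ∀ l i, asymAt K i (y l) = (π l : K) ^ (p ^ h) ^ i := fun _ _ => rfl
  have hyJ : ∀ l, y l ∈ asymJ K ρ := fun l => asymJ_of_le (hπ1 l)
  have h4 : ∀ l, ε (S'' l) = mk (y l) := by
    intro l
    obtain ⟨c, hc⟩ := asym_ev1_trunc I (Ideal.le_radical (hSI l)) (PowerSeries.mk e) N
    have a1 : asymEv hTn (S l) ∈ asymJ K ρ := asymJ_of_le (M := 1) (by
      filter_upwards [hev] with i hi
      rw [one_mul]
      exact hi.2.2.1 l)
    have a2 : mk (y l) = mk (∑ k ∈ Finset.range N, x k * asymEv hTn (S l) ^ k) := by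
      refine Ideal.Quotient.eq.2 (asymJ_of_le (M := 1) ?_)
      filter_upwards [hπ l N] with i hi
      simpa only [map_sub, map_sum, map_mul, map_pow, hya] using hi
    simp only [S'']
    rw [hc, a2]
    simp only [map_add, map_sum, map_mul, map_pow, h1, PowerSeries.coeff_mk, h3, hnil _ a1,
      zero_mul, add_zero]
  have h5 : ε (ι f) = 0 := by
    rw [h1, ← map_zero mk]
    refine Ideal.Quotient.eq.2 (asymJ_of_eventually ?_)
    filter_upwards [hev] with i hi
    rw [asymAt_ev, hi.2.2.2.2, map_zero, ZeroMemClass.coe_zero]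
  let θ : MvPowerSeries (Fin m) K →+* asymC K ⧸ J := ε.comp (substAlgHom (R := K) hs).toRingHom
  have hθ : ∀ g, θ g = ε (g.subst S'') := fun g => congrArg ε (congrFun (coe_substAlgHom hs) g)
  have hθX : (fun l => θ (X l)) = mk ∘ y := funext fun l => by
    rw [hθ, subst_X hs, h4, Function.comp_apply]
  have hθC : θ.comp C = mk.comp (asymConst K) := RingHom.ext fun a => by
    rw [RingHom.comp_apply, hθ, subst_C]
    exact hεC a
  have h6 := ev_hom_mem_pow θ (ev_sub_trunc_mem F N)
  have h7 : Ideal.span (Set.range (mk ∘ y)) ^ N ≤ ⊥ := by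
    have b1 : Ideal.span (Set.range (mk ∘ y)) ≤ (asymJ K ρ).map mk := by
      rw [Ideal.span_le]
      rintro _ ⟨l, rfl⟩
      exact Ideal.mem_map_of_mem _ (hyJ l)
    refine (Ideal.pow_right_mono b1 N).trans ?_
    rw [← Ideal.map_pow, Ideal.map_le_iff_le_comap]
    intro z hz
    exact Ideal.Quotient.eq_zero_iff_mem.2 (asymJ_pow ρ N hz)
  rw [hθX, map_sub, hθ F, hF, h5, ev_hom_coe, hθX, hθC, ← MvPolynomial.eval₂_comp_left,
    zero_sub] at h6
  have h8 := Ideal.Quotient.eq_zero_iff_mem.1 (neg_eq_zero.1 (Ideal.mem_bot.1 (h7 h6)))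
  obtain ⟨M, hM⟩ := (mem_asymJ.1 h8).bound
  refine ⟨M, ?_⟩
  filter_upwards [hM] with i hi
  rw [MvPolynomial.eval₂_comp_left, Real.norm_eq_abs, abs_of_nonneg (pow_nonneg (hρ0 i) N),
    hρ, ← pow_mul, mul_comm _ N] at hi
  exact hi

end Crest.Agent.R227
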