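import Crest.Agent.R227.Perf

/-! # Row 227: auxiliary lemmas for `Asym` (coefficient recursion, convergent sequences). -/

set_option autoImplicit false
set_option linter.unusedSectionVars false

open MvPowerSeries Filter Topology Asymptotics

noncomputable section
namespace Crest.Agent.R227

open Crest.LubinTate

section Alg

theorem asym_coeff_subst {A : Type} [CommRing A] {V : PowerSeries A}
    (hV : PowerSeries.constantCoeff V = 0) (θ : PowerSeries A) (k : ℕ) :
    PowerSeries.coeff k (PowerSeries.subst V θ : PowerSeries A) =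
      ∑ j ∈ Finset.range k, PowerSeries.coeff j θ * PowerSeries.coeff k (V ^ j) +
        PowerSeries.coeff k θ * PowerSeries.coeff 1 V ^ k := by
  obtain ⟨W, rfl⟩ := PowerSeries.X_dvd_iff.2 hV
  have h1 : PowerSeries.coeff k ((PowerSeries.X * W) ^ k) =
      PowerSeries.coeff 1 (PowerSeries.X * W) ^ k := by
    have h2 := PowerSeries.coeff_X_pow_mul (W ^ k) k 0
    have h3 := PowerSeries.coeff_succ_X_mul 0 W
    rw [zero_add] at h2 h3
    rw [mul_pow, h2, h3, PowerSeries.coeff_zero_eq_constantCoeff_apply,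
      PowerSeries.coeff_zero_eq_constantCoeff_apply, map_pow]
  rw [PowerSeries.coeff_subst' (PowerSeries.HasSubst.of_constantCoeff_zero' hV),
    finsum_eq_sum_of_support_subset (s := Finset.range (k + 1)), Finset.sum_range_succ, h1]
  · simp only [smul_eq_mul]
  · intro j hj
    rw [Finset.mem_coe, Finset.mem_range]
    by_contra hlt
    refine hj ?_
    have : PowerSeries.coeff k ((PowerSeries.X * W) ^ j) = 0 := by
      rw [mul_pow, PowerSeries.coeff_X_pow_mul', if_neg (by omega)]
    simp only [this, smul_zero]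

/-- the coefficient form of `θ(V) = θ^(Q)` -/
theorem asym_rel {A B : Type} [CommRing A] [CommRing B] {p : ℕ} [ExpChar B p] {h : ℕ}
    {V : PowerSeries A} (hV : PowerSeries.constantCoeff V = 0) (φ : A →+* B) {θ : PowerSeries B}
    (hθ : (PowerSeries.subst (PowerSeries.map φ V) θ : PowerSeries B) =
      PowerSeries.map (iterateFrobenius B p h) θ) (k : ℕ) :
    PowerSeries.coeff k θ ^ p ^ h =
      ∑ j ∈ Finset.range k, PowerSeries.coeff j θ * φ (PowerSeries.coeff k (V ^ j)) +
        PowerSeries.coeff k θ * φ (PowerSeries.coeff 1 V) ^ k := by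
  have h0 : PowerSeries.constantCoeff (PowerSeries.map φ V) = 0 := by
    rw [← PowerSeries.coeff_zero_eq_constantCoeff_apply, PowerSeries.coeff_map,
      PowerSeries.coeff_zero_eq_constantCoeff_apply, hV, map_zero]
  have h1 := asym_coeff_subst h0 θ k
  rw [hθ, PowerSeries.coeff_map, iterateFrobenius_def] at h1
  rw [h1, PowerSeries.coeff_map]
  congr 1
  refine Finset.sum_congr rfl fun j _ => ?_
  rw [← map_pow, PowerSeries.coeff_map]

/-- strong recursion -/
def asymRec {α : Type} [Zero α] (g : ℕ → (ℕ → α) → α) (k : ℕ) : α :=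
  g k fun j => if _h : j < k then asymRec g j else 0
termination_by k

theorem asymRec_eq {α : Type} [Zero α] (g : ℕ → (ℕ → α) → α) (k : ℕ) :
    asymRec g k = g k fun j => if _h : j < k then asymRec g j else 0 := by
  rw [asymRec]

theorem asym_hensel {K σ : Type} [Field K] [Finite σ] {p : ℕ} [Fact p.Prime] [CharP K p] {h : ℕ}
    (hh : 1 ≤ h) (u b : MvPowerSeries σ K) (a : K) (hu : constantCoeff u ≠ 0)
    (hab : a ^ p ^ h = constantCoeff b + a * constantCoeff u) :
    ∃ y : MvPowerSeries σ K, constantCoeff y = a ∧ y ^ p ^ h = b + y * u := by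
  have hQ : 1 < p ^ h := Nat.one_lt_pow (by omega) (Fact.out : p.Prime).one_lt
  have hp0 : ((p ^ h : ℕ) : MvPowerSeries σ K) = 0 := by
    rw [← map_natCast (C : K →+* MvPowerSeries σ K), Nat.cast_pow, CharP.cast_eq_zero,
      zero_pow (by omega), map_zero]
  have hm : (Polynomial.X ^ p ^ h - (Polynomial.C u * Polynomial.X + Polynomial.C b)).Monic :=
    Polynomial.monic_X_pow_sub (Polynomial.degree_linear_le.trans_lt (by exact_mod_cast hQ))
  obtain ⟨y, hy1, hy2⟩ := HenselianRing.is_henselian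
    (I := Ideal.span (Set.range (X : σ → MvPowerSeries σ K))) _ hm (C a)
    ((TestAux.mem_span_X_iff _).2 (by
      simp only [Polynomial.eval_sub, Polynomial.eval_pow, Polynomial.eval_X,
        Polynomial.eval_add, Polynomial.eval_mul, Polynomial.eval_C, map_sub, map_add, map_mul,
        map_pow, constantCoeff_C]
      linear_combination hab))
    (by
      refine IsUnit.map _ ?_
      simp only [Polynomial.derivative_sub, Polynomial.derivative_X_pow, Polynomial.derivative_add,
        Polynomial.derivative_C_mul_X, Polynomial.derivative_C, add_zero, hp0, map_zero, zero_mul,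
        zero_sub, Polynomial.eval_neg, Polynomial.eval_C]
      exact (MvPowerSeries.isUnit_iff_constantCoeff.2 hu.isUnit).neg)
  refine ⟨y, ?_, ?_⟩
  · have := (TestAux.mem_span_X_iff _).1 hy2
    simpa [sub_eq_zero] using this
  · simp only [Polynomial.IsRoot, Polynomial.eval_sub, Polynomial.eval_pow, Polynomial.eval_X,
      Polynomial.eval_add, Polynomial.eval_mul, Polynomial.eval_C] at hy1
    linear_combination hy1

theorem asym_exists_lift {K σ : Type} [Field K] [Finite σ] {p : ℕ} [Fact p.Prime] [CharP K p]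
    {h : ℕ} (hh : 1 ≤ h) (c : ℕ → ℕ → MvPowerSeries σ K) (v : MvPowerSeries σ K) (a : ℕ → K)
    (hv : constantCoeff v ≠ 0)
    (ha : ∀ k, a k ^ p ^ h =
      ∑ j ∈ Finset.range k, a j * constantCoeff (c k j) + a k * constantCoeff v ^ k) :
    ∃ e : ℕ → MvPowerSeries σ K, ∀ k, constantCoeff (e k) = a k ∧
      e k ^ p ^ h = ∑ j ∈ Finset.range k, e j * c k j + e k * v ^ k := by
  have step : ∀ (k : ℕ) (prev : ℕ → MvPowerSeries σ K), ∃ y : MvPowerSeries σ K,
      (∀ j < k, constantCoeff (prev j) = a j) → constantCoeff y = a k ∧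
        y ^ p ^ h = ∑ j ∈ Finset.range k, prev j * c k j + y * v ^ k := by
    intro k prev
    by_cases hp : ∀ j < k, constantCoeff (prev j) = a j
    · obtain ⟨y, hy⟩ := asym_hensel hh (v ^ k) (∑ j ∈ Finset.range k, prev j * c k j) (a k)
        (by rw [map_pow]; exact pow_ne_zero _ hv) (by
          rw [ha k, map_sum, map_pow]
          congr 1
          refine Finset.sum_congr rfl fun j hj => ?_
          rw [map_mul, hp j (Finset.mem_range.1 hj)])
      exact ⟨y, fun _ => hy⟩
    · exact ⟨0, fun h => absurd h hp⟩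
  choose g hg using step
  refine ⟨asymRec g, fun k => ?_⟩
  induction k using Nat.strong_induction_on with
  | _ k ih =>
  have h1 := hg k (fun j => if _h : j < k then asymRec g j else 0) fun j hj => by
    rw [dif_pos hj]; exact (ih j hj).1
  rw [← asymRec_eq g k] at h1
  refine ⟨h1.1, h1.2.trans ?_⟩
  congr 1
  refine Finset.sum_congr rfl fun j hj => ?_
  rw [dif_pos (Finset.mem_range.1 hj)]

theorem asym_ev1_trunc {S : Type} [CommRing S] (I : Ideal S) [IsAdicComplete I S] {x : S}
    (hx : x ∈ I.radical) (f : PowerSeries S) (n : ℕ) :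
    ∃ c, ev1 I x f = ∑ k ∈ Finset.range n, PowerSeries.coeff k f * x ^ k + x ^ n * c := by
  obtain ⟨g, hg⟩ : PowerSeries.X ^ n ∣
      f - ∑ k ∈ Finset.range n, PowerSeries.C (PowerSeries.coeff k f) * PowerSeries.X ^ k := by
    rw [PowerSeries.X_pow_dvd_iff]
    intro j hj
    simp [PowerSeries.coeff_X_pow, hj]
  refine ⟨ev1 I x g, ?_⟩
  have := congrArg (ev1 I x) hg
  rw [map_sub, map_sum, map_mul, map_pow, ev1_X I hx] at this
  simp only [map_mul, map_pow, ev1_C, ev1_X I hx] at this
  linear_combination this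

theorem asym_lin_coeff {A σ : Type} [CommRing A] [Fintype σ] {f : MvPowerSeries σ A}
    (hf : constantCoeff f = 0) (d : σ →₀ ℕ) (hd : d.degree < 2) :
    coeff d (f - ∑ l, C (coeff (Finsupp.single l 1) f) * X l) = 0 := by
  classical
  have hd' : d.degree = 0 ∨ d.degree = 1 := by omega
  rcases hd' with h | h
  · rw [Finsupp.degree_eq_zero_iff] at h
    subst h
    simp [hf]
  · obtain ⟨s, rfl⟩ := (Finsupp.sum_eq_one_iff d).1 h
    simp only [map_sub, map_sum, coeff_C_mul, coeff_index_single_X, mul_ite, mul_one, mul_zero]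
    simp

end Alg

section Seq
variable (K : Type) [NontriviallyNormedField K]

/-- convergent sequences, with their limits -/
def asymC : Subring ((ℕ → K) × K) where
  carrier := {x | Tendsto x.1 atTop (𝓝 x.2)}
  mul_mem' ha hb := Tendsto.mul ha hb
  one_mem' := tendsto_const_nhds
  add_mem' ha hb := Tendsto.add ha hb
  zero_mem' := tendsto_const_nhds
  neg_mem' ha := Tendsto.neg ha

/-- the sequences which are `O(w)` -/
def asymJ (w : ℕ → ℝ) : Ideal (asymC K) where
  carrier := {x | x.1.1 =O[atTop] w}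
  add_mem' ha hb := IsBigO.add ha hb
  zero_mem' := isBigO_zero _ _
  smul_mem' c x hx := by
    have h1 : c.1.1 =O[atTop] fun _ => (1 : ℝ) := Tendsto.isBigO_one ℝ c.2
    have h2 := h1.mul hx
    simp only [one_mul] at h2
    exact h2

/-- the limit -/
def asymLim : asymC K →+* K := (RingHom.snd _ _).comp (asymC K).subtype

/-- the `i`-th term -/
def asymAt (i : ℕ) : asymC K →+* K :=
  (Pi.evalRingHom (fun _ => K) i).comp ((RingHom.fst _ _).comp (asymC K).subtype)

/-- constant sequences -/
def asymConst : K →+* asymC K :=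
  ((Pi.constRingHom ℕ K).prod (RingHom.id K)).codRestrict (asymC K) fun _ => tendsto_const_nhds

variable {K}

theorem mem_asymJ {w : ℕ → ℝ} {x : asymC K} :
    x ∈ asymJ K w ↔ (fun i => asymAt K i x) =O[atTop] w := Iff.rfl

theorem asymAt_const (i : ℕ) (c : K) : asymAt K i (asymConst K c) = c := rfl

theorem asymLim_const (c : K) : asymLim K (asymConst K c) = c := rfl

theorem asym_tendsto (x : asymC K) : Tendsto (fun i => asymAt K i x) atTop (𝓝 (asymLim K x)) := x.2

theorem asymJ_of_le {w : ℕ → ℝ} {x : asymC K} {M : ℝ}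
    (h : ∀ᶠ i in atTop, ‖asymAt K i x‖ ≤ M * w i) : x ∈ asymJ K w := by
  refine mem_asymJ.2 (IsBigO.of_bound |M| ?_)
  filter_upwards [h] with i hi
  refine hi.trans ((le_abs_self _).trans ?_)
  rw [abs_mul, Real.norm_eq_abs]

theorem asymJ_of_eventually {w : ℕ → ℝ} {x y : asymC K}
    (h : ∀ᶠ i in atTop, asymAt K i x = asymAt K i y) : x - y ∈ asymJ K w :=
  asymJ_of_le (M := 0) (by
    filter_upwards [h] with i hi
    rw [map_sub, hi, sub_self, norm_zero, zero_mul])

theorem asymJ_lim {w : ℕ → ℝ} (hw : Tendsto w atTop (𝓝 0)) {x : asymC K} (hx : x ∈ asymJ K w) :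
    asymLim K x = 0 :=
  tendsto_nhds_unique (asym_tendsto x) ((mem_asymJ.1 hx).trans_tendsto hw)

theorem asymJ_pow (w : ℕ → ℝ) (n : ℕ) : asymJ K w ^ n ≤ asymJ K fun i => w i ^ n := by
  induction n with
  | zero =>
    intro x _
    simp only [pow_zero]
    exact Tendsto.isBigO_one ℝ x.2
  | succ n ih =>
    rw [pow_succ, Ideal.mul_le]
    intro x hx y hy
    have := (mem_asymJ.1 (ih hx)).mul (mem_asymJ.1 hy)
    refine mem_asymJ.2 ?_
    simpa only [map_mul, pow_succ] using this

theorem asym_isUnit (w : ℕ → ℝ) {x : asymC K} (hx : asymLim K x ≠ 0) :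
    IsUnit (Ideal.Quotient.mk (asymJ K w) x) := by
  let y : asymC K := ⟨(fun i => (asymAt K i x)⁻¹, (asymLim K x)⁻¹), (asym_tendsto x).inv₀ hx⟩
  refine IsUnit.of_mul_eq_one (Ideal.Quotient.mk _ y) ?_
  rw [← map_mul, ← map_one (Ideal.Quotient.mk (asymJ K w)), Ideal.Quotient.eq]
  refine asymJ_of_eventually ?_
  filter_upwards [(asym_tendsto x).eventually_ne hx] with i hi
  rw [map_mul, map_one]
  exact mul_inv_cancel₀ hi

end Seq

section Jac
variable {K : Type} [NontriviallyNormedField K] [IsUltrametricDist K] [CompleteSpace K] {m : ℕ}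

/-- inversion of the Jacobian -/
theorem asym_bound (S : Fin m → MvPowerSeries (Fin m) (OO K)) (hS0 : ∀ i, constantCoeff (S i) = 0)
    (hJ : ∀ a : Fin m → K,
      (∀ i, ∑ l, ((coeff (Finsupp.single l 1) (S i) : OO K) : K) * a l = 0) → a = 0) :
    ∃ M δ : ℝ, 0 < δ ∧ ∀ (t : Fin m → OO K) (ρ : ℝ), 0 ≤ ρ → ‖t‖ < δ →
      (∀ l, ‖ev (IO K) (RingHom.id _) t (S l)‖ ≤ ρ) → ‖t‖ ≤ M * ρ := by
  classical
  let A : Matrix (Fin m) (Fin m) K :=
    Matrix.of fun i l => ((coeff (Finsupp.single l 1) (S i) : OO K) : K)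
  obtain ⟨L, hL0, hL⟩ := (Matrix.mulVecLin A).exists_antilipschitzWith
    (LinearMap.ker_eq_bot'.2 fun a ha => hJ a fun i => congrFun ha i)
  have hL0' : (0 : ℝ) < L := hL0
  refine ⟨2 * L, min 1 (1 / (2 * L)), by positivity, fun t ρ hρ ht hS => ?_⟩
  have ht1 : ‖t‖ < 1 := ht.trans_le (min_le_left _ _)
  have ht2 : ‖t‖ < 1 / (2 * L) := ht.trans_le (min_le_right _ _)
  have hmem : ∀ l, t l ∈ (IO K).radical := fun l =>
    (mem_IO_radical K _).2 ((norm_le_pi_norm t l).trans_lt ht1)
  have h1 : ‖t‖ ≤ ‖fun l => (t l : K)‖ :=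
    (pi_norm_le_iff_of_nonneg (norm_nonneg _)).2 fun l =>
      norm_le_pi_norm (fun l => (t l : K)) l
  have h2 := ZeroHomClass.bound_of_antilipschitz _ hL fun l => (t l : K)
  have h3 : ‖Matrix.mulVecLin A fun l => (t l : K)‖ ≤ ρ + ‖t‖ ^ 2 := by
    refine (pi_norm_le_iff_of_nonneg (by positivity)).2 fun i => ?_
    have h4 := norm_ev_le_pow (RingHom.id (OO K)) (norm_nonneg t) ht1 (norm_le_pi_norm t)
      (asym_lin_coeff (hS0 i))
    rw [map_sub, map_sum] at h4
    simp only [map_mul, ev_C, ev_X _ _ hmem, RingHom.id_apply] at h4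
    have h5 : Matrix.mulVecLin A (fun l => (t l : K)) i =
        ((∑ l, coeff (Finsupp.single l 1) (S i) * t l : OO K) : K) := by
      simp [A, Matrix.mulVec, dotProduct]
    rw [h5, OO_norm_coe]
    have h6 := norm_sub_le (ev (IO K) (RingHom.id _) t (S i))
      (ev (IO K) (RingHom.id _) t (S i) - ∑ l, coeff (Finsupp.single l 1) (S i) * t l)
    rw [sub_sub_cancel] at h6
    linarith [hS i]
  rw [lt_div_iff₀ (by positivity)] at ht2
  have h7 : ‖t‖ ≤ L * (ρ + ‖t‖ ^ 2) :=
    h1.trans (h2.trans (mul_le_mul_of_nonneg_left h3 hL0'.le))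
  nlinarith [norm_nonneg t]

theorem asym_tendsto_ev {T : ℕ → Fin m → OO K} (hT : Tendsto (fun i => ‖T i‖) atTop (𝓝 0))
    (g : MvPowerSeries (Fin m) (OO K)) :
    Tendsto (fun i => ((ev (IO K) (RingHom.id _) (T i) g : OO K) : K)) atTop
      (𝓝 ((constantCoeff g : OO K) : K)) := by
  rw [tendsto_iff_norm_sub_tendsto_zero]
  refine squeeze_zero' (Eventually.of_forall fun _ => norm_nonneg _) ?_ hT
  filter_upwards [hT.eventually (gt_mem_nhds one_pos)] with i hi
  have h4 := norm_ev_le_pow (RingHom.id (OO K)) (norm_nonneg (T i)) hi (norm_le_pi_norm (T i))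
    (f := g - C (constantCoeff g)) (k := 1) fun d hd => by
      have : d = 0 := (Finsupp.degree_eq_zero_iff d).1 (by omega)
      simp [this]
  rw [map_sub, ev_C, pow_one, RingHom.id_apply] at h4
  exact h4

/-- the values of a series along a null sequence -/
def asymEv {T : ℕ → Fin m → OO K} (hT : Tendsto (fun i => ‖T i‖) atTop (𝓝 0)) :
    MvPowerSeries (Fin m) (OO K) →+* asymC K :=
  ((RingHom.pi fun i => (OO K).subtype.comp (ev (IO K) (RingHom.id _) (T i))).prod
    ((OO K).subtype.comp constantCoeff)).codRestrict (asymC K) fun g => asym_tendsto_ev hT g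

theorem asymAt_ev {T : ℕ → Fin m → OO K} (hT : Tendsto (fun i => ‖T i‖) atTop (𝓝 0))
    (g : MvPowerSeries (Fin m) (OO K)) (i : ℕ) :
    asymAt K i (asymEv hT g) = ((ev (IO K) (RingHom.id _) (T i) g : OO K) : K) := rfl

theorem asymLim_ev {T : ℕ → Fin m → OO K} (hT : Tendsto (fun i => ‖T i‖) atTop (𝓝 0))
    (g : MvPowerSeries (Fin m) (OO K)) :
    asymLim K (asymEv hT g) = ((constantCoeff g : OO K) : K) := rfl

end Jac

end Crest.Agent.R227
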