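import Crest.Agent.R227.Test
import Crest.Agent.R227.Frob
import Crest.Agent.R227.CZ1Aux

/-! # Row 227, characteristic zero: the logarithm and the span of the tangent vectors. -/

set_option autoImplicit false
set_option linter.unusedSectionVars false

open MvPowerSeries IsLocalRing

noncomputable section
namespace Crest.Agent.R227

open Crest.LubinTate

/-- the coboundary `β(G(X,Y)) - β(X) - β(Y)` -/
def cob {R : Type} [CommRing R] (G : FormalGroup R) (β : PowerSeries R) : MvPowerSeries (Fin 2) R :=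
  PowerSeries.subst G.toPowerSeries β - in0 β - in1 β

/-- the coboundary as a linear map -/
def cobL {R : Type} [CommRing R] (G : FormalGroup R) :
    PowerSeries R →ₗ[R] MvPowerSeries (Fin 2) R :=
  (PowerSeries.substAlgHom (fg_hs G.zero_constantCoeff)).toLinearMap -
    (PowerSeries.substAlgHom (PowerSeries.HasSubst.X (0 : Fin 2))).toLinearMap -
    (PowerSeries.substAlgHom (PowerSeries.HasSubst.X (1 : Fin 2))).toLinearMap

theorem cobL_apply {R : Type} [CommRing R] (G : FormalGroup R) (β : PowerSeries R) :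
    cobL G β = cob G β := by
  simp only [cobL, cob, LinearMap.sub_apply, AlgHom.toLinearMap_apply,
    PowerSeries.coe_substAlgHom]

theorem map_cob {R S : Type} [CommRing R] [CommRing S] (φ : R →+* S) (G : FormalGroup R)
    (β : PowerSeries R) : MvPowerSeries.map φ (cob G β) = cob (G.map φ) (PowerSeries.map φ β) := by
  rw [cob, cob, map_sub, map_sub, fg_map1 φ β G.zero_constantCoeff, in0, in1,
    fg_map1 φ β (constantCoeff_X _), fg_map1 φ β (constantCoeff_X _), map_X, map_X]
  rfl

/-- the leading mixed coefficients of a coboundary -/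
theorem coeff_cob_lead {R : Type} [CommRing R] (G : FormalGroup R) {h : PowerSeries R} {i j : ℕ}
    (hi : i ≠ 0) (hj : j ≠ 0) (hh : ∀ m, m < i + j → PowerSeries.coeff m h = 0) :
    coeff (e2 i j) (cob G h) = (i + j).choose i * PowerSeries.coeff (i + j) h := by
  have h1 : h ∈ lazI Unit R (i + j) := by
    rw [lazI_iff]
    intro d hd
    rw [Finsupp.unique_single d, Finsupp.degree_single] at hd
    rw [Finsupp.unique_single d]
    exact hh _ hd
  have h2 := lazI_subst_sub (r := 1) (a := fun _ : Unit => G.toPowerSeries)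
    (a' := fun _ : Unit => (X 0 + X 1 : MvPowerSeries (Fin 2) R)) (fun _ => lazI_fg_one G)
    (fun _ => add_mem (lazI_X 0) (lazI_X 1)) (fun _ => lazI_fg G) h1
  have h3 := lazI_iff.1 h2 (e2 i j) (by rw [degree_e2]; omega)
  rw [map_sub, sub_eq_zero] at h3
  have h4 := PowerSeries.coeff_subst_X_zero_add_X_one h (e2 i j)
  rw [e2_zero, e2_one] at h4
  have h5 : coeff (e2 i j) (in0 h) = 0 := by rw [frob_coeff_in0, e2_one, if_neg hj]
  have h6 : coeff (e2 i j) (in1 h) = 0 := by
    rw [in1, PowerSeries.coeff_subst_single, if_neg]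
    intro e
    have := congrArg (fun d : Fin 2 →₀ ℕ => d 0) e
    simp [e2_zero] at this
    exact hi this
  rw [cob, map_sub, map_sub, h5, h6, sub_zero, sub_zero, ← h4]
  exact h3

section Log
variable {B K : Type} [CommRing B] [Field K] [Algebra B K]

/-- the logarithm of `G`, with coefficients in `K` -/
structure IsLog (G : FormalGroup B) (ℓ : PowerSeries K) : Prop where
  zero : PowerSeries.constantCoeff ℓ = 0
  deriv : PowerSeries.derivative K ℓ * PowerSeries.map (algebraMap B K) (uSer G) = 1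
  add : cob (G.map (algebraMap B K)) ℓ = 0

theorem exists_log [CharZero K] (G : FormalGroup B) [G.IsComm] :
    ∃ ℓ : PowerSeries K, IsLog G ℓ := by
  set F := G.map (algebraMap B K) with hF
  have hu : IsUnit (uSer F) := by
    rw [PowerSeries.isUnit_iff_constantCoeff, constantCoeff_uSer]
    exact isUnit_one
  obtain ⟨ω, hω⟩ := hu.exists_left_inv
  let ℓ : PowerSeries K := PowerSeries.mk fun e => match e with
    | 0 => 0
    | e + 1 => PowerSeries.coeff e ω / (e + 1)
  have h0 : PowerSeries.constantCoeff ℓ = 0 := by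
    rw [← PowerSeries.coeff_zero_eq_constantCoeff_apply, PowerSeries.coeff_mk]
  have h1 : PowerSeries.derivative K ℓ = ω := by
    ext e
    rw [PowerSeries.coeff_derivative, PowerSeries.coeff_mk]
    exact div_mul_cancel₀ _ (Nat.cast_add_one_ne_zero e)
  have x0 := constantCoeff_X (R := K) (0 : Fin 2)
  have x1 := constantCoeff_X (R := K) (1 : Fin 2)
  have hF0 := F.zero_constantCoeff
  refine ⟨ℓ, h0, by rw [h1, map_uSer, hω], cz1_eq_zero ?_ ?_⟩
  · have hc := fg_hs2 (a := (PowerSeries.X : PowerSeries K)) (b := 0) fg_ccX (map_zero _)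
    have h2 := cz1_subst_zero (cob F ℓ) (z := (PowerSeries.X : PowerSeries K)) fg_ccX
    rw [PowerSeries.X_subst] at h2
    rw [← h2, cob, subst_sub hc, subst_sub hc, fg_subst1 _ hF0 hc, fg_subst1 _ x0 hc,
      fg_subst1 _ x1 hc, subst_X hc, subst_X hc, F.add_zero (fg_hs fg_ccX)]
    change _ - PowerSeries.subst PowerSeries.X ℓ - PowerSeries.subst 0 ℓ = 0
    rw [sub_self, PowerSeries.subst_zero_of_constantCoeff_zero h0, sub_zero]
  · have one : ∀ a : MvPowerSeries (Fin 2) K, constantCoeff a = 0 →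
        PowerSeries.subst a ω * PowerSeries.subst a (uSer F) = 1 := by
      intro a ha
      rw [← PowerSeries.subst_mul (fg_hs ha), hω, ← PowerSeries.coe_substAlgHom (fg_hs ha), map_one]
    rw [cob, map_sub, map_sub, cz1_chain1 hF0, in0, in1, cz1_chain1 x0, cz1_chain1 x1, h1,
      pderiv_X_self, pderiv_X_of_ne (show (0 : Fin 2) ≠ 1 by decide), mul_zero, sub_zero, mul_one,
      sub_eq_zero]
    have e1 := one _ hF0
    have e2 := one _ x1
    rw [cz1_invariant, in1] at e1
    calc _ = PowerSeries.subst F.toPowerSeries ω * pderiv K 1 F.toPowerSeries *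
          (PowerSeries.subst (X 1) ω * PowerSeries.subst (X 1) (uSer F)) := by rw [e2, mul_one]
      _ = PowerSeries.subst F.toPowerSeries ω * (pderiv K 1 F.toPowerSeries *
          PowerSeries.subst (X 1) (uSer F)) * PowerSeries.subst (X 1) ω := by ring
      _ = _ := by rw [e1, one_mul]

theorem IsLog.coeff_one {G : FormalGroup B} {ℓ : PowerSeries K} (h : IsLog G ℓ) :
    PowerSeries.coeff 1 ℓ = 1 := by
  have := congrArg PowerSeries.constantCoeff h.deriv
  rw [map_mul, map_uSer, constantCoeff_uSer, mul_one, map_one,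
    ← PowerSeries.coeff_zero_eq_constantCoeff_apply, PowerSeries.coeff_derivative] at this
  simpa using this

/-- additive series are multiples of the logarithm (`hom_derivative` with target `𝔾ₐ`) -/
theorem IsLog.eq_smul [CharZero K] {G : FormalGroup B} {ℓ : PowerSeries K} (h : IsLog G ℓ)
    {f : PowerSeries K} (h0 : PowerSeries.constantCoeff f = 0)
    (hf : cob (G.map (algebraMap B K)) f = 0) : f = PowerSeries.coeff 1 f • ℓ := by
  have x0 := constantCoeff_X (R := K) (0 : Fin 2)
  have x1 := constantCoeff_X (R := K) (1 : Fin 2)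
  have hs := fg_hs2 (fg_cc x0 h0) (fg_cc x1 h0)
  have hom : IsFGHom (G.map (algebraMap B K)) FormalGroup.𝔾ₐ f := by
    refine ⟨h0, ?_⟩
    rw [cob, sub_sub, sub_eq_zero] at hf
    rw [hf, FormalGroup.𝔾ₐ_toPowerSeries, subst_add hs, subst_X hs, subst_X hs]
    rfl
  have hu : uSer (FormalGroup.𝔾ₐ (R := K)) = 1 := by
    have e : (FormalGroup.𝔾ₐ (R := K)).toPowerSeries =
        in0 PowerSeries.X + in0 1 * X 1 + 0 * X 1 ^ 2 := by
      rw [in0, in0, PowerSeries.subst_X (fg_hs x0), ← PowerSeries.coe_substAlgHom (fg_hs x0),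
        map_one, FormalGroup.𝔾ₐ_toPowerSeries]
      ring
    change frob_c1 _ = 1
    rw [e, frob_c1_eq]
  have h1 := hom_derivative hom
  rw [hu, ← PowerSeries.coe_substAlgHom (fg_hs h0), map_one, mul_one] at h1
  have h2 := h.deriv
  rw [map_uSer] at h2
  refine PowerSeries.derivative.ext ?_ ?_
  · rw [Derivation.map_smul, PowerSeries.smul_eq_C_mul, ← h1, mul_assoc,
      mul_comm (uSer _), h2, mul_one]
  · rw [h0, PowerSeries.smul_eq_C_mul, map_mul, h.zero, mul_zero]

theorem IsLog.fadd {G : FormalGroup B} {ℓ : PowerSeries K} (h : IsLog G ℓ) {τ : Type}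
    {a b : MvPowerSeries τ K} (ha : constantCoeff a = 0) (hb : constantCoeff b = 0) :
    PowerSeries.subst (fadd (G.map (algebraMap B K)) a b) ℓ =
      PowerSeries.subst a ℓ + PowerSeries.subst b ℓ := by
  have hc := fg_hs2 ha hb
  have h1 := congrArg (subst ![a, b]) h.add
  rw [cob, subst_sub hc, subst_sub hc, fg_subst1 _ (FormalGroup.zero_constantCoeff _) hc,
    fg_subst1 _ (constantCoeff_X _) hc, fg_subst1 _ (constantCoeff_X _) hc, subst_X hc, subst_X hc,
    ← coe_substAlgHom hc, map_zero, coe_substAlgHom, sub_sub, sub_eq_zero] at h1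
  exact h1

theorem IsLog.mulSeries {G : FormalGroup B} {ℓ : PowerSeries K} (h : IsLog G ℓ) (m : ℕ) :
    (PowerSeries.subst (mulSeries (G.map (algebraMap B K)) m) ℓ : PowerSeries K) = (m : K) • ℓ := by
  induction m with
  | zero =>
    rw [fg_mul_zero, Nat.cast_zero, zero_smul]
    exact PowerSeries.subst_zero_of_constantCoeff_zero h.zero
  | succ m ih =>
    rw [fg_mul_succ, h.fadd (constantCoeff_mulSeries _ m) fg_ccX, ih, PowerSeries.X_subst,
      Nat.cast_succ, add_smul, one_smul]

end Log

variable {p : ℕ} [Fact p.Prime] {n : ℕ}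

/-- series with bounded denominators -/
def czBdd (B K : Type) [CommRing B] [IsDomain B] [Field K] [Algebra B K] [IsFractionRing B K] :
    Submodule K (PowerSeries K) where
  carrier := {f | ∃ b : B, b ≠ 0 ∧ ∀ e,
    algebraMap B K b * PowerSeries.coeff e f ∈ (algebraMap B K).range}
  add_mem' := by
    rintro f g ⟨b, hb, hf⟩ ⟨b', hb', hg⟩
    refine ⟨b * b', mul_ne_zero hb hb', fun e => ?_⟩
    have : algebraMap B K (b * b') * PowerSeries.coeff e (f + g) =
        algebraMap B K b' * (algebraMap B K b * PowerSeries.coeff e f) +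
          algebraMap B K b * (algebraMap B K b' * PowerSeries.coeff e g) := by
      rw [map_mul, map_add]; ring
    rw [this]
    exact add_mem (mul_mem ⟨b', rfl⟩ (hf e)) (mul_mem ⟨b, rfl⟩ (hg e))
  zero_mem' := ⟨1, one_ne_zero, fun e => by simp⟩
  smul_mem' := by
    rintro x f ⟨b, hb, hf⟩
    obtain ⟨y, z, hz, rfl⟩ := IsFractionRing.div_surjective B x
    have hz0 : z ≠ 0 := nonZeroDivisors.ne_zero hz
    have hz1 : algebraMap B K z ≠ 0 := (map_ne_zero_iff _ (IsFractionRing.injective B K)).2 hz0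
    refine ⟨b * z, mul_ne_zero hb hz0, fun e => ?_⟩
    have : algebraMap B K (b * z) * PowerSeries.coeff e ((algebraMap B K y / algebraMap B K z) • f)
        = algebraMap B K y * (algebraMap B K b * PowerSeries.coeff e f) := by
      rw [map_mul, map_smul, smul_eq_mul]; field_simp
    rw [this]
    exact mul_mem ⟨y, rfl⟩ (hf e)

theorem cz_map_mem {B K : Type} [CommRing B] [IsDomain B] [Field K] [Algebra B K]
    [IsFractionRing B K] (β : PowerSeries B) : PowerSeries.map (algebraMap B K) β ∈ czBdd B K :=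
  ⟨1, one_ne_zero, fun e => by
    rw [map_one, one_mul, PowerSeries.coeff_map]; exact ⟨_, rfl⟩⟩

theorem cz_coeff_subst {K : Type} [CommRing K] (z : K) {N : ℕ} (hN : N ≠ 0) (ℓ : PowerSeries K)
    (m : ℕ) : PowerSeries.coeff m
      (PowerSeries.subst (PowerSeries.C z * PowerSeries.X ^ N : PowerSeries K) ℓ : PowerSeries K) =
      if N ∣ m then z ^ (m / N) * PowerSeries.coeff (m / N) ℓ else 0 := by
  have h1 : PowerSeries.HasSubst (PowerSeries.X ^ N : PowerSeries K) := .X_pow hN
  have h2 : (PowerSeries.C z * PowerSeries.X ^ N : PowerSeries K) =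
      PowerSeries.subst (PowerSeries.X ^ N : PowerSeries K) (z • PowerSeries.X : PowerSeries K) := by
    rw [← PowerSeries.coe_substAlgHom h1, map_smul, PowerSeries.substAlgHom_X,
      PowerSeries.smul_eq_C_mul]
  rw [h2, ← PowerSeries.subst_comp_subst_apply (PowerSeries.HasSubst.smul_X' z) h1,
    ← PowerSeries.rescale_eq_subst, PowerSeries.coeff_subst_X_pow hN, PowerSeries.coeff_rescale]
  rfl

section Bounded
variable {B K : Type} [CommRing B] [IsDomain B] [IsLocalRing B]
    [Algebra (WW p n) B] [Field K] [Algebra B K] [IsFractionRing B K]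
    {r : B →+* kk p n}

/-- (a) the logarithm is unbounded -/
theorem cz_unbounded (hB : IsTest p n B r) (G : FormalGroup B)
    (hG : mulSeries (G.map r) p = PowerSeries.X ^ (p ^ n)) {ℓ : PowerSeries K} (hℓ : IsLog G ℓ) :
    ℓ ∉ czBdd B K := by
  rintro ⟨b, hb, h⟩
  choose y hy using h
  have := hB.complete
  have hinj := IsFractionRing.injective B K
  let L : PowerSeries B := PowerSeries.mk y
  have hL : PowerSeries.map (algebraMap B K) L = algebraMap B K b • ℓ := by
    ext e
    rw [PowerSeries.coeff_map, PowerSeries.coeff_mk, hy, map_smul, smul_eq_mul]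
  have c0 := constantCoeff_mulSeries G p
  have h1 : (PowerSeries.subst (mulSeries G p) L : PowerSeries B) = (p : B) • L := by
    apply fg_map_injective (algebraMap B K) hinj
    rw [fg_map1 _ L c0]
    change PowerSeries.subst (PowerSeries.map (algebraMap B K) (mulSeries G p))
      (PowerSeries.map (algebraMap B K) L) = PowerSeries.map (algebraMap B K) ((p : B) • L)
    rw [map_mulSeries, PowerSeries.smul_eq_C_mul, map_mul, hL, PowerSeries.map_C, map_natCast,
      ← PowerSeries.smul_eq_C_mul, smul_comm, ← hℓ.mulSeries p,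
      ← PowerSeries.coe_substAlgHom (fg_hs (constantCoeff_mulSeries _ p)), map_smul]
  have hP : ∀ e, PowerSeries.coeff e (mulSeries G p - PowerSeries.X ^ (p ^ n)) ∈
      maximalIdeal B := by
    intro e
    rw [← hB.ker, RingHom.mem_ker, ← PowerSeries.coeff_map, map_sub, map_mulSeries, hG, map_pow,
      PowerSeries.map_X, sub_self, map_zero]
  have key : ∀ k e, PowerSeries.coeff e L ∈ maximalIdeal B ^ k := by
    intro k
    induction k with
    | zero => intro e; simp
    | succ k ih =>
      refine frob_mem_of_subst _ _ c0 (pow_ne_zero n (Fact.out : p.Prime).ne_zero) hP fun e => ?_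
      rw [h1, map_smul, smul_eq_mul, pow_succ']
      exact Ideal.mul_mem_mul hB.natCast_mem (ih e)
  have h2 : y 1 = 0 := by
    have := frob_eq_zero_of_haus (maximalIdeal B) fun k => key k 1
    rwa [PowerSeries.coeff_mk] at this
  have h3 := hy 1
  rw [h2, hℓ.coeff_one, mul_one] at h3
  exact hb (hinj h3).symm

/-- (b) the coefficients of `X ^ p ^ k` control all coefficients of the logarithm -/
theorem cz_bounded (hB : IsTest p n B r) (G : FormalGroup B) {ℓ : PowerSeries K} (hℓ : IsLog G ℓ)
    {b : B} (hb : b ≠ 0)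
    (h : ∀ k, algebraMap B K b * PowerSeries.coeff (p ^ k) ℓ ∈ (algebraMap B K).range) :
    ℓ ∈ czBdd B K := by
  refine ⟨b, hb, fun e => ?_⟩
  induction e using Nat.strong_induction_on with
  | _ e ih =>
    rcases Nat.eq_zero_or_pos e with rfl | he
    · rw [PowerSeries.coeff_zero_eq_constantCoeff_apply, hℓ.zero, mul_zero]
      exact zero_mem _
    by_cases hc : ∀ i ∈ Finset.Icc 1 (e - 1), e.choose i ≡ 0 [MOD p]
    · rw [Choose.eq_pow_multiplicity_of_choose_modEq_zero_nat he hc]
      exact h _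
    push Not at hc
    obtain ⟨i, hi, hc⟩ := hc
    rw [Finset.mem_Icc] at hi
    obtain ⟨j, rfl⟩ : ∃ j, e = i + j := ⟨e - i, by omega⟩
    have hu : IsUnit (((i + j).choose i : ℕ) : B) := by
      rw [hB.isUnit_iff, map_natCast, Ne, CharP.cast_eq_zero_iff (kk p n) p]
      exact fun hd => hc ((Nat.modEq_zero_iff_dvd).2 hd)
    obtain ⟨w, hw⟩ := hu.exists_left_inv
    choose! y hy using ih
    let T : PowerSeries B := PowerSeries.mk fun m => if m < i + j then y m else 0
    have h1 := coeff_cob_lead (G.map (algebraMap B K))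
      (h := algebraMap B K b • ℓ - PowerSeries.map (algebraMap B K) T) (i := i) (j := j)
      (by omega) (by omega) (fun m hm => by
        rw [map_sub, map_smul, PowerSeries.coeff_map, PowerSeries.coeff_mk, if_pos hm, hy m hm,
          smul_eq_mul, sub_self])
    rw [← cobL_apply, map_sub, map_smul, cobL_apply, cobL_apply, hℓ.add, smul_zero, zero_sub,
      ← map_cob, map_neg, coeff_map, map_sub, map_smul, PowerSeries.coeff_map, PowerSeries.coeff_mk,
      if_neg (lt_irrefl _), map_zero, sub_zero, smul_eq_mul] at h1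
    refine ⟨w * -coeff (e2 i j) (cob G T), ?_⟩
    rw [map_mul, map_neg, h1, ← mul_assoc, ← map_natCast (algebraMap B K), ← map_mul, hw, map_one,
      one_mul]

/-- orthogonality of characters -/
theorem cz_sum (hn : 1 ≤ n) [Fintype (kk p n)ˣ] (τ : kk p n →* B) (hτ : ∀ a, r (τ a) = a) (m : ℕ) :
    ∑ a : (kk p n)ˣ, algebraMap B K (τ a) ^ m =
      if p ^ n - 1 ∣ m then ((p ^ n - 1 : ℕ) : K) else 0 := by
  classical
  let _ : Fintype (kk p n) := Fintype.ofFinite _
  have hq : Fintype.card (kk p n) = p ^ n := by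
    rw [← Nat.card_eq_fintype_card, GaloisField.card p n (by omega)]
  let χ : (kk p n)ˣ →* K := (powMonoidHom m).comp
    (((algebraMap B K : B →* K).comp τ).comp (Units.coeHom _))
  have h1 := sum_hom_units χ
  have h2 : χ = 1 ↔ p ^ n - 1 ∣ m := by
    rw [← hq, ← FiniteField.forall_pow_eq_one_iff, MonoidHom.ext_iff]
    refine forall_congr' fun a => ?_
    change algebraMap B K (τ a) ^ m = 1 ↔ _
    rw [← map_pow, ← map_pow, ← Units.val_pow_eq_pow_val]
    constructor
    · intro h
      have h3 : τ ((a ^ m : (kk p n)ˣ) : kk p n) = 1 :=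
        IsFractionRing.injective B K (h.trans (map_one _).symm)
      have h4 := congrArg r h3
      rw [hτ, map_one] at h4
      exact Units.ext h4
    · intro h
      rw [h, Units.val_one, map_one, map_one]
  have h3 : Fintype.card (kk p n)ˣ = p ^ n - 1 := by
    rw [← hq, ← Nat.card_eq_fintype_card, Nat.card_units, Nat.card_eq_fintype_card]
  rw [h3] at h1
  refine Eq.trans rfl (h1.trans ?_)
  simp only [h2]
  split_ifs <;> simp

end Bounded

theorem cz_pow_inj {s s' : ℕ} (hs : s < n) (hs' : s' < n) (h : p ^ s ≡ p ^ s' [MOD p ^ n - 1]) :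
    s = s' := by
  have hp := (Fact.out : p.Prime).one_lt
  have h1 : p ^ s < p ^ n := Nat.pow_lt_pow_right hp hs
  have h2 : p ^ s' < p ^ n := Nat.pow_lt_pow_right hp hs'
  have h3 : 0 < p ^ s := by positivity
  have h4 : 0 < p ^ s' := by positivity
  refine Nat.pow_right_injective hp (h.eq_of_abs_lt ?_)
  rw [abs_lt]
  constructor <;> omega

theorem cz_coprime (hn : 1 ≤ n) (i : ℕ) : Nat.Coprime (p ^ n - 1) (p ^ i) := by
  have hp := (Fact.out : p.Prime)
  refine Nat.Coprime.pow_right i (Nat.Coprime.symm ((Nat.Prime.coprime_iff_not_dvd hp).2 ?_))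
  intro hd
  have h1 : p ∣ p ^ n := dvd_pow_self p (by omega)
  have h2 : 1 ≤ p ^ n := Nat.one_le_pow _ _ hp.pos
  have h3 := Nat.dvd_sub h1 hd
  rw [Nat.sub_sub_self h2] at h3
  exact hp.one_lt.ne' (Nat.dvd_one.1 h3)

theorem cz_class {i : ℕ} (hi : i < n) (e : ℕ) :
    p ^ n - 1 ∣ p ^ n - 1 - p ^ i + e ↔ e ≡ p ^ i [MOD p ^ n - 1] := by
  have h1 : p ^ i < p ^ n := Nat.pow_lt_pow_right (Fact.out : p.Prime).one_lt hi
  rw [← Nat.modEq_zero_iff_dvd]
  have h2 : p ^ n - 1 - p ^ i + p ^ i ≡ 0 [MOD p ^ n - 1] := by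
    rw [Nat.sub_add_cancel (by omega), Nat.modEq_zero_iff_dvd]
  constructor
  · intro h
    exact Nat.ModEq.add_left_cancel' _ (h.trans h2.symm)
  · intro h
    exact (h.add_left _).trans h2

theorem cz_pow_mod (k : ℕ) : p ^ k ≡ p ^ (k % n) [MOD p ^ n - 1] := by
  have h1 : 1 ≤ p ^ n := Nat.one_le_pow _ _ (Fact.out : p.Prime).pos
  have h2 : p ^ n ≡ 1 [MOD p ^ n - 1] := ((Nat.modEq_iff_dvd' h1).2 dvd_rfl).symm
  conv_lhs => rw [← Nat.div_add_mod k n, pow_add, pow_mul]
  simpa using (h2.pow (k / n)).mul_right (p ^ (k % n))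

/-- Plan.  Call `f ∈ K⟦X⟧` bounded if `b f ∈ B⟦X⟧` for some `b ≠ 0`.  (a) `ℓ` is unbounded: if
`L = b ℓ ∈ 𝔪^ν⟦X⟧ \ 𝔪^(ν+1)⟦X⟧` then `L([p]X) = p L` and `[p] ≡ X^q` contradict each other.
(b) If `b ℓ_{p^k} ∈ B` for all `k` then `b ℓ ∈ B⟦X⟧`: for `e` not a power of `p` compare coefficients
of `X^i Y^(e-i)`, `p ∤ choose e i`, in `ℓ(G) = ℓ(X) + ℓ(Y)`.  So for some `i₀ < n` the part `v` of `ℓ`
with exponents `≡ p^i₀ mod (q - 1)` is unbounded.  (c) `w_s = v(X^(p^s))`, `s < n`, is a combination
of the `ℓ(τ a X^(p^s))`, `a ∈ kˣ`; the `w_s` have disjoint supports.  (d) If the `d a s` lie in a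
hyperplane, the linear map `K^n → hyperplane × K`, `c ↦ (∑ c_s d_s, linear coefficient)` has a
nonzero kernel element, and then `∑ c_s w_s` is bounded (`IsLog.eq_smul`). -/
theorem span_eq_top (hn : 1 ≤ n) {B K : Type} [CommRing B] [IsDomain B] [IsLocalRing B]
    [Algebra (WW p n) B] [Field K] [CharZero K] [Algebra B K] [IsFractionRing B K]
    {r : B →+* kk p n} (hB : IsTest p n B r) (G : FormalGroup B) [G.IsComm]
    (hG : mulSeries (G.map r) p = PowerSeries.X ^ (p ^ n)) {ℓ : PowerSeries K} (hℓ : IsLog G ℓ)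
    (τ : kk p n →* B) (hτ : ∀ a, r (τ a) = a)
    (KS : (Fin (n - 1) → K) →ₗ[K] MvPowerSeries (Fin 2) K) (d : kk p n → ℕ → Fin (n - 1) → K)
    (β : kk p n → ℕ → PowerSeries B) (hβ : ∀ a s, PowerSeries.constantCoeff (β a s) = 0)
    (c : K) (hc : c ≠ 0)
    (h : ∀ a s, KS (d a s) +
      cob (G.map (algebraMap B K)) (c • (PowerSeries.subst
        (PowerSeries.C (algebraMap B K (τ a)) * PowerSeries.X ^ p ^ s : PowerSeries K) ℓ)) +
      cob (G.map (algebraMap B K)) (PowerSeries.map (algebraMap B K) (β a s)) = 0) :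
    Submodule.span K (Set.range fun x : kk p n × ℕ => d x.1 x.2) = ⊤ := by
  classical
  by_contra hV
  set V := Submodule.span K (Set.range fun x : kk p n × ℕ => d x.1 x.2) with hVdef
  let _ : Fintype (kk p n)ˣ := Fintype.ofFinite _
  have hp := (Fact.out : p.Prime)
  have hq : ((p ^ n - 1 : ℕ) : K) ≠ 0 := by
    have : 1 < p ^ n := Nat.one_lt_pow (by omega) hp.one_lt
    rw [Nat.cast_ne_zero]; omega
  set F := G.map (algebraMap B K) with hF
  have main : ∀ i, i < n → ∃ b : B, b ≠ 0 ∧ ∀ e, e ≡ p ^ i [MOD p ^ n - 1] →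
      algebraMap B K b * PowerSeries.coeff e ℓ ∈ (algebraMap B K).range := by
    intro i hi
    let wt : (kk p n)ˣ → K := fun a => algebraMap B K (τ a) ^ (p ^ n - 1 - p ^ i)
    let W : ℕ → PowerSeries K := fun s => ∑ a : (kk p n)ˣ, wt a • (PowerSeries.subst
      (PowerSeries.C (algebraMap B K (τ a)) * PowerSeries.X ^ p ^ s : PowerSeries K) ℓ)
    let Bs : ℕ → PowerSeries K := fun s => ∑ a : (kk p n)ˣ,
      wt a • PowerSeries.map (algebraMap B K) (β a s)
    let D : ℕ → Fin (n - 1) → K := fun s => ∑ a : (kk p n)ˣ, wt a • d a s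
    have hD : ∀ s, D s ∈ V := fun s => Submodule.sum_mem _ fun a _ =>
      Submodule.smul_mem _ _ (Submodule.subset_span ⟨(a, s), rfl⟩)
    have hBs : ∀ s, Bs s ∈ czBdd B K := fun s => Submodule.sum_mem _ fun a _ =>
      Submodule.smul_mem _ _ (cz_map_mem _)
    have hW : ∀ s m, PowerSeries.coeff m (W s) =
        if p ^ s ∣ m ∧ m / p ^ s ≡ p ^ i [MOD p ^ n - 1] then
          ((p ^ n - 1 : ℕ) : K) * PowerSeries.coeff (m / p ^ s) ℓ else 0 := by
      intro s m
      simp only [W, map_sum, map_smul, cz_coeff_subst _ (pow_ne_zero s hp.ne_zero), smul_eq_mul]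
      by_cases hm : p ^ s ∣ m
      · simp only [hm, if_true, true_and, wt, ← mul_assoc, ← pow_add, ← Finset.sum_mul,
          cz_sum hn τ hτ, cz_class hi]
        split_ifs <;> simp
      · simp [hm]
    have hcob : ∀ s, KS (D s) + cobL F (c • W s + Bs s) = 0 := by
      intro s
      simp only [D, W, Bs, map_add, map_sum, map_smul, Finset.smul_sum, ← Finset.sum_add_distrib]
      refine Finset.sum_eq_zero fun a _ => ?_
      have h1 := h a s
      rw [← cobL_apply, ← cobL_apply, map_smul] at h1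
      rw [smul_comm c, ← smul_add, ← smul_add, ← add_assoc, h1, smul_zero]
    have hcc : ∀ s, PowerSeries.constantCoeff (c • W s + Bs s) = 0 := by
      intro s
      rw [← PowerSeries.coeff_zero_eq_constantCoeff_apply, map_add, map_smul, hW, Nat.zero_div,
        PowerSeries.coeff_zero_eq_constantCoeff_apply ℓ, hℓ.zero, mul_zero, ite_self, smul_zero,
        zero_add]
      simp only [Bs, map_sum, map_smul, PowerSeries.coeff_map,
        PowerSeries.coeff_zero_eq_constantCoeff_apply (β _ _), hβ, map_zero, smul_zero,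
        Finset.sum_const_zero]
    let v : Fin n → V × K := fun s => (⟨D s, hD s⟩, PowerSeries.coeff 1 (c • W s + Bs s))
    have hdep : ¬ LinearIndependent K v := by
      intro hli
      have h1 := hli.fintype_card_le_finrank
      have h2 := Submodule.finrank_lt hV
      rw [Fintype.card_fin, Module.finrank_prod, Module.finrank_self] at h1
      rw [Module.finrank_fin_fun] at h2
      omega
    obtain ⟨x, hx, s₀, hs₀⟩ := Fintype.not_linearIndependent_iff.1 hdep
    have hx1 : ∑ s : Fin n, x s • D s = 0 := by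
      have := congrArg (fun z : V × K => (z.1 : Fin (n - 1) → K)) hx
      simpa [v, Prod.fst_sum] using this
    have hx2 : ∑ s : Fin n, x s • PowerSeries.coeff 1 (c • W s + Bs s) = 0 := by
      have := congrArg (fun z : V × K => z.2) hx
      simpa only [v, Prod.snd_sum, Prod.smul_snd, Prod.snd_zero] using this
    have hf : ∑ s : Fin n, x s • (c • W s + Bs s) = 0 := by
      rw [hℓ.eq_smul (f := ∑ s : Fin n, x s • (c • W s + Bs s)), map_sum]
      · simp only [map_smul]
        rw [hx2, zero_smul]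
      · rw [← PowerSeries.coeff_zero_eq_constantCoeff_apply, map_sum]
        refine Finset.sum_eq_zero fun s _ => ?_
        rw [map_smul, PowerSeries.coeff_zero_eq_constantCoeff_apply, hcc, smul_zero]
      · have h1 := congrArg KS hx1
        rw [map_sum, map_zero] at h1
        rw [← cobL_apply, map_sum, ← neg_eq_zero, ← Finset.sum_neg_distrib, ← h1]
        refine Finset.sum_congr rfl fun s _ => ?_
        rw [map_smul, map_smul, eq_neg_of_add_eq_zero_left (hcob s), smul_neg]
    have hg : (x s₀ * c * ((p ^ n - 1 : ℕ) : K))⁻¹ • ∑ s : Fin n, x s • c • W s ∈ czBdd B K := by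
      refine Submodule.smul_mem _ _ ?_
      simp only [smul_add, Finset.sum_add_distrib] at hf
      rw [eq_neg_of_add_eq_zero_left hf]
      exact neg_mem (Submodule.sum_mem _ fun s _ => Submodule.smul_mem _ _ (hBs s))
    obtain ⟨b, hb, hg⟩ := hg
    refine ⟨b, hb, fun e he => ?_⟩
    have h1 := hg (p ^ (s₀ : ℕ) * e)
    have h2 : p ^ (s₀ : ℕ) * e / p ^ (s₀ : ℕ) = e := Nat.mul_div_cancel_left e (pow_pos hp.pos _)
    rw [map_smul, map_sum, Finset.sum_eq_single s₀, map_smul, map_smul, hW,
      if_pos ⟨Dvd.intro e rfl, by rwa [h2]⟩, h2] at h1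
    · convert h1 using 2
      simp only [smul_eq_mul]
      field_simp
    · intro s _ hs
      rw [map_smul, map_smul, hW, if_neg, smul_zero, smul_zero]
      rintro ⟨⟨e', he'⟩, h3⟩
      rw [he', Nat.mul_div_cancel_left e' (pow_pos hp.pos _)] at h3
      have h4 : p ^ (s : ℕ) * p ^ i ≡ p ^ (s₀ : ℕ) * p ^ i [MOD p ^ n - 1] :=
        ((h3.mul_left _).symm.trans (he' ▸ Nat.ModEq.refl _)).trans (he.mul_left _)
      exact hs (Fin.ext (cz_pow_inj s.2 s₀.2
        (Nat.ModEq.cancel_right_of_coprime (cz_coprime hn i) h4)))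
    · intro hs
      exact absurd (Finset.mem_univ _) hs
  choose! b hb0 hb using main
  refine cz_unbounded hB G hG hℓ (cz_bounded hB G hℓ (b := ∏ i ∈ Finset.range n, b i)
    (Finset.prod_ne_zero_iff.2 fun i hi => hb0 i (Finset.mem_range.1 hi)) fun k => ?_)
  have hk : k % n < n := Nat.mod_lt _ (by omega)
  obtain ⟨t, ht⟩ := Finset.dvd_prod_of_mem b (Finset.mem_range.2 hk)
  rw [ht, map_mul, mul_comm (algebraMap B K _), mul_assoc]
  exact mul_mem ⟨t, rfl⟩ (hb _ hk _ (cz_pow_mod k))

end Crest.Agent.R227
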