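import Crest.Agent.R227.CZ2A

/-! # Row 227, characteristic zero: first order motion of a point under `1 + p ^ i ξ`. -/

set_option autoImplicit false
set_option linter.unusedSectionVars false

open MvPowerSeries IsLocalRing

noncomputable section
namespace Crest.Agent.R227

open Crest.LubinTate

variable {p : ℕ} [Fact p.Prime] {n : ℕ} {Γ : FormalGroup (kk p n)} {H : FormalGroup (LTRing p n)}

section log
variable {B K : Type} [CommRing B] [IsDomain B] [Field K] [CharZero K] [Algebra B K]
  [IsFractionRing B K]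

theorem cz2_log_coeff (hu : ∀ m : ℕ, ¬ p ∣ m → IsUnit (m : B)) {G : FormalGroup B}
    {ℓ : PowerSeries K} (hℓ : IsLog G ℓ) {s : ℕ} (hs : 1 ≤ s) (e : ℕ) :
    ∃ c : B, algebraMap B K c = algebraMap B K ((p : B) ^ s) ^ e * PowerSeries.coeff e ℓ ∧
      c - (if e = 1 then (p : B) ^ s else 0) ∈ Ideal.span {(p : B) ^ (2 * s - 1)} := by
  rcases Nat.lt_or_ge e 2 with he | he
  · interval_cases e
    · refine ⟨0, ?_, by simp⟩
      rw [PowerSeries.coeff_zero_eq_constantCoeff_apply, hℓ.zero, map_zero, mul_zero]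
    · exact ⟨(p : B) ^ s, by rw [hℓ.coeff_one, pow_one, mul_one], by simp⟩
  obtain ⟨e, rfl⟩ : ∃ e', e = e' + 1 := ⟨e - 1, by omega⟩
  have hunit : IsUnit (uSer G) := by
    rw [PowerSeries.isUnit_iff_constantCoeff, constantCoeff_uSer]
    exact isUnit_one
  obtain ⟨v, hv⟩ := hunit.exists_right_inv
  have h1 : PowerSeries.derivative K ℓ = PowerSeries.map (algebraMap B K) v := by
    have := congrArg (PowerSeries.map (algebraMap B K)) hv
    rw [map_mul, map_one] at this
    calc _ = PowerSeries.derivative K ℓ * (PowerSeries.map (algebraMap B K) (uSer G) *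
          PowerSeries.map (algebraMap B K) v) := by rw [this, mul_one]
      _ = _ := by rw [← mul_assoc, hℓ.deriv, one_mul]
  have h2 : PowerSeries.coeff (e + 1) ℓ * ((e + 1 : ℕ) : K) =
      algebraMap B K (PowerSeries.coeff e v) := by
    have := congrArg (PowerSeries.coeff e) h1
    rw [PowerSeries.coeff_derivative, PowerSeries.coeff_map] at this
    rw [← this]
    push_cast
    rfl
  have hp := (Fact.out : p.Prime)
  obtain ⟨k, m, hm, hkm⟩ := Nat.exists_eq_pow_mul_and_not_dvd (n := e + 1) (by omega) p hp.ne_one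
  have hm0 : 0 < m := Nat.pos_of_ne_zero fun h => hm (h ▸ dvd_zero p)
  have hk : k ≤ e := by
    have h3 : k < p ^ k := Nat.lt_pow_self hp.one_lt
    have h4 : p ^ k ≤ p ^ k * m := Nat.le_mul_of_pos_right _ hm0
    omega
  obtain ⟨m', hm'⟩ := (hu m hm).exists_right_inv
  have hle : k + (2 * s - 1) ≤ s * (e + 1) := by
    obtain ⟨s', rfl⟩ : ∃ s', s = s' + 1 := ⟨s - 1, by omega⟩
    obtain ⟨e', rfl⟩ : ∃ e', e = e' + 1 := ⟨e - 1, by omega⟩
    rw [show 2 * (s' + 1) - 1 = 2 * s' + 1 by omega]
    nlinarith [Nat.zero_le (s' * e')]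
  obtain ⟨j, hj⟩ := Nat.exists_eq_add_of_le hle
  refine ⟨(p : B) ^ (2 * s - 1) * ((p : B) ^ j * m' * PowerSeries.coeff e v), ?_, ?_⟩
  · have h3 : (m : K) * algebraMap B K m' = 1 := by
      rw [← map_natCast (algebraMap B K), ← map_mul, hm', map_one]
    simp only [map_mul, map_pow, map_natCast]
    rw [← h2, ← pow_mul, hj, hkm]
    push_cast
    rw [← hkm]
    linear_combination ((p : K) ^ (2 * s - 1) * (p : K) ^ j * (p : K) ^ k *
      PowerSeries.coeff (e + 1) ℓ) * h3
  · rw [if_neg (by omega), sub_zero]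
    exact Ideal.mul_mem_right _ _ (Ideal.mem_span_singleton_self _)

theorem cz2_log (hu : ∀ m : ℕ, ¬ p ∣ m → IsUnit (m : B)) {G : FormalGroup B}
    {ℓ : PowerSeries K} (hℓ : IsLog G ℓ) {s : ℕ} (hs : 1 ≤ s) {τ : Type} {z : MvPowerSeries τ B}
    (hz0 : constantCoeff z = 0) (hz : ∀ d, coeff d z ∈ Ideal.span {(p : B) ^ s}) :
    ∃ y : MvPowerSeries τ B, MvPowerSeries.map (algebraMap B K) y =
        PowerSeries.subst (MvPowerSeries.map (algebraMap B K) z) ℓ ∧
      ∀ d, coeff d (y - z) ∈ Ideal.span {(p : B) ^ (2 * s - 1)} := by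
  obtain ⟨E, rfl⟩ := cz2_exists_C_mul hz
  have hp0 : (p : B) ≠ 0 := fun h => by
    have := congrArg (algebraMap B K) h
    rw [map_natCast, map_zero] at this
    exact (Fact.out : p.Prime).ne_zero (Nat.cast_eq_zero.1 this)
  have hE : constantCoeff E = 0 := by
    rw [map_mul, constantCoeff_C] at hz0
    exact (mul_eq_zero.1 hz0).resolve_left (pow_ne_zero _ hp0)
  choose c hc hc' using cz2_log_coeff hu hℓ hs
  refine ⟨PowerSeries.subst E (PowerSeries.mk c), ?_, fun d => ?_⟩
  · have h1 : PowerSeries.map (algebraMap B K) (PowerSeries.mk c) =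
        PowerSeries.rescale (algebraMap B K ((p : B) ^ s)) ℓ := by
      ext e
      rw [PowerSeries.coeff_map, PowerSeries.coeff_mk, PowerSeries.coeff_rescale, hc]
    have hE' := cz2_cc_map (algebraMap B K) hE
    rw [fg_map1 _ _ hE, h1, PowerSeries.rescale_eq_subst, fg_ev1 _ (by simp) hE',
      PowerSeries.smul_eq_C_mul, cz2_subst_C_mul hE', PowerSeries.subst_X (fg_hs hE'), map_mul,
      map_C]
  · have h1 : PowerSeries.subst E (PowerSeries.mk c) - C ((p : B) ^ s) * E =
        PowerSeries.subst E (PowerSeries.mk c - PowerSeries.C ((p : B) ^ s) * PowerSeries.X) := by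
      rw [PowerSeries.subst_sub (fg_hs hE), cz2_subst_C_mul hE, PowerSeries.subst_X (fg_hs hE)]
    rw [h1]
    refine frob_subst_mem (fun e => ?_) hE d
    rw [map_sub, PowerSeries.coeff_mk, PowerSeries.coeff_C_mul, PowerSeries.coeff_X]
    simpa using hc' e

theorem cz2_exists_D (hu : ∀ m : ℕ, ¬ p ∣ m → IsUnit (m : B)) (G : FormalGroup B) [G.IsComm]
    {ℓ : PowerSeries K} (hℓ : IsLog G ℓ) {ζ : PowerSeries B}
    (hζ0 : PowerSeries.constantCoeff ζ = 0)
    (hζ : ∀ d, coeff d (PowerSeries.subst G.toPowerSeries ζ - fadd G (in0 ζ) (in1 ζ)) ∈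
      Ideal.span {(p : B) ^ 2}) :
    ∃ D Δ : MvPowerSeries (Fin 2) B, constantCoeff D = 0 ∧ constantCoeff Δ = 0 ∧
      PowerSeries.subst G.toPowerSeries ζ = fadd G (fadd G (in0 ζ) (in1 ζ)) D ∧
      MvPowerSeries.map (algebraMap B K) Δ = cob (G.map (algebraMap B K))
        (PowerSeries.subst (PowerSeries.map (algebraMap B K) ζ) ℓ) ∧
      ∀ i d, coeff d (PowerSeries.subst D (mulSeries G (p ^ i)) - C ((p : B) ^ i) * Δ) ∈
        Ideal.span {(p : B) ^ (2 * i)} := by
  obtain ⟨ι, hι, -, hι'⟩ := exists_neg G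
  have h0 : constantCoeff (X 0 : MvPowerSeries (Fin 2) B) = 0 := constantCoeff_X 0
  have h1 : constantCoeff (X 1 : MvPowerSeries (Fin 2) B) = 0 := constantCoeff_X 1
  have z0 : constantCoeff (in0 ζ) = 0 := fg_cc h0 hζ0
  have z1 : constantCoeff (in1 ζ) = 0 := fg_cc h1 hζ0
  have hS := constantCoeff_fadd G z0 z1
  have hT := fg_cc G.zero_constantCoeff hζ0
  set S := fadd G (in0 ζ) (in1 ζ) with hSdef
  set T := PowerSeries.subst G.toPowerSeries ζ with hTdef
  have hN := fg_cc hS hι.1
  have e1 : fadd G S (PowerSeries.subst S ι) = 0 := by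
    have := congrArg (PowerSeries.subst S) hι'
    rwa [fadd, fg_ev2 _ PowerSeries.constantCoeff_X hι.1 hS, PowerSeries.subst_X (fg_hs hS),
      fg_ev_zero hS] at this
  have hD := constantCoeff_fadd G hN hT
  set D := fadd G (PowerSeries.subst S ι) T with hDdef
  have e2 : T = fadd G S D := by
    rw [hDdef, fadd, fadd, ← G.assoc' (fg_hs hS) (fg_hs hN) (fg_hs hT)]
    change _ = fadd G (fadd G S (PowerSeries.subst S ι)) T
    rw [e1, fadd, G.zero_add (fg_hs hT)]
  have e3 : ∀ d, coeff d D ∈ Ideal.span {(p : B) ^ 2} := by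
    have : ∀ d, coeff d (D - 0) ∈ Ideal.span {(p : B) ^ 2} := by
      rw [← cz2_map_eq_iff, hDdef, map_fadd G _ hN hT, (cz2_map_eq_iff _ _ _).2 hζ,
        ← map_fadd G _ hN hS, fadd, G.comm' (fg_hs hN) (fg_hs hS)]
      exact congrArg _ e1
    simpa using this
  obtain ⟨Δ, hΔ, -⟩ := cz2_log hu hℓ (s := 2) (by norm_num) hD e3
  have hinj := fg_map_injective (algebraMap B K) (IsFractionRing.injective B K) (τ := Fin 2)
  have hDK := cz2_cc_map (algebraMap B K) hD
  have hζK := transfer_cc_map (algebraMap B K) hζ0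
  refine ⟨D, Δ, hD, ?_, e2, ?_, fun i => ?_⟩
  · apply IsFractionRing.injective B K
    rw [← constantCoeff_map, hΔ, fg_cc hDK hℓ.zero, map_zero]
  · have k0 : constantCoeff (X 0 : MvPowerSeries (Fin 2) K) = 0 := constantCoeff_X 0
    have k1 : constantCoeff (X 1 : MvPowerSeries (Fin 2) K) = 0 := constantCoeff_X 1
    obtain ⟨f1, f2⟩ := fg_hom_map_eq G G hζ0 (algebraMap B K)
    rw [hΔ, cob, in0, in1, fg_ev1 _ hζK (G.map (algebraMap B K)).zero_constantCoeff,
      fg_ev1 _ hζK k0, fg_ev1 _ hζK k1, ← f1, ← hTdef, e2, map_fadd G _ hS hD,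
      hℓ.fadd (cz2_cc_map _ hS) hDK, f2, hℓ.fadd (fg_cc k0 hζK) (fg_cc k1 hζK)]
    ring
  · have hm := constantCoeff_mulSeries G (p ^ i)
    have e4 : ∀ d, coeff d (PowerSeries.subst D (mulSeries G (p ^ i))) ∈
        Ideal.span {(p : B) ^ (2 + i)} := fun d => by
      have := mulSeries_contract G p (Ideal.span {(p : B)}) (Ideal.mem_span_singleton_self _) hD
        (z' := 0) (map_zero _) (r := 2) (by norm_num)
        (fun d => by rw [sub_zero, Ideal.span_singleton_pow]; exact e3 d) i d
      rwa [frob_subst_zero, hm, map_zero, sub_zero, Ideal.span_singleton_pow] at this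
    obtain ⟨y, hy, hy'⟩ := cz2_log hu hℓ (s := 2 + i) (by omega) (fg_cc hD hm) e4
    have e5 : y = C ((p : B) ^ i) * Δ := by
      apply hinj
      rw [hy, fg_map1 _ _ hD, map_mulSeries, ← fg_ev1 _ (constantCoeff_mulSeries _ _) hDK,
        hℓ.mulSeries, PowerSeries.smul_eq_C_mul, cz2_subst_C_mul hDK, map_mul, map_C, hΔ]
      simp
    intro d
    rw [← e5, ← neg_sub, map_neg]
    refine neg_mem (Ideal.span_singleton_le_span_singleton.2 (pow_dvd_pow _ (by omega)) (hy' d))

theorem cz2_exists_dual (G : FormalGroup B) [G.IsComm] {f : PowerSeries K}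
    (hf : PowerSeries.constantCoeff f = 0) {Δ : MvPowerSeries (Fin 2) B}
    (hΔ : MvPowerSeries.map (algebraMap B K) Δ = cob (G.map (algebraMap B K)) f) :
    ∃ G' : FormalGroup (DualNumber B), G'.toPowerSeries =
      MvPowerSeries.map (algebraMap B (DualNumber B)) G.toPowerSeries +
        C DualNumber.eps * MvPowerSeries.map (algebraMap B (DualNumber B))
          (-(PowerSeries.subst G.toPowerSeries (uSer G) * Δ)) := by
  set j : K →+* DualNumber K := algebraMap K (DualNumber K) with hj
  set φ := cz2dl (j.comp (algebraMap B K)) DualNumber.eps DualNumber.eps_mul_eps with hφ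
  have hinj : Function.Injective φ := by
    intro x y h
    have h1 := congrArg TrivSqZeroExt.fst h
    have h2 := congrArg TrivSqZeroExt.snd h
    simp [hφ, hj, cz2dl_apply, TrivSqZeroExt.algebraMap_eq_inl] at h1 h2
    exact TrivSqZeroExt.ext h1 h2
  obtain ⟨G'', hG''⟩ := cz2_exists_law ((G.map (algebraMap B K)).map j) DualNumber.eps_mul_eps
    (transfer_cc_map j hf)
  have key : G''.toPowerSeries = MvPowerSeries.map φ
      (MvPowerSeries.map (algebraMap B (DualNumber B)) G.toPowerSeries +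
        C DualNumber.eps * MvPowerSeries.map (algebraMap B (DualNumber B))
          (-(PowerSeries.subst G.toPowerSeries (uSer G) * Δ))) := by
    have e1 : MvPowerSeries.map j (cob (G.map (algebraMap B K)) f) =
        cob ((G.map (algebraMap B K)).map j) (PowerSeries.map j f) := by
      rw [cob, cob, map_sub, map_sub, fg_map1 _ _ (G.map (algebraMap B K)).zero_constantCoeff,
        fg_map1 _ _ (constantCoeff_X 0), fg_map1 _ _ (constantCoeff_X 1), map_X, map_X]
      rfl
    rw [hG'', hφ, cz2dl_map, map_neg, map_mul, fg_map1 _ _ G.zero_constantCoeff, map_uSer,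
      ← e1, ← hΔ, MvPowerSeries.map_map, map_map]
    rfl
  obtain ⟨F, hF, -⟩ := exists_descent φ hinj G'' (fun d => by
    rw [key, coeff_map]
    exact ⟨_, rfl⟩)
  refine ⟨F, fg_map_injective φ hinj ?_⟩
  rw [← key, ← hF]
  rfl

end log

/-- Plan (`G = H.map t`, `+` = sum in `G`, `u = uSer G`).  Let `D = ζ(G(X,Y)) - ζ X - ζ Y` (difference
in `G`, `exists_neg`); `D ∈ p² B⟦X,Y⟧`.  For `z ∈ p^s B⟦X,Y⟧`, `s ≥ 2`: `ℓ(z) - z ∈ p^(2s-1) B⟦X,Y⟧`
(`e ℓ_e ∈ B`).  So `Δ = ℓ(D) = cob (ℓ ∘ ζ) ∈ B⟦X,Y⟧` and `[p^i] D ≡ p^i Δ mod p^(2i)`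
(`[p^i] D ∈ p^(i+2)` by `mulSeries_contract`).  `Δ` is a symmetric 2-cocycle, so
`G_ε = G(X,Y) +_G (-ε Δ) = G - ε u(G) Δ` is a law over `B[ε]` (`fadd_sq_zero`).  `exists_classify`
gives `τ = t + ε δ` (first component `t` by `classify_unique`) and `θ = X + ε b` (`rigidity`);
`β = b / u`.  For the last clause specialise `ε ↦ p^i` in `B ⧸ (p^(2i))`: `θ⁰ = X +_G [p^i] ζ` is a
homomorphism `G_ε → G` there, reducing to `gser`; apply `classify_unique` to `θ⁰ ∘ θ`. -/
theorem exists_derivation (hn : 1 ≤ n) [Γ.IsComm] [H.IsComm]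
    (hΓ : mulSeries Γ p = PowerSeries.X ^ (p ^ n)) (hH : IsUniversalDeformation p n Γ H)
    {B K : Type} [CommRing B] [IsDomain B] [IsLocalRing B] [Algebra (WW p n) B] [Field K]
    [CharZero K] [Algebra B K] [IsFractionRing B K] {r : B →+* kk p n} (hB : IsTest p n B r)
    (t : LTRing p n →ₐ[WW p n] B) (ht : r.comp t.toRingHom = LTRing.residue p n)
    {ℓ : PowerSeries K} (hℓ : IsLog (H.map t.toRingHom) ℓ)
    (ζ : PowerSeries B) (hζ0 : PowerSeries.constantCoeff ζ = 0)
    (hζ : ∀ d, coeff d (PowerSeries.subst (H.map t.toRingHom).toPowerSeries ζ -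
      fadd (H.map t.toRingHom) (in0 ζ) (in1 ζ)) ∈ Ideal.span {(p : B) ^ 2}) :
    ∃ (δ : LTRing p n →+ B) (β : PowerSeries B),
      (∀ x y, δ (x * y) = t x * δ y + t y * δ x) ∧
      (∀ w, δ (algebraMap (WW p n) (LTRing p n) w) = 0) ∧
      PowerSeries.constantCoeff β = 0 ∧
      (show MvPowerSeries (Fin 2) K from fun d => algebraMap B K (δ (coeff d H.toPowerSeries))) *
          PowerSeries.subst ((H.map t.toRingHom).map (algebraMap B K)).toPowerSeries
            (PowerSeries.derivative K ℓ) +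
        cob ((H.map t.toRingHom).map (algebraMap B K))
          (PowerSeries.subst (PowerSeries.map (algebraMap B K) ζ) ℓ) +
        cob ((H.map t.toRingHom).map (algebraMap B K)) (PowerSeries.map (algebraMap B K) β) = 0 ∧
      ∀ i, 1 ≤ i → ∀ φ, IsStabilizerMap p n H (gser Γ (PowerSeries.map r ζ) i) φ →
        ∀ x, t (φ x) - t x - (p : B) ^ i * δ x ∈ Ideal.span {(p : B) ^ (2 * i)} := by
  set G := H.map t.toRingHom with hG
  have hGr : G.map r = Γ := by rw [hG, map_map, ht, hH.1]
  have hu : ∀ m : ℕ, ¬ p ∣ m → IsUnit (m : B) := fun m hm => by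
    rw [hB.isUnit_iff, map_natCast]
    exact fun h => hm ((CharP.cast_eq_zero_iff (kk p n) p m).1 h)
  have hζK := transfer_cc_map (algebraMap B K) hζ0
  obtain ⟨D, Δ, hD, hΔ0, hD1, hΔ, hD2⟩ := cz2_exists_D hu G hℓ hζ0 hζ
  obtain ⟨Gε, hGε⟩ := cz2_exists_dual G (transfer_cc_subst hζK hℓ.zero) hΔ
  set j : B →+* DualNumber B := algebraMap B (DualNumber B) with hj
  set π : DualNumber B →+* B := (TrivSqZeroExt.fstHom B B B).toRingHom with hπ
  have hπdl : π = cz2dl (RingHom.id B) 0 (mul_zero 0) := by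
    refine RingHom.ext fun x => ?_
    simp [hπ, cz2dl_apply]
  have hGπ : Gε.map π = G := by
    ext : 1
    rw [FormalGroup.map_toPowerSeries, hGε, hπdl, cz2dl_map]
    simp
  obtain ⟨_, hBε⟩ := hB.dual
  obtain ⟨τ, hτ, θ, hθ, hθr⟩ := exists_classify hH hBε Gε (by rw [← map_map, hGπ, hGr])
  -- the first components
  have hθ₀ : IsFGHom (H.map (π.comp τ.toRingHom)) G (PowerSeries.map π θ) := by
    have := hom_map hθ π
    rwa [map_map, hGπ] at this
  have hθ₀r : PowerSeries.map r (PowerSeries.map π θ) = PowerSeries.X := by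
    rw [transfer_map_map, hθr]
  have hτ₀ : t = (TrivSqZeroExt.fstHom (WW p n) B B).comp τ :=
    classify_unique hH hB ht hτ (hom_X G) hθ₀ (by simp) (by rw [hθ₀r, PowerSeries.map_X])
  have hτ₁ : ∀ x, (τ x).fst = t x := fun x => (DFunLike.congr_fun hτ₀ x).symm
  have hτ₂ : π.comp τ.toRingHom = t.toRingHom := RingHom.ext hτ₁
  have hθX : PowerSeries.map π θ = PowerSeries.X := by
    rw [hτ₂] at hθ₀
    have := hB.complete
    exact rigidity p (maximalIdeal B) hB.natCast_mem
      (N := p ^ n) (pow_ne_zero _ (Fact.out : p.Prime).ne_zero)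
      (fun e => by
        rw [← hB.ker, RingHom.mem_ker, ← PowerSeries.coeff_map, map_sub, map_mulSeries, hGr, hΓ,
          map_pow, PowerSeries.map_X, sub_self, map_zero])
      hθ₀ (hom_X G) (fun e => by
        rw [← hB.ker, RingHom.mem_ker, ← PowerSeries.coeff_map, map_sub, hθ₀r, PowerSeries.map_X,
          sub_self, map_zero])
  obtain ⟨b, hb⟩ : ∃ b : PowerSeries B,
      θ = PowerSeries.X + PowerSeries.C DualNumber.eps * PowerSeries.map j b := by
    refine ⟨(show MvPowerSeries Unit B from fun d => (coeff d θ).snd),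
      (cz2_dual_decomp θ).trans ?_⟩
    congr 1
    change PowerSeries.map j (PowerSeries.map π θ) = _
    rw [hθX, PowerSeries.map_X]
  have hb0 : PowerSeries.constantCoeff b = 0 := by
    have := congrArg TrivSqZeroExt.snd hθ.1
    rw [hb, map_add, map_mul, PowerSeries.constantCoeff_X, PowerSeries.constantCoeff_C,
      ← PowerSeries.coeff_zero_eq_constantCoeff_apply, PowerSeries.coeff_map] at this
    simpa [hj, TrivSqZeroExt.algebraMap_eq_inl] using this
  have hunit : IsUnit (uSer G) := by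
    rw [PowerSeries.isUnit_iff_constantCoeff, constantCoeff_uSer]
    exact isUnit_one
  obtain ⟨v, hv⟩ := hunit.exists_right_inv
  have hβ0 : PowerSeries.constantCoeff (v * b) = 0 := by rw [map_mul, hb0, mul_zero]
  have hβj := transfer_cc_map j hβ0
  have hθβ : θ = cz2θ (G.map j) DualNumber.eps (PowerSeries.map j (v * b)) := by
    rw [cz2θ_eq _ DualNumber.eps_mul_eps hβj, ← map_uSer, ← map_mul, ← mul_assoc, hv, one_mul, hb]
  let δ : LTRing p n →+ B :=
    { toFun := fun x => (τ x).snd
      map_zero' := by simp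
      map_add' := fun x y => by simp }
  set δH : MvPowerSeries (Fin 2) B := fun d => δ (coeff d H.toPowerSeries) with hδH
  have hHτ : (H.map τ.toRingHom).toPowerSeries =
      (G.map j).toPowerSeries + C DualNumber.eps * MvPowerSeries.map j δH := by
    refine (cz2_dual_decomp _).trans ?_
    congr 1
    change MvPowerSeries.map j ((H.map τ.toRingHom).map π).toPowerSeries = _
    rw [map_map, hτ₂]
    rfl
  have hδH0 : constantCoeff δH = 0 := by
    change δ (constantCoeff H.toPowerSeries) = 0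
    rw [H.zero_constantCoeff, map_zero]
  have main : δH + PowerSeries.subst G.toPowerSeries (uSer G) * (Δ + cob G (v * b)) = 0 := by
    have h1 := hθ.2
    have h2 := cz2_left (G.map j) DualNumber.eps_mul_eps hβj (cz2_cc_map j hδH0)
    have h3 := cz2_right (G.map j) DualNumber.eps_mul_eps hβj
      (MvPowerSeries.map j (-(PowerSeries.subst G.toPowerSeries (uSer G) * Δ)))
    rw [hHτ, hGε, hθβ, h2] at h1
    have h4 := add_left_cancel (h1.trans h3)
    have h5 : δH + PowerSeries.subst G.toPowerSeries (uSer G) *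
        PowerSeries.subst G.toPowerSeries (v * b) =
        -(PowerSeries.subst G.toPowerSeries (uSer G) * Δ) +
          PowerSeries.subst G.toPowerSeries (uSer G) * (in0 (v * b) + in1 (v * b)) := by
      apply cz2_dual_inj
      rw [map_add, map_add, map_mul, map_mul _ _ (in0 _ + in1 _), map_add,
        fg_map1 _ _ G.zero_constantCoeff, fg_map1 _ _ G.zero_constantCoeff,
        fg_map1 _ _ (constantCoeff_X 0), fg_map1 _ _ (constantCoeff_X 1), map_X, map_X, map_uSer]
      exact h4
    rw [cob]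
    linear_combination h5
  refine ⟨δ, v * b, fun x y => ?_, fun w => ?_, hβ0, ?_, fun i hi φ hφ x => ?_⟩
  · change (τ (x * y)).snd = t x * (τ y).snd + t y * (τ x).snd
    rw [map_mul, DualNumber.snd_mul, hτ₁, hτ₁]
    ring
  · change (τ _).snd = 0
    rw [AlgHom.commutes]
    rfl
  · have hGK := (G.map (algebraMap B K)).zero_constantCoeff
    have h1 := congrArg (MvPowerSeries.map (algebraMap B K)) main
    have h2 : MvPowerSeries.map (algebraMap B K) (cob G (v * b)) =
        cob (G.map (algebraMap B K)) (PowerSeries.map (algebraMap B K) (v * b)) := by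
      rw [cob, cob, map_sub, map_sub, fg_map1 _ _ G.zero_constantCoeff,
        fg_map1 _ _ (constantCoeff_X 0), fg_map1 _ _ (constantCoeff_X 1), map_X, map_X]
      rfl
    rw [map_add, map_mul, map_add, map_zero, hΔ, h2, fg_map1 _ _ G.zero_constantCoeff] at h1
    have h3 := congrArg (PowerSeries.subst (G.map (algebraMap B K)).toPowerSeries) hℓ.deriv
    rw [PowerSeries.subst_mul (fg_hs hGK), ← map_one PowerSeries.C, PowerSeries.subst_C,
      map_one] at h3
    change MvPowerSeries.map (algebraMap B K) δH * _ + _ + _ = 0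
    rw [FormalGroup.map_toPowerSeries] at h3 ⊢
    linear_combination (PowerSeries.subst (MvPowerSeries.map (algebraMap B K) G.toPowerSeries)
      (PowerSeries.derivative K ℓ)) * h1 - (cob (G.map (algebraMap B K))
        (PowerSeries.subst (PowerSeries.map (algebraMap B K) ζ) ℓ) +
        cob (G.map (algebraMap B K)) (PowerSeries.map (algebraMap B K) (v * b))) * h3
  · obtain ⟨hφr, θφ, hθφ, hθφr⟩ := hφ
    set J : Ideal B := Ideal.span {(p : B) ^ (2 * i)} with hJ
    have hJt : J ≠ ⊤ := by
      refine ne_top_of_le_ne_top (maximalIdeal.isMaximal B).ne_top ?_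
      rw [hJ, Ideal.span_singleton_le_iff_mem]
      exact Ideal.pow_mem_of_mem _ hB.natCast_mem _ (by omega)
    obtain ⟨_, r', hR, hr', -⟩ := hB.quot J hJt
    set q : B →+* B ⧸ J := Ideal.Quotient.mk J with hq
    have hp2 : ((p : ℕ) : B ⧸ J) ^ (2 * i) = 0 := by
      rw [← map_natCast q, ← map_pow, hq, Ideal.Quotient.eq_zero_iff_mem]
      exact Ideal.mem_span_singleton_self _
    have he : ((p : ℕ) : B ⧸ J) ^ i * ((p : ℕ) : B ⧸ J) ^ i = 0 := by
      rw [← pow_add, ← two_mul, hp2]
    set ψ := cz2dl q _ he with hψ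
    let ψa : DualNumber B →ₐ[WW p n] B ⧸ J :=
      { ψ with
        commutes' := fun w => by
          change ψ _ = _
          rw [IsScalarTower.algebraMap_apply (WW p n) B (DualNumber B), ← RingHom.comp_apply, hψ,
            cz2dl_comp]
          rfl }
    have hrψ : r'.comp ψ = r.comp π := by
      refine RingHom.ext fun y => ?_
      rw [RingHom.comp_apply, hψ, cz2dl_apply, map_add, map_mul, map_pow, map_natCast,
        CharP.cast_eq_zero, zero_pow (by omega), mul_zero, add_zero, ← RingHom.comp_apply, hr']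
      rfl
    have hζq := transfer_cc_map q hζ0
    have hw := transfer_cc_subst hζq (constantCoeff_mulSeries (G.map q) (p ^ i))
    have h0 : IsFGHom (Gε.map ψ) (G.map q) (fadd (G.map q) PowerSeries.X
        (PowerSeries.subst (PowerSeries.map q ζ) (mulSeries (G.map q) (p ^ i)))) := by
      obtain ⟨f1, f2⟩ := fg_hom_map_eq G G hζ0 q
      refine cz2_hom_pow (G.map q) hi hp2 hζq (cz2_cc_map q hD) (cz2_cc_map q hΔ0) ?_ ?_ ?_
      · rw [← f1, ← f2, hD1, map_fadd G _ (constantCoeff_fadd G (fg_cc (constantCoeff_X 0) hζ0)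
          (fg_cc (constantCoeff_X 1) hζ0)) hD]
      · rw [← map_mulSeries, ← fg_map1 _ _ hD, (cz2_map_eq_iff J _ _).2 (hD2 i), map_mul, map_C,
          map_pow, map_natCast]
      · rw [FormalGroup.map_toPowerSeries, hGε, hψ, cz2dl_map, map_neg, map_mul,
          fg_map1 _ _ G.zero_constantCoeff, map_uSer]
        rfl
    have h0r : PowerSeries.map r' (fadd (G.map q) PowerSeries.X
        (PowerSeries.subst (PowerSeries.map q ζ) (mulSeries (G.map q) (p ^ i)))) =
        gser Γ (PowerSeries.map r ζ) i := by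
      have hGq : (G.map q).map r' = Γ := by rw [map_map, hr', hGr]
      have h1 := map_fadd (G.map q) r' (τ := Unit) PowerSeries.constantCoeff_X hw
      have h2 := transfer_map_subst r' hζq (mulSeries (G.map q) (p ^ i))
      rw [map_mulSeries, hGq, transfer_map_map, hr'] at h2
      refine h1.trans ?_
      rw [hGq, gser, ← h2, ← PowerSeries.map_X r']
      rfl
    have h1 : IsFGHom (H.map (ψa.comp τ).toRingHom) (Gε.map ψ) (PowerSeries.map ψ θ) := by
      have := hom_map hθ ψ
      rwa [map_map] at this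
    have h2 : IsFGHom (H.map (((Ideal.Quotient.mkₐ (WW p n) J).comp t).comp φ).toRingHom) (G.map q)
        (PowerSeries.map (q.comp t.toRingHom) θφ) := by
      have := hom_map hθφ (q.comp t.toRingHom)
      rwa [map_map, ← map_map H t.toRingHom q] at this
    have h2r : PowerSeries.map r' (PowerSeries.map (q.comp t.toRingHom) θφ) =
        gser Γ (PowerSeries.map r ζ) i := by
      rw [transfer_map_map, ← RingHom.comp_assoc, hr', ht, hθφr]
    have heq : ((Ideal.Quotient.mkₐ (WW p n) J).comp t).comp φ = ψa.comp τ := by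
      refine classify_unique hH hR ?_ ?_ h2 (hom_comp h1 h0) ?_ ?_
      · change r'.comp ((q.comp t.toRingHom).comp φ.toRingHom) = _
        rw [← RingHom.comp_assoc, ← RingHom.comp_assoc, hr', ht, hφr]
      · change r'.comp (ψ.comp τ.toRingHom) = _
        rw [← RingHom.comp_assoc, hrψ, hτ]
      · have hξ := transfer_cc_map r hζ0
        rw [hR.isUnit_iff, ← PowerSeries.coeff_map, h2r, gser,
          coeff_one_fadd _ PowerSeries.constantCoeff_X
            (transfer_cc_subst hξ (constantCoeff_mulSeries _ _)),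
          coeff_one_subst hξ, coeff_one_mulSeries, Nat.cast_pow, CharP.cast_eq_zero,
          zero_pow (by omega)]
        simp
      · rw [h2r, transfer_map_subst r' h1.1, h0r, transfer_map_map, hrψ, hθr, PowerSeries.X_subst]
    have h3 := DFunLike.congr_fun heq x
    change q (t (φ x)) = ψ (τ x) at h3
    rw [hψ, cz2dl_apply, hτ₁] at h3
    rw [← Ideal.Quotient.eq_zero_iff_mem, map_sub, map_sub, map_mul, map_pow, map_natCast, h3]
    change _ - _ - _ * q (τ x).snd = 0
    ring

end Crest.Agent.R227
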