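import Crest.Agent.R227.LT

/-! # Row 227: change of the coordinate on `Γ`; the elements `1 + p ^ i ξ`; continuity of the action. -/

set_option autoImplicit false
set_option linter.unusedSectionVars false

open MvPowerSeries IsLocalRing

noncomputable section
namespace Crest.Agent.R227

open Crest.LubinTate

section aux

variable {R S : Type} [CommRing R] [CommRing S]

theorem transfer_hasSubst {a : PowerSeries R} (ha : PowerSeries.constantCoeff a = 0) :
    PowerSeries.HasSubst a := PowerSeries.HasSubst.of_constantCoeff_zero' ha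

theorem transfer_map_subst (φ : R →+* S) {a : PowerSeries R} (ha : PowerSeries.constantCoeff a = 0)
    (f : PowerSeries R) :
    PowerSeries.map φ (PowerSeries.subst a f : PowerSeries R) =
      PowerSeries.subst (PowerSeries.map φ a) (PowerSeries.map φ f) :=
  PowerSeries.map_subst (transfer_hasSubst ha) f

theorem transfer_cc_map (φ : R →+* S) {a : PowerSeries R} (ha : PowerSeries.constantCoeff a = 0) :
    PowerSeries.constantCoeff (PowerSeries.map φ a) = 0 := by
  rw [← PowerSeries.coeff_zero_eq_constantCoeff_apply, PowerSeries.coeff_map,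
    PowerSeries.coeff_zero_eq_constantCoeff_apply, ha, map_zero]

theorem transfer_cc_subst {a f : PowerSeries R} (ha : PowerSeries.constantCoeff a = 0)
    (hf : PowerSeries.constantCoeff f = 0) :
    PowerSeries.constantCoeff (PowerSeries.subst a f : PowerSeries R) = 0 :=
  PowerSeries.constantCoeff_subst_eq_zero ha f hf

theorem transfer_map_map {T : Type} [CommRing T] (φ : R →+* S) (ψ : S →+* T) (a : PowerSeries R) :
    PowerSeries.map ψ (PowerSeries.map φ a) = PowerSeries.map (ψ.comp φ) a := by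
  rw [PowerSeries.map_comp]
  rfl

/-- mutually inverse series -/
structure TransferInv (a b : PowerSeries R) : Prop where
  ha : PowerSeries.constantCoeff a = 0
  hb : PowerSeries.constantCoeff b = 0
  ab : (PowerSeries.subst a b : PowerSeries R) = PowerSeries.X
  ba : (PowerSeries.subst b a : PowerSeries R) = PowerSeries.X

theorem TransferInv.symm {a b : PowerSeries R} (h : TransferInv a b) : TransferInv b a :=
  ⟨h.hb, h.ha, h.ba, h.ab⟩

theorem TransferInv.map {a b : PowerSeries R} (h : TransferInv a b) (φ : R →+* S) :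
    TransferInv (PowerSeries.map φ a) (PowerSeries.map φ b) :=
  ⟨transfer_cc_map φ h.ha, transfer_cc_map φ h.hb,
    by rw [← transfer_map_subst φ h.ha, h.ab, PowerSeries.map_X],
    by rw [← transfer_map_subst φ h.hb, h.ba, PowerSeries.map_X]⟩

theorem TransferInv.isUnit {a b : PowerSeries R} (h : TransferInv a b) :
    IsUnit (PowerSeries.coeff 1 a) := by
  have h1 := coeff_one_subst (g := a) h.hb
  rw [h.ba, PowerSeries.coeff_one_X] at h1
  exact IsUnit.of_mul_eq_one _ h1.symm

theorem transferInv_of_isUnit {a : PowerSeries R} (ha : PowerSeries.constantCoeff a = 0)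
    (hu : IsUnit (PowerSeries.coeff 1 a)) : TransferInv a (a.substInvOfIsUnit hu) :=
  ⟨ha, a.constantCoeff_substInvOfIsUnit hu, a.subst_substInvOfIsUnit_left ha hu,
    a.subst_substInvOfIsUnit_right ha hu⟩

theorem TransferInv.hom {a b : PowerSeries R} (h : TransferInv a b) {F G : FormalGroup R}
    (hf : IsFGHom F G a) : IsFGHom G F b := by
  have h' := transferInv_of_isUnit h.ha h.isUnit
  have e : b = a.substInvOfIsUnit h.isUnit := by
    have h1 := PowerSeries.subst_comp_subst_apply (transfer_hasSubst h.ha)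
      (transfer_hasSubst h'.hb) b
    rw [h.ab, h'.ba, PowerSeries.subst_X (transfer_hasSubst h'.hb), PowerSeries.X_subst] at h1
    exact h1.symm
  rw [e]
  exact hom_inv hf h.isUnit

/-- substitution respects congruences modulo `X ^ M` -/
theorem transfer_dvd_subst {σ : Type} [Finite σ] {a a' : σ → PowerSeries R}
    (ha : ∀ s, PowerSeries.constantCoeff (a s) = 0) (ha' : ∀ s, PowerSeries.constantCoeff (a' s) = 0)
    {M : ℕ} (h : ∀ s, PowerSeries.X ^ M ∣ a s - a' s) (F : MvPowerSeries σ R) :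
    (PowerSeries.X : PowerSeries R) ^ M ∣
      (show PowerSeries R from F.subst a) - (show PowerSeries R from F.subst a') := by
  rw [PowerSeries.X_pow_dvd_iff]
  intro e he
  have key : ∀ d : σ →₀ ℕ, PowerSeries.coeff e (d.prod fun s k => a s ^ k) =
      PowerSeries.coeff e (d.prod fun s k => a' s ^ k) := fun d => by
    have h1 : (PowerSeries.X : PowerSeries R) ^ M ∣
        (d.prod fun s k => a s ^ k) - d.prod fun s k => a' s ^ k := by
      rw [← Ideal.mem_span_singleton, ← Ideal.Quotient.eq, map_finsuppProd, map_finsuppProd]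
      refine Finsupp.prod_congr fun s _ => ?_
      rw [map_pow, map_pow, Ideal.Quotient.eq.2 (Ideal.mem_span_singleton.2 (h s))]
    have h2 := PowerSeries.X_pow_dvd_iff.1 h1 e he
    rwa [map_sub, sub_eq_zero] at h2
  rw [map_sub, sub_eq_zero]
  have e1 := coeff_subst (hasSubst_of_constantCoeff_zero ha) F (Finsupp.single () e)
  have e2 := coeff_subst (hasSubst_of_constantCoeff_zero ha') F (Finsupp.single () e)
  refine e1.trans (Eq.trans (finsum_congr fun d => ?_) e2.symm)
  exact congrArg _ (key d)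

theorem transfer_dvd_subst_left {a f : PowerSeries R} (ha : PowerSeries.constantCoeff a = 0)
    {M : ℕ} (h : PowerSeries.X ^ M ∣ f) :
    (PowerSeries.X : PowerSeries R) ^ M ∣ (PowerSeries.subst a f : PowerSeries R) := by
  obtain ⟨g, rfl⟩ := h
  rw [PowerSeries.subst_mul (transfer_hasSubst ha), PowerSeries.subst_pow (transfer_hasSubst ha),
    PowerSeries.subst_X (transfer_hasSubst ha)]
  exact Dvd.dvd.mul_right (pow_dvd_pow_of_dvd (PowerSeries.X_dvd_iff.2 ha) M) _

theorem transfer_dvd_fadd (F : FormalGroup R) {b : PowerSeries R}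
    (hb : PowerSeries.constantCoeff b = 0) {M : ℕ} (h : PowerSeries.X ^ M ∣ b) :
    (PowerSeries.X : PowerSeries R) ^ M ∣
      (show PowerSeries R from fadd F PowerSeries.X b) - PowerSeries.X := by
  have h1 := transfer_dvd_subst (a := ![PowerSeries.X, b]) (a' := ![PowerSeries.X, 0])
    (fun s => by fin_cases s <;> simp [hb]) (fun s => by fin_cases s <;> simp) (M := M)
    (fun s => by fin_cases s <;> simp [h]) F.toPowerSeries
  have h2 : (show PowerSeries R from F.toPowerSeries.subst ![PowerSeries.X, 0]) = PowerSeries.X :=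
    F.Xzero_eq_X
  rwa [h2] at h1

theorem transfer_dvd_mulSeries (F : FormalGroup R) {p : ℕ} (hp : (p : R) = 0) (i : ℕ) :
    (PowerSeries.X : PowerSeries R) ^ (i + 1) ∣ mulSeries F (p ^ i) := by
  induction i with
  | zero => simp [mulSeries_one]
  | succ i ih =>
    have h2 : (PowerSeries.X : PowerSeries R) ^ 2 ∣ mulSeries F p := by
      rw [PowerSeries.X_pow_dvd_iff]
      intro e he
      interval_cases e
      · rw [PowerSeries.coeff_zero_eq_constantCoeff_apply, constantCoeff_mulSeries]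
      · rw [coeff_one_mulSeries, hp]
    obtain ⟨g, hg⟩ := h2
    have hs := transfer_hasSubst (constantCoeff_mulSeries F (p ^ i))
    rw [pow_succ' p, mulSeries_mul, hg, PowerSeries.subst_mul hs, PowerSeries.subst_pow hs,
      PowerSeries.subst_X hs]
    refine Dvd.dvd.mul_right ((pow_dvd_pow _ (by omega : i + 1 + 1 ≤ (i + 1) * 2)).trans ?_) _
    rw [pow_mul]
    exact pow_dvd_pow_of_dvd ih 2

/-- conjugating a series congruent to `X` -/
theorem TransferInv.dvd_conj {a b g : PowerSeries R} (h : TransferInv a b)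
    (hg : PowerSeries.constantCoeff g = 0) {M : ℕ} (hM : PowerSeries.X ^ M ∣ g - PowerSeries.X) :
    (PowerSeries.X : PowerSeries R) ^ M ∣
      (PowerSeries.subst (PowerSeries.subst b g : PowerSeries R) a : PowerSeries R) -
        PowerSeries.X := by
  have h1 := transfer_dvd_subst_left h.hb hM
  rw [PowerSeries.subst_sub (transfer_hasSubst h.hb), PowerSeries.subst_X (transfer_hasSubst h.hb)]
    at h1
  have h2 := transfer_dvd_subst (σ := Unit) (a := fun _ => (PowerSeries.subst b g : PowerSeries R))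
    (a' := fun _ => b) (fun _ => transfer_cc_subst h.hb hg) (fun _ => h.hb) (fun _ => h1) a
  have h3 : (show PowerSeries R from MvPowerSeries.subst (fun _ : Unit => b) a) = PowerSeries.X :=
    h.ba
  rwa [h3] at h2

end aux

variable {p : ℕ} [Fact p.Prime] {n : ℕ} {Γ : FormalGroup (kk p n)} {H : FormalGroup (LTRing p n)}

/-- conjugate everything by a lift of `ι` to `W(k)` -/
theorem transfer [H.IsComm] (hH : IsUniversalDeformation p n Γ H) {Γ₀ : FormalGroup (kk p n)}
    {ι : PowerSeries (kk p n)} (hι : IsFGHom Γ₀ Γ ι) (h1 : PowerSeries.coeff 1 ι = 1) :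
    ∃ H₀ : FormalGroup (LTRing p n), H₀.IsComm ∧ IsUniversalDeformation p n Γ₀ H₀ ∧
      (∀ h, heightIdeal p n H₀ h = heightIdeal p n H h) ∧
      ∀ M J, IsStableIdeal p n Γ H M J → IsStableIdeal p n Γ₀ H₀ M J := by
  obtain ⟨w, hw0, hw⟩ := exists_lift_WW ι hι.1
  have hwu : IsUnit (PowerSeries.coeff 1 w) := by
    refine WittVector.isUnit_of_coeff_zero_ne_zero _ ?_
    have h2 := congrArg (PowerSeries.coeff 1) hw
    rw [PowerSeries.coeff_map, h1, WittVector.constantCoeff_apply] at h2
    rw [h2]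
    exact one_ne_zero
  obtain ⟨w', hww⟩ : ∃ w', TransferInv w w' := ⟨_, transferInv_of_isUnit hw0 hwu⟩
  set κ := PowerSeries.map (WittVector.constantCoeff : WW p n →+* kk p n) w' with hκ
  have hικ : TransferInv ι κ := hw ▸ hww.map _
  have hκh : IsFGHom Γ Γ₀ κ := hικ.hom hι
  have hE := hww.map (algebraMap (WW p n) (LTRing p n))
  obtain ⟨H₀, hH₀, hc⟩ := exists_conj H _ hE.ha hE.isUnit
  have hc' := hc inferInstance
  have hres := (isTest_LT p n).comp
  have hφw : ∀ {B : Type} [CommRing B] [Algebra (WW p n) B] (φ : LTRing p n →ₐ[WW p n] B)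
      (v : PowerSeries (WW p n)),
      PowerSeries.map φ.toRingHom (PowerSeries.map (algebraMap (WW p n) (LTRing p n)) v) =
        PowerSeries.map (algebraMap (WW p n) B) v := fun φ v => by
    rw [transfer_map_map]
    congr 2
    exact φ.comp_algebraMap
  refine ⟨H₀, hc', ⟨?_, ?_⟩, fun h => ?_, ?_⟩
  · have h2 := hom_map hH₀ (LTRing.residue p n)
    rw [hH.1, transfer_map_map, hres, hw] at h2
    exact eq_of_hom h2 hι hικ.isUnit
  · intro B _ _ _ _ hcomp r hsurj hker hr G₀ hG₀
    have hB := hww.map (algebraMap (WW p n) B)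
    obtain ⟨G, hG, -⟩ := exists_conj G₀ _ hB.hb hB.symm.isUnit
    have hG' : G.map r = Γ := by
      have h2 := hom_map hG r
      rw [hG₀, transfer_map_map, hr] at h2
      exact eq_of_hom h2 hκh hικ.symm.isUnit
    refine (existsUnique_congr fun φ => and_congr_right fun _ => ?_).1
      (hH.2 B hcomp r hsurj hker hr G hG')
    have h2 := hom_map hH₀ φ.toRingHom
    rw [hφw] at h2
    constructor
    · rintro ⟨θ, hθ, hθr⟩
      refine ⟨_, hom_comp (hom_comp h2 hθ) hG, ?_⟩
      rw [transfer_map_subst r (transfer_cc_subst hB.ha hθ.1), transfer_map_subst r hB.ha, hθr,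
        transfer_map_map, transfer_map_map, hr, hw, PowerSeries.subst_X (transfer_hasSubst hι.1)]
      exact hικ.ab
    · rintro ⟨θ, hθ, hθr⟩
      refine ⟨_, hom_comp (hom_comp (hB.hom h2) hθ) (hB.symm.hom hG), ?_⟩
      rw [transfer_map_subst r (transfer_cc_subst hB.hb hθ.1), transfer_map_subst r hB.hb, hθr,
        transfer_map_map, transfer_map_map, hr, hw, ← hκ,
        PowerSeries.subst_X (transfer_hasSubst hικ.hb)]
      exact hικ.ba
  · rw [heightIdeal_eq, heightIdeal_eq]
    exact htIdeal_eq_of_hom p hH₀ hE.isUnit h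
  · rintro M J hJ g φ hg hM ⟨hφ, θ, hθ, hθr⟩
    have h2 := hom_map hH₀ φ.toRingHom
    rw [hφw] at h2
    refine hJ (PowerSeries.subst (PowerSeries.subst κ g : PowerSeries (kk p n)) ι) φ
      ⟨hom_comp (hom_comp hκh hg.1) hι, ?_⟩ (fun i hi => ?_)
      ⟨hφ, _, hom_comp (hom_comp (hE.hom h2) hθ) hH₀, ?_⟩
    · rw [coeff_one_subst (transfer_cc_subst hικ.hb hg.1.1), coeff_one_subst hικ.hb]
      exact hικ.isUnit.mul (hg.2.mul hικ.symm.isUnit)
    · have h3 := hικ.dvd_conj hg.1.1 (M := M) (PowerSeries.X_pow_dvd_iff.2 fun e he => by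
        rw [map_sub, hM e he, sub_self])
      have h4 := PowerSeries.X_pow_dvd_iff.1 h3 i hi
      rwa [map_sub, sub_eq_zero] at h4
    · rw [transfer_map_subst _ (transfer_cc_subst hE.hb hθ.1), transfer_map_subst _ hE.hb, hθr,
        transfer_map_map, transfer_map_map, hres, hw]

/-- the automorphism `1 + p ^ i ξ` -/
def gser (Γ : FormalGroup (kk p n)) (ξ : PowerSeries (kk p n)) (i : ℕ) : PowerSeries (kk p n) :=
  fadd Γ PowerSeries.X (PowerSeries.subst ξ (mulSeries Γ (p ^ i)))

theorem mulSeries_pow (hΓ : mulSeries Γ p = PowerSeries.X ^ (p ^ n)) (i : ℕ) :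
    mulSeries Γ (p ^ i) = PowerSeries.X ^ (p ^ (n * i)) := by
  induction i with
  | zero => simp [mulSeries_one]
  | succ i ih =>
    have hs : PowerSeries.HasSubst (PowerSeries.X ^ (p ^ n) : PowerSeries (kk p n)) :=
      PowerSeries.HasSubst.X_pow (pow_ne_zero _ (Fact.out : p.Prime).ne_zero)
    rw [pow_succ, mulSeries_mul, ih, hΓ, PowerSeries.subst_pow hs, PowerSeries.subst_X hs,
      ← pow_mul, ← pow_add, Nat.mul_succ, add_comm]

theorem gser_eq (hΓ : mulSeries Γ p = PowerSeries.X ^ (p ^ n)) {ξ : PowerSeries (kk p n)}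
    (hξ : IsFGHom Γ Γ ξ) (i : ℕ) : gser Γ ξ i = fadd Γ PowerSeries.X (ξ ^ (p ^ (n * i))) := by
  have hs := transfer_hasSubst hξ.1
  rw [gser, mulSeries_pow hΓ, PowerSeries.subst_pow hs, PowerSeries.subst_X hs]

theorem gser_aut (hn : 1 ≤ n) [Γ.IsComm] (hΓ : mulSeries Γ p = PowerSeries.X ^ (p ^ n))
    {ξ : PowerSeries (kk p n)} (hξ : IsFGHom Γ Γ ξ) {i : ℕ} (hi : 1 ≤ i) :
    IsFGAut Γ (gser Γ ξ i) := by
  have h1 := hom_comp hξ (hom_mulSeries Γ (p ^ i))
  refine ⟨hom_add (hom_X Γ) h1, ?_⟩
  have h2 := coeff_one_fadd Γ PowerSeries.constantCoeff_X h1.1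
  rw [coeff_one_subst hξ.1, coeff_one_mulSeries, Nat.cast_pow, CharP.cast_eq_zero,
    zero_pow (by omega), zero_mul, add_zero, PowerSeries.coeff_one_X] at h2
  rw [gser, h2]
  exact isUnit_one

theorem coeff_gser (hn : 1 ≤ n) (hΓ : mulSeries Γ p = PowerSeries.X ^ (p ^ n))
    {ξ : PowerSeries (kk p n)} (hξ : IsFGHom Γ Γ ξ) {i e : ℕ} (he : e < i) :
    PowerSeries.coeff e (gser Γ ξ i) = PowerSeries.coeff e PowerSeries.X := by
  have h1 := transfer_dvd_fadd Γ (transfer_cc_subst hξ.1 (constantCoeff_mulSeries Γ (p ^ i)))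
    (transfer_dvd_subst_left hξ.1 (transfer_dvd_mulSeries Γ (CharP.cast_eq_zero _ p) i))
  have h2 := PowerSeries.X_pow_dvd_iff.1 h1 e (by omega)
  rwa [map_sub, sub_eq_zero] at h2

/-- `[p ^ i]` of a lift of an endomorphism is an endomorphism once `𝔞 ^ (1 + i) = 0` -/
theorem transfer_hom_lift {B k : Type} [CommRing B] [CommRing k] (G : FormalGroup B) [G.IsComm]
    (r : B →+* k) {q : ℕ} (hq : (q : B) ∈ RingHom.ker r) {ξ : PowerSeries B}
    (h0 : PowerSeries.constantCoeff ξ = 0)
    (hξ : IsFGHom (G.map r) (G.map r) (PowerSeries.map r ξ)) {i : ℕ}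
    (hi : RingHom.ker r ^ (1 + i) = ⊥) :
    IsFGHom G G (PowerSeries.subst ξ (mulSeries G (q ^ i))) := by
  have hG : PowerSeries.HasSubst G.toPowerSeries :=
    PowerSeries.HasSubst.of_constantCoeff_zero G.zero_constantCoeff
  have hz : constantCoeff (PowerSeries.subst G.toPowerSeries ξ) = 0 :=
    PowerSeries.constantCoeff_subst_eq_zero G.zero_constantCoeff ξ h0
  have h00 : constantCoeff (in0 ξ) = 0 :=
    PowerSeries.constantCoeff_subst_eq_zero (constantCoeff_X _) ξ h0
  have h01 : constantCoeff (in1 ξ) = 0 :=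
    PowerSeries.constantCoeff_subst_eq_zero (constantCoeff_X _) ξ h0
  have hz' := constantCoeff_fadd G h00 h01
  have hcong : ∀ d, coeff d (PowerSeries.subst G.toPowerSeries ξ - fadd G (in0 ξ) (in1 ξ)) ∈
      RingHom.ker r ^ 1 := fun d => by
    rw [pow_one, RingHom.mem_ker, ← coeff_map, map_sub, PowerSeries.map_subst hG,
      map_fadd G r h00 h01, PowerSeries.map_subst (PowerSeries.HasSubst.X _),
      PowerSeries.map_subst (PowerSeries.HasSubst.X _), map_X, map_X]
    have := hξ.2
    rw [FormalGroup.map_toPowerSeries] at this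
    erw [this]
    rw [← FormalGroup.map_toPowerSeries, sub_self, map_zero]
  refine ⟨transfer_cc_subst h0 (constantCoeff_mulSeries G _), ?_⟩
  have hs := transfer_hasSubst h0
  rw [PowerSeries.subst_comp_subst_apply hs hG,
    PowerSeries.subst_comp_subst_apply hs (PowerSeries.HasSubst.X _),
    PowerSeries.subst_comp_subst_apply hs (PowerSeries.HasSubst.X _)]
  refine Eq.trans ?_ (hom_fadd (hom_mulSeries G (q ^ i)) h00 h01)
  ext d
  have := mulSeries_contract G q (RingHom.ker r) hq hz hz' le_rfl hcong i d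
  rwa [hi, Ideal.mem_bot, map_sub, sub_eq_zero] at this

/-- Continuity of the action modulo `p`.  Over `B = E₀ ⧸ (𝔪^r + (p))`, with a lift `ξ̃` of `ξ`, the
series `[p^i] ξ̃` is an endomorphism for `i ≥ r` (`mulSeries_contract`), so `α = X + [p^i] ξ̃` is an
automorphism lifting `g`; `classify_unique` gives `φ ≡ id`, `rigidity` gives `θ ≡ α`, and
`[p^i]` has order `≥ p^i` in characteristic `p`. -/
theorem stab_tendsto (hn : 1 ≤ n) [Γ.IsComm] [H.IsComm]
    (hΓ : mulSeries Γ p = PowerSeries.X ^ (p ^ n)) (hH : IsUniversalDeformation p n Γ H)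
    {ξ : PowerSeries (kk p n)} (hξ : IsFGHom Γ Γ ξ) (r K : ℕ) :
    ∃ i₀ : ℕ, ∀ i, i₀ ≤ i → ∀ (φ : LTRing p n →ₐ[WW p n] LTRing p n) (θ : PowerSeries (LTRing p n)),
      (LTRing.residue p n).comp φ.toRingHom = LTRing.residue p n →
      IsFGHom (H.map φ.toRingHom) H θ → PowerSeries.map (LTRing.residue p n) θ = gser Γ ξ i →
      (∀ x, φ x - x ∈ maximalIdeal (LTRing p n) ^ r ⊔ Ideal.span {(p : LTRing p n)}) ∧
      ∀ e, e < K → PowerSeries.coeff e (θ - PowerSeries.X) ∈
        maximalIdeal (LTRing p n) ^ r ⊔ Ideal.span {(p : LTRing p n)} := by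
  refine ⟨r + K + 1, fun i hi φ θ hφ hθ hθr => ?_⟩
  set J := maximalIdeal (LTRing p n) ^ r ⊔ Ideal.span {(p : LTRing p n)} with hJ
  by_cases hJt : J = ⊤
  · simp [hJt]
  obtain ⟨_, r', hB, hr', hm⟩ := (isTest_LT p n).quot J hJt
  let π : LTRing p n →ₐ[WW p n] LTRing p n ⧸ J := Ideal.Quotient.mkₐ (WW p n) J
  have hπ : π.toRingHom = Ideal.Quotient.mk J := rfl
  have hp0 : ((p : ℕ) : LTRing p n ⧸ J) = 0 := by
    rw [← map_natCast (Ideal.Quotient.mk J), Ideal.Quotient.eq_zero_iff_mem]
    exact Ideal.mem_sup_right (Ideal.mem_span_singleton_self _)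
  have hnil : RingHom.ker r' ^ (1 + i) = ⊥ := by
    rw [hB.ker, hm, ← Ideal.map_pow, Ideal.map_eq_bot_iff_le_ker, Ideal.mk_ker]
    exact (Ideal.pow_le_pow_right (by omega)).trans le_sup_left
  have hG : (H.map π.toRingHom).map r' = Γ := by rw [map_map, hπ, hr', hH.1]
  obtain ⟨ξ', hξ0, hξ'⟩ := hB.exists_lift ξ hξ.1
  have hβ := transfer_hom_lift (H.map π.toRingHom) r' (q := p) (by rw [hp0]; exact zero_mem _) hξ0
    (by rw [hG, hξ']; exact hξ) hnil
  have hα := hom_add (hom_X _) hβ
  have hαr : PowerSeries.map r' (fadd (H.map π.toRingHom) PowerSeries.X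
      (PowerSeries.subst ξ' (mulSeries (H.map π.toRingHom) (p ^ i)))) = gser Γ ξ i := by
    have h1 := map_fadd (H.map π.toRingHom) r' (τ := Unit) PowerSeries.constantCoeff_X hβ.1
    have h2 := transfer_map_subst r' hξ0 (mulSeries (H.map π.toRingHom) (p ^ i))
    rw [map_mulSeries, hG, hξ'] at h2
    refine h1.trans ?_
    rw [hG, gser, ← h2, ← PowerSeries.map_X r']
    rfl
  have hdvd := transfer_dvd_fadd (H.map π.toRingHom) hβ.1
    (transfer_dvd_subst_left hξ0 (transfer_dvd_mulSeries (H.map π.toRingHom) hp0 i))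
  have hu : IsUnit (PowerSeries.coeff 1 (fadd (H.map π.toRingHom) PowerSeries.X
      (PowerSeries.subst ξ' (mulSeries (H.map π.toRingHom) (p ^ i))))) := by
    have h2 := PowerSeries.X_pow_dvd_iff.1 hdvd 1 (by omega)
    rw [map_sub, sub_eq_zero, PowerSeries.coeff_one_X] at h2
    exact h2 ▸ isUnit_one
  have hθ' : IsFGHom (H.map (π.comp φ).toRingHom) (H.map π.toRingHom)
      (PowerSeries.map π.toRingHom θ) := by
    have := hom_map hθ π.toRingHom
    rwa [map_map] at this
  have hθ'r : PowerSeries.map r' (PowerSeries.map π.toRingHom θ) = gser Γ ξ i := by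
    rw [transfer_map_map, hπ, hr', hθr]
  have heq : π = π.comp φ :=
    classify_unique hH hB (by rw [hπ, hr'])
      (by
        rw [show (π.comp φ).toRingHom = π.toRingHom.comp φ.toRingHom from rfl,
          ← RingHom.comp_assoc, hπ, hr', hφ])
      hα hθ' hu (hαr.trans hθ'r.symm)
  refine ⟨fun x => ?_, fun e he => ?_⟩
  · rw [← Ideal.Quotient.eq]
    exact (DFunLike.congr_fun heq x).symm
  · rw [← heq] at hθ'
    have := hB.complete
    have hrig := rigidity p (maximalIdeal (LTRing p n ⧸ J)) hB.natCast_mem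
      (N := p ^ n) (pow_ne_zero _ (Fact.out : p.Prime).ne_zero)
      (fun e => by
        rw [← hB.ker, RingHom.mem_ker, ← PowerSeries.coeff_map, map_sub, map_mulSeries, hG, hΓ,
          map_pow, PowerSeries.map_X, sub_self, map_zero])
      hθ' hα (fun e => by
        rw [← hB.ker, RingHom.mem_ker, ← PowerSeries.coeff_map, map_sub, hθ'r, hαr, sub_self,
          map_zero])
    have h2 := PowerSeries.X_pow_dvd_iff.1 hdvd e (by omega)
    rw [← Ideal.Quotient.eq_zero_iff_mem, ← hπ, ← PowerSeries.coeff_map, map_sub,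
      PowerSeries.map_X, hrig]
    exact h2

end Crest.Agent.R227
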