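import Crest.Agent.R227.CZ1
import Crest.Agent.R227.Transfer

/-! # Row 227, characteristic zero: calculus with a square zero element. -/

set_option autoImplicit false
set_option linter.unusedSectionVars false

open MvPowerSeries IsLocalRing

noncomputable section
namespace Crest.Agent.R227

open Crest.LubinTate

section sq
variable {R S : Type} [CommRing R] [CommRing S]

theorem cz2_cc_mul {τ : Type} (e : R) {a : MvPowerSeries τ R} (ha : constantCoeff a = 0) :
    constantCoeff (C e * a) = 0 := by rw [map_mul, ha, mul_zero]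

theorem cz2_cc_map {τ : Type} (φ : R →+* S) {a : MvPowerSeries τ R} (ha : constantCoeff a = 0) :
    constantCoeff (MvPowerSeries.map φ a) = 0 := by rw [constantCoeff_map, ha, map_zero]

theorem cz2_map_eq_iff {τ : Type} (I : Ideal R) (x y : MvPowerSeries τ R) :
    MvPowerSeries.map (Ideal.Quotient.mk I) x = MvPowerSeries.map (Ideal.Quotient.mk I) y ↔
      ∀ d, coeff d (x - y) ∈ I := by
  simp only [MvPowerSeries.ext_iff, coeff_map, Ideal.Quotient.eq, map_sub]

theorem cz2_exists_C_mul {τ : Type} {e : R} {x : MvPowerSeries τ R}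
    (h : ∀ d, coeff d x ∈ Ideal.span {e}) : ∃ y : MvPowerSeries τ R, x = C e * y := by
  choose y hy using fun d => Ideal.mem_span_singleton'.1 (h d)
  refine ⟨y, MvPowerSeries.ext fun d => ?_⟩
  rw [coeff_C_mul, ← hy d, mul_comm]
  rfl

theorem cz2_mul_congr {τ : Type} {e : R} (he : e * e = 0) {x y : MvPowerSeries τ R}
    (h : MvPowerSeries.map (Ideal.Quotient.mk (Ideal.span {e})) x =
      MvPowerSeries.map (Ideal.Quotient.mk (Ideal.span {e})) y) : C e * x = C e * y := by
  obtain ⟨z, hz⟩ := cz2_exists_C_mul ((cz2_map_eq_iff _ _ _).1 h)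
  rw [← sub_eq_zero, ← mul_sub, hz, ← mul_assoc, ← map_mul, he, map_zero, zero_mul]

theorem cz2_map_add_C {τ : Type} (e : R) (z a : MvPowerSeries τ R) :
    MvPowerSeries.map (Ideal.Quotient.mk (Ideal.span {e})) (z + C e * a) =
      MvPowerSeries.map (Ideal.Quotient.mk (Ideal.span {e})) z := by
  rw [map_add, map_mul, map_C, Ideal.Quotient.eq_zero_iff_mem.2 (Ideal.mem_span_singleton_self e),
    map_zero, zero_mul, add_zero]

theorem cz2_subst1 {τ : Type} {e : R} (he : e * e = 0) {z a : MvPowerSeries τ R}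
    (hz : constantCoeff z = 0) (ha : constantCoeff a = 0) (f : PowerSeries R) :
    C e * PowerSeries.subst (z + C e * a) f = C e * PowerSeries.subst z f := by
  refine cz2_mul_congr he ?_
  rw [fg_map1 _ _ (by rw [map_add, hz, cz2_cc_mul e ha, add_zero]), fg_map1 _ _ hz, cz2_map_add_C]

theorem cz2_subst2 {τ : Type} {e : R} (he : e * e = 0) {z a z' a' : MvPowerSeries τ R}
    (hz : constantCoeff z = 0) (ha : constantCoeff a = 0) (hz' : constantCoeff z' = 0)
    (ha' : constantCoeff a' = 0) (P : MvPowerSeries (Fin 2) R) :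
    C e * P.subst ![z + C e * a, z' + C e * a'] = C e * P.subst ![z, z'] := by
  refine cz2_mul_congr he ?_
  rw [fg_map2 _ _ (by rw [map_add, hz, cz2_cc_mul e ha, add_zero])
    (by rw [map_add, hz', cz2_cc_mul e ha', add_zero]), fg_map2 _ _ hz hz', cz2_map_add_C,
    cz2_map_add_C]

theorem cz2_fadd {τ : Type} (G : FormalGroup R) {e : R} (he : e * e = 0)
    {z a : MvPowerSeries τ R} (hz : constantCoeff z = 0) (ha : constantCoeff a = 0) :
    fadd G z (C e * a) = z + C e * (PowerSeries.subst z (uSer G) * a) := by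
  rw [fadd_sq_zero G hz (cz2_cc_mul e ha)]
  · ring
  · rw [mul_mul_mul_comm, ← map_mul, he, map_zero, zero_mul]

theorem cz2_fadd_small {τ : Type} (G : FormalGroup R) {e : R} (he : e * e = 0)
    {a b : MvPowerSeries τ R} (ha : constantCoeff a = 0) (hb : constantCoeff b = 0) :
    fadd G (C e * a) (C e * b) = C e * (a + b) := by
  have h := cz2_subst1 he (z := 0) (map_zero _) ha (uSer G)
  rw [zero_add, frob_subst_zero, constantCoeff_uSer, map_one] at h
  rw [cz2_fadd G he (cz2_cc_mul e ha) hb, ← mul_assoc, h]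
  ring

theorem cz2_subst_C_mul {τ : Type} {z : MvPowerSeries τ R} (hz : constantCoeff z = 0) (e : R)
    (f : PowerSeries R) :
    PowerSeries.subst z (PowerSeries.C e * f) = C e * PowerSeries.subst z f := by
  rw [PowerSeries.subst_mul (fg_hs hz), PowerSeries.subst_C]

/-- `X +_G e β` -/
def cz2θ (G : FormalGroup R) (e : R) (β : PowerSeries R) : PowerSeries R :=
  fadd G PowerSeries.X (PowerSeries.C e * β)

theorem cz2θ_cc (G : FormalGroup R) (e : R) {β : PowerSeries R}
    (hβ : PowerSeries.constantCoeff β = 0) : PowerSeries.constantCoeff (cz2θ G e β) = 0 :=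
  constantCoeff_fadd G fg_ccX (cz2_cc_mul e hβ)

theorem cz2θ_subst (G : FormalGroup R) (e : R) {β : PowerSeries R}
    (hβ : PowerSeries.constantCoeff β = 0) {τ : Type} {z : MvPowerSeries τ R}
    (hz : constantCoeff z = 0) :
    PowerSeries.subst z (cz2θ G e β) = fadd G z (C e * PowerSeries.subst z β) := by
  rw [cz2θ, fadd, fg_ev2 _ PowerSeries.constantCoeff_X (b := PowerSeries.C e * β)
    (cz2_cc_mul e hβ) hz,
    PowerSeries.subst_X (fg_hs hz), cz2_subst_C_mul hz]

theorem cz2θ_eq (G : FormalGroup R) {e : R} (he : e * e = 0) {β : PowerSeries R}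
    (hβ : PowerSeries.constantCoeff β = 0) :
    cz2θ G e β = PowerSeries.X + PowerSeries.C e * (uSer G * β) := by
  have h := cz2_fadd G he (τ := Unit) fg_ccX hβ
  rw [PowerSeries.X_subst] at h
  exact h

theorem cz2θ_unit (G : FormalGroup R) {e : R} (he : e * e = 0) {β : PowerSeries R}
    (hβ : PowerSeries.constantCoeff β = 0) : IsUnit (PowerSeries.coeff 1 (cz2θ G e β)) := by
  rw [cz2θ_eq G he hβ, map_add, PowerSeries.coeff_one_X, PowerSeries.coeff_C_mul]
  refine IsNilpotent.isUnit_one_add ⟨2, ?_⟩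
  rw [mul_pow, sq e, he, zero_mul]

theorem cz2_left (G : FormalGroup R) {e : R} (he : e * e = 0) {β : PowerSeries R}
    (hβ : PowerSeries.constantCoeff β = 0) {A : MvPowerSeries (Fin 2) R}
    (hA : constantCoeff A = 0) :
    PowerSeries.subst (G.toPowerSeries + C e * A) (cz2θ G e β) = G.toPowerSeries +
      C e * (A + PowerSeries.subst G.toPowerSeries (uSer G) *
        PowerSeries.subst G.toPowerSeries β) := by
  have hG := G.zero_constantCoeff
  have h0 : constantCoeff (G.toPowerSeries + C e * A) = 0 := by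
    rw [map_add, hG, cz2_cc_mul e hA, add_zero]
  rw [cz2θ_subst G e hβ h0, cz2_subst1 he hG hA, cz2_fadd G he h0 (fg_cc hG hβ), ← mul_assoc,
    cz2_subst1 he hG hA]
  ring

theorem cz2_right (G : FormalGroup R) [G.IsComm] {e : R} (he : e * e = 0) {β : PowerSeries R}
    (hβ : PowerSeries.constantCoeff β = 0) (A : MvPowerSeries (Fin 2) R) :
    (G.toPowerSeries + C e * A).subst ![in0 (cz2θ G e β), in1 (cz2θ G e β)] = G.toPowerSeries +
      C e * (A + PowerSeries.subst G.toPowerSeries (uSer G) * (in0 β + in1 β)) := by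
  have h0 : constantCoeff (X 0 : MvPowerSeries (Fin 2) R) = 0 := constantCoeff_X 0
  have h1 : constantCoeff (X 1 : MvPowerSeries (Fin 2) R) = 0 := constantCoeff_X 1
  have b0 : constantCoeff (in0 β) = 0 := fg_cc h0 hβ
  have b1 : constantCoeff (in1 β) = 0 := fg_cc h1 hβ
  have hs : HasSubst ![in0 (cz2θ G e β), in1 (cz2θ G e β)] :=
    fg_hs2 (fg_cc h0 (cz2θ_cc G e hβ)) (fg_cc h1 (cz2θ_cc G e hβ))
  rw [subst_add hs, subst_mul hs, subst_C]
  have e1 : G.toPowerSeries.subst ![in0 (cz2θ G e β), in1 (cz2θ G e β)] = G.toPowerSeries +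
      C e * (PowerSeries.subst G.toPowerSeries (uSer G) * (in0 β + in1 β)) := by
    rw [in0, in1, cz2θ_subst G e hβ h0, cz2θ_subst G e hβ h1]
    refine (fg_add4 G h0 (cz2_cc_mul e b0) h1 (cz2_cc_mul e b1)).trans ?_
    rw [cz2_fadd_small G he b0 b1, fadd, fadd, fg_self2]
    exact cz2_fadd G he G.zero_constantCoeff (by rw [map_add, b0, b1, add_zero])
  have e2 : C e * A.subst ![in0 (cz2θ G e β), in1 (cz2θ G e β)] = C e * A := by
    rw [in0, in1, cz2θ_subst G e hβ h0, cz2θ_subst G e hβ h1, cz2_fadd G he h0 b0,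
      cz2_fadd G he h1 b1, cz2_subst2 he h0 (by rw [map_mul, b0, mul_zero]) h1
        (by rw [map_mul, b1, mul_zero]), fg_self2]
  rw [e1, e2]
  ring

theorem cz2_cc_cob (G : FormalGroup R) {f : PowerSeries R} (hf : PowerSeries.constantCoeff f = 0) :
    constantCoeff (cob G f) = 0 := by
  rw [cob, map_sub, map_sub, fg_cc G.zero_constantCoeff hf, fg_cc (constantCoeff_X 0) hf,
    fg_cc (constantCoeff_X 1) hf]
  simp

/-- the law deformed by a coboundary -/
theorem cz2_exists_law (G : FormalGroup R) [G.IsComm] {e : R} (he : e * e = 0) {f : PowerSeries R}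
    (hf : PowerSeries.constantCoeff f = 0) : ∃ G' : FormalGroup R, G'.toPowerSeries =
      G.toPowerSeries + C e * -(PowerSeries.subst G.toPowerSeries (uSer G) * cob G f) := by
  obtain ⟨G', hG', -⟩ := exists_conj G (cz2θ G e f) (cz2θ_cc G e hf) (cz2θ_unit G he hf)
  refine ⟨G', ?_⟩
  have hA : constantCoeff (-(PowerSeries.subst G.toPowerSeries (uSer G) * cob G f)) = 0 := by
    rw [map_neg, map_mul, cz2_cc_cob G hf, mul_zero, neg_zero]
  have h1 := cz2_left G he hf hA
  have h2 := cz2_right G he hf 0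
  rw [mul_zero, add_zero, zero_add] at h2
  have h3 : PowerSeries.subst G'.toPowerSeries (cz2θ G e f) = PowerSeries.subst (G.toPowerSeries +
      C e * -(PowerSeries.subst G.toPowerSeries (uSer G) * cob G f)) (cz2θ G e f) := by
    rw [hG'.2, h1]
    refine h2.trans ?_
    rw [cob]
    ring
  rw [← fg_inv_left (cz2θ_cc G e hf) (cz2θ_unit G he hf) G'.zero_constantCoeff, h3,
    fg_inv_left (cz2θ_cc G e hf) (cz2θ_unit G he hf)]
  rw [map_add, G.zero_constantCoeff, cz2_cc_mul e hA, add_zero]

/-- the homomorphism `X + [p ^ i] ζ` modulo `p ^ (2 i)` -/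
theorem cz2_hom_pow (G : FormalGroup R) [G.IsComm] {p i : ℕ} (hi : 1 ≤ i)
    (hp : (p : R) ^ (2 * i) = 0) {ζ : PowerSeries R} (hζ : PowerSeries.constantCoeff ζ = 0)
    {D Δ : MvPowerSeries (Fin 2) R} (hD : constantCoeff D = 0) (hΔ : constantCoeff Δ = 0)
    (h1 : PowerSeries.subst G.toPowerSeries ζ = fadd G (fadd G (in0 ζ) (in1 ζ)) D)
    (h2 : PowerSeries.subst D (mulSeries G (p ^ i)) = C ((p : R) ^ i) * Δ) {G' : FormalGroup R}
    (h3 : G'.toPowerSeries = G.toPowerSeries +
      C ((p : R) ^ i) * -(PowerSeries.subst G.toPowerSeries (uSer G) * Δ)) :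
    IsFGHom G' G (fadd G PowerSeries.X (PowerSeries.subst ζ (mulSeries G (p ^ i)))) := by
  have he : (p : R) ^ i * (p : R) ^ i = 0 := by rw [← pow_add, ← two_mul, hp]
  have hm := hom_mulSeries G (p ^ i)
  have hw : PowerSeries.constantCoeff
      (PowerSeries.subst ζ (mulSeries G (p ^ i)) : PowerSeries R) = 0 := fg_cc hζ hm.1
  have hG := G.zero_constantCoeff
  have hG' := G'.zero_constantCoeff
  have h0 : constantCoeff (X 0 : MvPowerSeries (Fin 2) R) = 0 := constantCoeff_X 0
  have h1' : constantCoeff (X 1 : MvPowerSeries (Fin 2) R) = 0 := constantCoeff_X 1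
  have z0 : constantCoeff (in0 ζ) = 0 := fg_cc h0 hζ
  have z1 : constantCoeff (in1 ζ) = 0 := fg_cc h1' hζ
  have w0 := fg_cc z0 hm.1
  have w1 := fg_cc z1 hm.1
  have hev : ∀ {z : MvPowerSeries (Fin 2) R}, constantCoeff z = 0 →
      PowerSeries.subst z (fadd G PowerSeries.X (PowerSeries.subst ζ (mulSeries G (p ^ i))) :
        PowerSeries R) =
      fadd G z (PowerSeries.subst (PowerSeries.subst z ζ) (mulSeries G (p ^ i))) := by
    intro z hz
    rw [fadd, fg_ev2 _ PowerSeries.constantCoeff_X hw hz, PowerSeries.subst_X (fg_hs hz),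
      fg_ev1 _ hζ hz]
  have e1 : PowerSeries.subst (PowerSeries.subst G'.toPowerSeries ζ) (mulSeries G (p ^ i)) =
      PowerSeries.subst (PowerSeries.subst G.toPowerSeries ζ) (mulSeries G (p ^ i)) := by
    ext d
    rw [← sub_eq_zero, ← map_sub]
    have := mulSeries_contract G p (Ideal.span {(p : R)}) (Ideal.mem_span_singleton_self _)
      (fg_cc hG' hζ) (fg_cc hG hζ) hi (fun d => by
        have := frob_subst_sub_mem (I := ⊤) (J := Ideal.span {(p : R)} ^ i) (f := ζ)
          (fun _ => trivial) hG' hG (fun d => by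
            rw [h3, add_sub_cancel_left, coeff_C_mul]
            exact Ideal.mul_mem_right _ _ (Ideal.pow_mem_pow (Ideal.mem_span_singleton_self _) _)) d
        rwa [Ideal.top_mul] at this) i d
    rwa [Ideal.span_singleton_pow, ← two_mul, hp, Ideal.mem_span_singleton, zero_dvd_iff] at this
  have e2 : G'.toPowerSeries = fadd G G.toPowerSeries (C ((p : R) ^ i) * -Δ) := by
    rw [h3, cz2_fadd G he hG (by rw [map_neg, hΔ, neg_zero]), mul_neg (PowerSeries.subst _ _)]
  refine ⟨constantCoeff_fadd G fg_ccX hw, ?_⟩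
  change _ = fadd G (in0 _) (in1 _)
  rw [in0, in1, hev hG', hev h0, hev h1', e1, h1, hom_fadd hm (constantCoeff_fadd G z0 z1) hD,
    hom_fadd hm z0 z1, h2, e2,
    fg_add4 G hG (cz2_cc_mul _ (by rw [map_neg, hΔ, neg_zero])) (constantCoeff_fadd G w0 w1)
      (cz2_cc_mul _ hΔ),
    cz2_fadd_small G he (by rw [map_neg, hΔ, neg_zero]) hΔ, neg_add_cancel, mul_zero,
    fg_add4 G h0 w0 h1' w1]
  rw [fadd, G.add_zero (fg_hs (constantCoeff_fadd G hG (constantCoeff_fadd G w0 w1)))]
  congr 2
  exact (fg_self2 _).symm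

end sq

section dual
variable {A R : Type} [CommRing A] [CommRing R]

/-- `ε ↦ e` -/
def cz2dl (f : A →+* R) (e : R) (he : e * e = 0) : DualNumber A →+* R where
  toFun x := f x.fst + f x.snd * e
  map_one' := by simp
  map_zero' := by simp
  map_add' x y := by simp; ring
  map_mul' x y := by
    simp only [TrivSqZeroExt.fst_mul, DualNumber.snd_mul, map_mul, map_add]
    linear_combination (-(f x.snd * f y.snd)) * he

theorem cz2dl_apply (f : A →+* R) (e : R) (he : e * e = 0) (x : DualNumber A) :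
    cz2dl f e he x = f x.fst + f x.snd * e := rfl

theorem cz2dl_eps (f : A →+* R) (e : R) (he : e * e = 0) : cz2dl f e he DualNumber.eps = e := by
  simp [cz2dl_apply]

theorem cz2dl_comp (f : A →+* R) (e : R) (he : e * e = 0) :
    (cz2dl f e he).comp (algebraMap A (DualNumber A)) = f := by
  ext x
  simp [cz2dl_apply, TrivSqZeroExt.algebraMap_eq_inl]

theorem cz2dl_map {τ : Type} (f : A →+* R) (e : R) (he : e * e = 0) (a b : MvPowerSeries τ A) :
    MvPowerSeries.map (cz2dl f e he) (MvPowerSeries.map (algebraMap A (DualNumber A)) a +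
      C DualNumber.eps * MvPowerSeries.map (algebraMap A (DualNumber A)) b) =
      MvPowerSeries.map f a + C e * MvPowerSeries.map f b := by
  rw [map_add, map_mul, map_C, cz2dl_eps, MvPowerSeries.map_map, MvPowerSeries.map_map, cz2dl_comp]

theorem cz2_dual_decomp {τ : Type} (z : MvPowerSeries τ (DualNumber A)) :
    z = MvPowerSeries.map (algebraMap A (DualNumber A))
        (MvPowerSeries.map (TrivSqZeroExt.fstHom A A A).toRingHom z) +
      C DualNumber.eps * MvPowerSeries.map (algebraMap A (DualNumber A))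
        (show MvPowerSeries τ A from fun d => (coeff d z).snd) := by
  ext d : 1
  rw [map_add, coeff_C_mul, coeff_map, coeff_map, coeff_map]
  ext <;> simp [TrivSqZeroExt.algebraMap_eq_inl, coeff_apply]

theorem cz2_dual_inj {τ : Type} {a b : MvPowerSeries τ A}
    (h : C DualNumber.eps * MvPowerSeries.map (algebraMap A (DualNumber A)) a =
      C DualNumber.eps * MvPowerSeries.map (algebraMap A (DualNumber A)) b) : a = b := by
  ext d
  have := congrArg (fun z => (coeff d z).snd) h
  simpa [coeff_C_mul, TrivSqZeroExt.algebraMap_eq_inl] using this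

end dual

end Crest.Agent.R227
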