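import Mathlib

/-! # Row 227: the symmetric 2-cocycle lemma in characteristic `p`, in coefficient form. -/

set_option autoImplicit false
set_option linter.unusedSectionVars false

namespace Crest.Agent.R227

open Finset

variable {K : Type} [Field K] (p : ℕ) [hp : Fact p.Prime] [CharP K p]

theorem lazc_cast_of_modEq {a b : ℕ} (h : a ≡ b [MOD p]) : (a : K) = (b : K) :=
  (CharP.natCast_eq_natCast K p).2 h

theorem lazc_choose_mul (a b : ℕ) : (((p * a).choose (p * b) : ℕ) : K) = (a.choose b : ℕ) :=
  lazc_cast_of_modEq p Choose.choose_mul_mul_modEq_choose_nat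

theorem lazc_choose_not_dvd (a i : ℕ) (hi : ¬ p ∣ i) : (((p * a).choose i : ℕ) : K) = 0 := by
  have h := Choose.choose_modEq_choose_mod_mul_choose_div_nat (n := p * a) (k := i) (p := p)
  rw [lazc_cast_of_modEq p h, Nat.mul_mod_right]
  have : i % p ≠ 0 := fun h0 => hi (Nat.dvd_of_mod_eq_zero h0)
  rw [Nat.choose_eq_zero_of_lt (Nat.pos_of_ne_zero this)]
  simp

theorem lazc_choose_pred (a : ℕ) (ha : 1 ≤ a) :
    (((p * a - 1).choose (p - 1) : ℕ) : K) = 1 := by
  have hp1 := hp.out.one_lt
  have h := Choose.choose_modEq_choose_mod_mul_choose_div_nat (n := p * a - 1) (k := p - 1) (p := p)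
  rw [lazc_cast_of_modEq p h]
  have e1 : p * a - 1 = (p - 1) + p * (a - 1) := by
    obtain ⟨b, rfl⟩ : ∃ b, a = b + 1 := ⟨a - 1, by omega⟩
    simp only [Nat.add_sub_cancel, Nat.mul_succ]
    omega
  have h1 : (p * a - 1) % p = p - 1 := by
    rw [e1, Nat.add_mul_mod_self_left, Nat.mod_eq_of_lt (by omega)]
  have h2 : (p - 1) % p = p - 1 := Nat.mod_eq_of_lt (by omega)
  have h3 : (p - 1) / p = 0 := Nat.div_eq_of_lt (by omega)
  rw [h1, h2, h3]
  simp

theorem lazc_sum_pow (i : ℕ) (hi0 : 0 < i) (hi : i < p) :
    ∑ t ∈ range p, (t : K) ^ i = if i = p - 1 then -1 else 0 := by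
  have key : ∑ t ∈ range p, (t : K) ^ i =
      ZMod.castHom (dvd_refl p) K (∑ x : ZMod p, x ^ i) := by
    rw [map_sum]
    symm
    refine Finset.sum_bij (fun x _ => x.val) ?_ ?_ ?_ ?_
    · intro x _; exact mem_range.2 (ZMod.val_lt x)
    · intro x _ y _ h; exact ZMod.val_injective p h
    · intro t ht
      exact ⟨(t : ZMod p), mem_univ _, ZMod.val_cast_of_lt (mem_range.1 ht)⟩
    · intro x _
      rw [map_pow, ZMod.castHom_apply, ZMod.cast_eq_val]
  rw [key]
  split_ifs with h
  · have h1 : ∑ x : ZMod p, x ^ i = -1 := by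
      have h2 := FiniteField.sum_pow_units (ZMod p) i
      rw [ZMod.card, if_pos (by rw [h])] at h2
      rw [← h2]
      rw [← Finset.sum_subset (s₁ := Finset.univ.erase (0 : ZMod p)) (Finset.subset_univ _)]
      · symm
        refine Finset.sum_bij (fun x _ => (x : ZMod p)) ?_ ?_ ?_ ?_
        · intro x _; simp
        · intro x _ y _ hxy; exact Units.ext hxy
        · intro b hb
          exact ⟨Units.mk0 b (by simpa using hb), mem_univ _, rfl⟩
        · intro x _; simp
      · intro x _ hx
        have : x = 0 := by simpa using hx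
        rw [this, zero_pow hi0.ne']
    rw [h1]; simp
  · have h1 : ∑ x : ZMod p, x ^ i = 0 :=
      FiniteField.sum_pow_lt_card_sub_one (ZMod p) i (by rw [ZMod.card]; omega)
    rw [h1]; simp

/-- the cocycle lemma -/
theorem laz_cocycle (m : ℕ) : ∀ (a : ℕ → K), 1 ≤ m → a 0 = 0 → a m = 0 →
    (∀ i, i ≤ m → a (m - i) = a i) →
    (∀ i j, 0 < i → i + j < m →
      a (i + j) * ((i + j).choose i : ℕ) = a i * ((m - i).choose j : ℕ)) →
    (∑ t ∈ range p, ∑ i ∈ range (m + 1), a i * (t : K) ^ i = 0) →
    ∃ c : K, ∀ i, 0 < i → i < m → a i = c * (m.choose i : ℕ) := by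
  induction m using Nat.strong_induction_on with
  | _ m ih =>
  intro a hm h0 hmm hsym hrel htr
  have hp1 := hp.out.one_lt
  -- the first order relation
  have h1 : ∀ i, 0 < i → i < m → a (m - 1) * ((m - 1).choose i : ℕ) = a i * ((m - i : ℕ) : K) := by
    intro i hi him
    have := hrel i (m - 1 - i) hi (by omega)
    rw [show i + (m - 1 - i) = m - 1 by omega] at this
    rw [this]
    congr 2
    rw [show m - 1 - i = (m - i) - 1 by omega]
    obtain ⟨b, hb⟩ : ∃ b, m - i = b + 1 := ⟨m - i - 1, by omega⟩
    rw [hb]; simp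
  by_cases hd : p ∣ m
  · obtain ⟨m', rfl⟩ := hd
    have hm' : 1 ≤ m' := by
      rcases Nat.eq_zero_or_pos m' with h | h
      · subst h; simp at hm
      · exact h
    have hα : a (p * m' - 1) = 0 := by
      rcases eq_or_lt_of_le hm' with h | h
      · subst h
        simp only [mul_one] at *
        rw [Finset.sum_comm] at htr
        have e : ∀ i ∈ range (p + 1), ∑ t ∈ range p, a i * (t : K) ^ i =
            if i = p - 1 then -a (p - 1) else 0 := by
          intro i hi
          rw [← Finset.mul_sum]
          rcases Nat.eq_zero_or_pos i with rfl | hi0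
          · rw [h0, zero_mul, if_neg (by omega)]
          rcases eq_or_lt_of_le (Nat.lt_succ_iff.1 (mem_range.1 hi)) with rfl | hip
          · rw [hmm, zero_mul, if_neg (by omega)]
          rw [lazc_sum_pow p i hi0 hip]
          split_ifs with h
          · rw [h]; ring
          · simp
        rw [Finset.sum_congr rfl e, Finset.sum_ite_eq' , if_pos (mem_range.2 (by omega))] at htr
        exact neg_eq_zero.1 htr
      · have hlt : p < p * m' := by nlinarith
        have := h1 (p * m' - p) (by omega) (by omega)
        rw [show p * m' - (p * m' - p) = p by omega, CharP.cast_eq_zero K p, mul_zero] at this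
        have e : (p * m' - 1).choose (p * m' - p) = (p * m' - 1).choose (p - 1) := by
          rw [← Nat.choose_symm (n := p * m' - 1) (k := p - 1) (by omega)]
          congr 1; omega
        rw [e, lazc_choose_pred p m' hm', mul_one] at this
        exact this
    have hz : ∀ i, i ≤ p * m' → ¬ p ∣ i → a i = 0 := by
      intro i hi hnd
      have hi0 : 0 < i := Nat.pos_of_ne_zero (fun h => hnd (h ▸ dvd_zero p))
      have him : i < p * m' := lt_of_le_of_ne hi (fun h => hnd (h ▸ dvd_mul_right p m'))
      have := h1 i hi0 him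
      rw [hα, zero_mul] at this
      refine (mul_eq_zero.1 this.symm).resolve_right ?_
      rw [CharP.cast_eq_zero_iff K p]
      intro h
      exact hnd ((Nat.dvd_sub_iff_right hi (dvd_mul_right p m')).1 h)
    obtain ⟨c, hc⟩ := ih m' (by nlinarith) (fun i => a (p * i)) hm' (by simpa using h0) hmm
      (fun i hi => by
        have := hsym (p * i) (Nat.mul_le_mul_left p hi)
        simpa [Nat.mul_sub] using this)
      (fun i j hi hij => by
        have := hrel (p * i) (p * j) (by positivity) (by rw [← mul_add]; nlinarith)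
        rw [← mul_add, ← Nat.mul_sub, lazc_choose_mul, lazc_choose_mul] at this
        exact this)
      (by
        rw [← htr]
        refine Finset.sum_congr rfl fun t _ => ?_
        symm
        rw [← Finset.sum_subset (s₁ := (range (m' + 1)).image (fun i => p * i))]
        · rw [Finset.sum_image (fun x _ y _ h => Nat.eq_of_mul_eq_mul_left (by omega) h)]
          refine Finset.sum_congr rfl fun i _ => ?_
          rw [pow_mul]
          congr 2
          have := map_natCast (frobenius K p) t
          rwa [frobenius_def] at this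
        · intro x hx
          obtain ⟨i, hi, rfl⟩ := mem_image.1 hx
          have := mem_range.1 hi
          exact mem_range.2 (Nat.lt_succ_of_le (Nat.mul_le_mul_left p (by omega)))
        · intro x hx hx'
          rw [hz x (Nat.lt_succ_iff.1 (mem_range.1 hx)), zero_mul]
          rintro ⟨i, rfl⟩
          refine hx' (mem_image.2 ⟨i, mem_range.2 ?_, rfl⟩)
          have := Nat.lt_succ_iff.1 (mem_range.1 hx)
          exact Nat.lt_succ_of_le (Nat.le_of_mul_le_mul_left this (by omega)))
    refine ⟨c, fun i hi him => ?_⟩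
    by_cases hpi : p ∣ i
    · obtain ⟨i', rfl⟩ := hpi
      rw [lazc_choose_mul]
      refine hc i' ?_ (Nat.lt_of_mul_lt_mul_left him)
      rcases Nat.eq_zero_or_pos i' with h | h
      · subst h; simp at hi
      · exact h
    · rw [hz i him.le hpi, lazc_choose_not_dvd p m' i hpi, mul_zero]
  · have hm0 : (m : K) ≠ 0 := by rwa [Ne, CharP.cast_eq_zero_iff K p]
    refine ⟨a (m - 1) / m, fun i hi him => ?_⟩
    have key : ∀ i, 0 < i → i < m →
        (a i - a (m - 1) / m * (m.choose i : ℕ)) * ((m - i : ℕ) : K) = 0 := by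
      intro i hi him
      have e : (m - 1).choose i * m = m.choose i * (m - i) := by
        obtain ⟨b, rfl⟩ : ∃ b, m = b + 1 := ⟨m - 1, by omega⟩
        simpa using Nat.choose_mul_succ_eq b i
      have e' : (((m - 1).choose i : ℕ) : K) * m = (m.choose i : ℕ) * ((m - i : ℕ) : K) := by
        exact_mod_cast congrArg (Nat.cast : ℕ → K) e
      rw [sub_mul, ← h1 i hi him, mul_assoc, ← e']
      field_simp
      ring
    have k1 := key i hi him
    have k2 := key (m - i) (by omega) (by omega)
    rw [hsym i him.le, Nat.choose_symm him.le, show m - (m - i) = i by omega] at k2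
    have : (a i - a (m - 1) / m * (m.choose i : ℕ)) * (m : K) = 0 := by
      have e : (m : K) = ((m - i : ℕ) : K) + i := by
        rw [← Nat.cast_add]; congr 1; omega
      linear_combination k1 + k2 + (a i - a (m - 1) / m * (m.choose i : ℕ)) * e
    exact sub_eq_zero.1 ((mul_eq_zero.1 this).resolve_right hm0)

end Crest.Agent.R227
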