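import Crest.Agent.R227.LazOrd
import Crest.Agent.R227.LazCoc

/-! # Row 227: Lazard's comparison lemma for laws with the same `p`-series. -/

set_option autoImplicit false
set_option linter.unusedSectionVars false

open MvPowerSeries Finset

noncomputable section
namespace Crest.Agent.R227

open Crest.LubinTate

variable {R : Type} [CommRing R] {τ : Type}

/-- exponent `(i, j, l)` -/
def e3 (i j l : ℕ) : Fin 3 →₀ ℕ := Finsupp.single 0 i + Finsupp.single 1 j + Finsupp.single 2 l

theorem degree_e3 (i j l : ℕ) : (e3 i j l).degree = i + j + l := by simp [e3]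

theorem e3_inj {i j l i' j' l' : ℕ} : e3 i j l = e3 i' j' l' ↔ i = i' ∧ j = j' ∧ l = l' := by
  constructor
  · intro h
    exact ⟨by simpa [e3] using DFunLike.congr_fun h 0, by simpa [e3] using DFunLike.congr_fun h 1,
      by simpa [e3] using DFunLike.congr_fun h 2⟩
  · rintro ⟨rfl, rfl, rfl⟩; rfl

theorem coeff_e3_X (i j l s t u : ℕ) :
    coeff (e3 i j l) ((X 0 : MvPowerSeries (Fin 3) R) ^ s * X 1 ^ t * X 2 ^ u) =
      if i = s ∧ j = t ∧ l = u then 1 else 0 := by
  classical
  rw [X_pow_eq, X_pow_eq, X_pow_eq, monomial_mul_monomial, monomial_mul_monomial, coeff_monomial,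
    mul_one, mul_one]
  exact if_congr e3_inj rfl rfl

theorem coeff_form_01 (a : ℕ → R) (m i j l : ℕ) (hl : 0 < l) :
    coeff (e3 i j l) (lazForm a m (X 0 : MvPowerSeries (Fin 3) R) (X 1)) = 0 := by
  rw [lazForm, map_sum]
  refine Finset.sum_eq_zero fun b _ => ?_
  have := coeff_e3_X (R := R) i j l b (m - b) 0
  rw [pow_zero, mul_one, if_neg (by omega)] at this
  rw [coeff_C_mul, this, mul_zero]

theorem coeff_form_12 (a : ℕ → R) (m i j l : ℕ) (hi : 0 < i) :
    coeff (e3 i j l) (lazForm a m (X 1 : MvPowerSeries (Fin 3) R) (X 2)) = 0 := by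
  rw [lazForm, map_sum]
  refine Finset.sum_eq_zero fun b _ => ?_
  have := coeff_e3_X (R := R) i j l 0 b (m - b)
  rw [pow_zero, one_mul, if_neg (by omega)] at this
  rw [coeff_C_mul, this, mul_zero]

theorem coeff_form_left (a : ℕ → R) (m i j l : ℕ) (h : i + j + l = m) :
    coeff (e3 i j l) (lazForm a m (X 0 + X 1 : MvPowerSeries (Fin 3) R) (X 2)) =
      a (i + j) * ((i + j).choose i : ℕ) := by
  rw [lazForm, map_sum]
  have key : ∀ b, coeff (e3 i j l) ((X 0 + X 1 : MvPowerSeries (Fin 3) R) ^ b * X 2 ^ (m - b)) =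
      if b = i + j then (((i + j).choose i : ℕ) : R) else 0 := by
    intro b
    rw [add_pow, Finset.sum_mul, map_sum]
    have e : ∀ s, coeff (e3 i j l) ((X 0 : MvPowerSeries (Fin 3) R) ^ s * X 1 ^ (b - s) *
        ((b.choose s : ℕ) : MvPowerSeries (Fin 3) R) * X 2 ^ (m - b)) =
        ((b.choose s : ℕ) : R) * if i = s ∧ j = b - s ∧ l = m - b then 1 else 0 := by
      intro s
      rw [← coeff_e3_X, ← coeff_C_mul, map_natCast]
      congr 1; ring
    simp only [e]
    split_ifs with hb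
    · subst hb
      rw [Finset.sum_eq_single i]
      · rw [if_pos ⟨rfl, by omega, by omega⟩, mul_one]
      · intro s _ hs; rw [if_neg (fun h => hs h.1.symm), mul_zero]
      · intro hi; exact absurd (mem_range.2 (by omega)) hi
    · refine Finset.sum_eq_zero fun s hs => ?_
      have := mem_range.1 hs
      rw [if_neg (by omega), mul_zero]
  simp only [coeff_C_mul, key]
  rw [Finset.sum_eq_single (i + j)]
  · rw [if_pos rfl]
  · intro b _ hb; rw [if_neg hb, mul_zero]
  · intro hi; exact absurd (mem_range.2 (by omega)) hi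

theorem coeff_form_right (a : ℕ → R) (m i j l : ℕ) (h : i + j + l = m) :
    coeff (e3 i j l) (lazForm a m (X 0 : MvPowerSeries (Fin 3) R) (X 1 + X 2)) =
      a i * ((m - i).choose j : ℕ) := by
  rw [lazForm, map_sum]
  have key : ∀ b, coeff (e3 i j l) ((X 0 : MvPowerSeries (Fin 3) R) ^ b * (X 1 + X 2) ^ (m - b)) =
      if b = i then (((m - i).choose j : ℕ) : R) else 0 := by
    intro b
    rw [add_pow, Finset.mul_sum, map_sum]
    have e : ∀ s, coeff (e3 i j l) ((X 0 : MvPowerSeries (Fin 3) R) ^ b * (X 1 ^ s *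
        X 2 ^ (m - b - s) * (((m - b).choose s : ℕ) : MvPowerSeries (Fin 3) R))) =
        (((m - b).choose s : ℕ) : R) * if i = b ∧ j = s ∧ l = m - b - s then 1 else 0 := by
      intro s
      rw [← coeff_e3_X, ← coeff_C_mul, map_natCast]
      congr 1; ring
    simp only [e]
    split_ifs with hb
    · subst hb
      rw [Finset.sum_eq_single j]
      · rw [if_pos ⟨rfl, rfl, by omega⟩, mul_one]
      · intro s _ hs; rw [if_neg (fun h => hs h.2.1.symm), mul_zero]
      · intro hi; exact absurd (mem_range.2 (by omega)) hi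
    · refine Finset.sum_eq_zero fun s _ => ?_
      rw [if_neg (fun h => hb h.1.symm), mul_zero]
  simp only [coeff_C_mul, key]
  rw [Finset.sum_eq_single i]
  · rw [if_pos rfl]
  · intro b _ hb; rw [if_neg hb, mul_zero]
  · intro hi; exact absurd (mem_range.2 (by omega)) hi

/-- `F(A, B) - G(A', B') ≡ Δ(A₁, B₁) + (A - A') + (B - B')` -/
theorem laz_diff (F G : FormalGroup R) {m : ℕ}
    (hD : F.toPowerSeries - G.toPowerSeries ∈ lazI (Fin 2) R (m + 1))
    {A B A' B' A₁ B₁ : MvPowerSeries τ R} (hA : A ∈ lazI τ R 1) (hB : B ∈ lazI τ R 1)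
    (hA' : A' ∈ lazI τ R 1) (hB' : B' ∈ lazI τ R 1)
    (hA₁ : A₁ ∈ lazI τ R 1) (hB₁ : B₁ ∈ lazI τ R 1) (h₁ : A - A₁ ∈ lazI τ R 2)
    (h₂ : B - B₁ ∈ lazI τ R 2) (k₁ : A - A' ∈ lazI τ R (m + 1)) (k₂ : B - B' ∈ lazI τ R (m + 1)) :
    fadd F A B - fadd G A' B' -
      (lazForm (fun i => coeff (e2 i (m + 1 - i)) (F.toPowerSeries - G.toPowerSeries)) (m + 1) A₁ B₁
        + ((A - A') + (B - B'))) ∈ lazI τ R (m + 2) := by
  have c1 := lazI_subst_form hD hA hB hA₁ hB₁ h₁ h₂
  have c2 := lazI_fadd_sub G hA hB hA' hB' k₁ k₂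
  rw [subst_sub (laz_hasSubst (laz_pair hA hB))] at c1
  convert add_mem c1 c2 using 1
  simp only [fadd]; ring

theorem laz_hs {A : MvPowerSeries τ R} (hA : A ∈ lazI τ R 1) : PowerSeries.HasSubst A :=
  PowerSeries.HasSubst.of_constantCoeff_zero (lazI_one_iff.1 hA)

theorem lazI_mulSeries (F : FormalGroup R) (k : ℕ) : mulSeries F k ∈ lazI Unit R 1 :=
  lazI_one_iff.2 (constantCoeff_mulSeries F k)

theorem lazI_psX : (PowerSeries.X : PowerSeries R) ∈ lazI Unit R 1 := lazI_X ()

theorem lazI_mulSeries_lin (F : FormalGroup R) (k : ℕ) :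
    mulSeries F k - (k : PowerSeries R) * PowerSeries.X ∈ lazI Unit R 2 := by
  induction k with
  | zero => simp [mulSeries]
  | succ k ih =>
    have := lazI_fadd_lin F (lazI_mulSeries F k) lazI_psX
    convert add_mem this ih using 1
    simp only [mulSeries, fadd]; push_cast; ring

theorem coeff_unit_of_lazI {f : PowerSeries R} {k i : ℕ} (h : f ∈ lazI Unit R k) (hi : i < k) :
    PowerSeries.coeff i f = 0 :=
  lazI_iff.1 h (Finsupp.single () i) (by simpa)

theorem lazI_unit_of_coeff {f : PowerSeries R} {k : ℕ} (h : ∀ i, i < k → PowerSeries.coeff i f = 0) :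
    f ∈ lazI Unit R k := by
  rw [lazI_iff]
  intro d hd
  rw [Finsupp.unique_single d] at hd ⊢
  exact h _ (by simpa using hd)

variable {K : Type} [Field K] (p : ℕ) [hp : Fact p.Prime] [CharP K p]

/-- Lazard's comparison lemma -/
theorem laz_compare (F G : FormalGroup K) [F.IsComm] [G.IsComm]
    (hp' : mulSeries F p = mulSeries G p) {m : ℕ}
    (hD : F.toPowerSeries - G.toPowerSeries ∈ lazI (Fin 2) K (m + 1)) :
    ∃ c : K, ∀ i, i ≤ m + 1 → coeff (e2 i (m + 1 - i)) (F.toPowerSeries - G.toPowerSeries) =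
      if 0 < i ∧ i < m + 1 then c * ((m + 1).choose i : ℕ) else 0 := by
  set a : ℕ → K := fun i => coeff (e2 i (m + 1 - i)) (F.toPowerSeries - G.toPowerSeries) with ha
  have z1 : ∀ {τ : Type} (k : ℕ) (A : MvPowerSeries τ K), A - A ∈ lazI τ K k := by
    intro τ k A; simp
  have z0 : ∀ {τ : Type} (k : ℕ), (0 : MvPowerSeries τ K) ∈ lazI τ K k := fun k => zero_mem _
  have hsym : ∀ i, i ≤ m + 1 → a (m + 1 - i) = a i := by
    intro i hi
    have h0 := lazI_X (R := K) (0 : Fin 2)
    have h1 := lazI_X (R := K) (1 : Fin 2)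
    have c1 := laz_diff F G hD h0 h1 h0 h1 h0 h1 (z1 _ _) (z1 _ _) (z1 _ _) (z1 _ _)
    have c2 := laz_diff F G hD h1 h0 h1 h0 h1 h0 (z1 _ _) (z1 _ _) (z1 _ _) (z1 _ _)
    have e1 : fadd F (X 1 : MvPowerSeries (Fin 2) K) (X 0) = fadd F (X 0) (X 1) :=
      F.comm' (laz_hs h1) (laz_hs h0)
    have e2' : fadd G (X 1 : MvPowerSeries (Fin 2) K) (X 0) = fadd G (X 0) (X 1) :=
      G.comm' (laz_hs h1) (laz_hs h0)
    rw [e1, e2'] at c2
    have c3 := sub_mem c1 c2
    have e3' : lazForm a (m + 1) (X 1 : MvPowerSeries (Fin 2) K) (X 0) =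
        lazForm (fun i => a (m + 1 - i)) (m + 1) (X 0) (X 1) := by
      rw [lazForm, lazForm, ← Finset.sum_range_reflect]
      refine Finset.sum_congr rfl fun b hb => ?_
      have := mem_range.1 hb
      rw [show m + 1 + 1 - 1 - b = m + 1 - b by omega, show m + 1 - (m + 1 - b) = b by omega]
      ring
    have c4 : lazForm (fun i => a (m + 1 - i)) (m + 1) (X 0 : MvPowerSeries (Fin 2) K) (X 1) -
        lazForm a (m + 1) (X 0) (X 1) ∈ lazI (Fin 2) K (m + 2) := by
      rw [← e3']
      convert c3 using 1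
      ring
    have := lazI_iff.1 c4 (e2 i (m + 1 - i)) (by rw [degree_e2]; omega)
    rw [map_sub, coeff_lazForm, coeff_lazForm, if_pos (by omega), if_pos (by omega)] at this
    exact sub_eq_zero.1 this
  have hmm : a (m + 1) = 0 := by
    have h0 := lazI_psX (R := K)
    have c1 := laz_diff F G hD h0 (z0 1) h0 (z0 1) h0 (z0 1) (z1 _ _) (z1 _ _) (z1 _ _) (z1 _ _)
    have e1 : fadd F (PowerSeries.X : PowerSeries K) 0 = PowerSeries.X := F.add_zero (laz_hs h0)
    have e2' : fadd G (PowerSeries.X : PowerSeries K) 0 = PowerSeries.X := G.add_zero (laz_hs h0)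
    rw [e1, e2'] at c1
    have e3' : lazForm a (m + 1) (PowerSeries.X : PowerSeries K) 0 =
        PowerSeries.C (a (m + 1)) * PowerSeries.X ^ (m + 1) := by
      rw [lazForm, Finset.sum_range_succ, Finset.sum_eq_zero, zero_add, Nat.sub_self, pow_zero,
        mul_one]
      · rfl
      · intro b hb
        have := mem_range.1 hb
        rw [zero_pow (by omega), mul_zero, mul_zero]
    rw [← ha, e3'] at c1
    have := coeff_unit_of_lazI c1 (Nat.lt_succ_self (m + 1))
    simpa using this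
  have h0 : a 0 = 0 := by
    have := hsym 0 (by omega)
    rw [Nat.sub_zero, hmm] at this
    exact this.symm
  have hrel : ∀ i j, 0 < i → i + j < m + 1 →
      a (i + j) * ((i + j).choose i : ℕ) = a i * ((m + 1 - i).choose j : ℕ) := by
    intro i j hi hij
    have x0 := lazI_X (R := K) (0 : Fin 3)
    have x1 := lazI_X (R := K) (1 : Fin 3)
    have x2 := lazI_X (R := K) (2 : Fin 3)
    have b01 := laz_diff F G hD x0 x1 x0 x1 x0 x1 (z1 _ _) (z1 _ _) (z1 _ _) (z1 _ _)
    have b12 := laz_diff F G hD x1 x2 x1 x2 x1 x2 (z1 _ _) (z1 _ _) (z1 _ _) (z1 _ _)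
    have d01 : fadd F (X 0 : MvPowerSeries (Fin 3) K) (X 1) - fadd G (X 0) (X 1) ∈
        lazI (Fin 3) K (m + 1) := by
      have := lazI_subst (laz_pair x0 x1) hD
      rwa [subst_sub (laz_hasSubst (laz_pair x0 x1))] at this
    have d12 : fadd F (X 1 : MvPowerSeries (Fin 3) K) (X 2) - fadd G (X 1) (X 2) ∈
        lazI (Fin 3) K (m + 1) := by
      have := lazI_subst (laz_pair x1 x2) hD
      rwa [subst_sub (laz_hasSubst (laz_pair x1 x2))] at this
    have c1 := laz_diff F G hD (lazI_fadd F x0 x1) x2 (lazI_fadd G x0 x1) x2 (add_mem x0 x1) x2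
      (lazI_fadd_lin F x0 x1) (z1 _ _) d01 (z1 _ _)
    have c2 := laz_diff F G hD x0 (lazI_fadd F x1 x2) x0 (lazI_fadd G x1 x2) x0 (add_mem x1 x2)
      (z1 _ _) (lazI_fadd_lin F x1 x2) (z1 _ _) d12
    have e1 : fadd F (fadd F (X 0 : MvPowerSeries (Fin 3) K) (X 1)) (X 2) =
        fadd F (X 0) (fadd F (X 1) (X 2)) := F.assoc' (laz_hs x0) (laz_hs x1) (laz_hs x2)
    have e2' : fadd G (fadd G (X 0 : MvPowerSeries (Fin 3) K) (X 1)) (X 2) =
        fadd G (X 0) (fadd G (X 1) (X 2)) := G.assoc' (laz_hs x0) (laz_hs x1) (laz_hs x2)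
    rw [e1, e2'] at c1
    rw [← ha] at b01 b12 c1 c2
    have c3 : lazForm a (m + 1) (X 0 : MvPowerSeries (Fin 3) K) (X 1) +
        lazForm a (m + 1) (X 0 + X 1) (X 2) -
        (lazForm a (m + 1) (X 1) (X 2) + lazForm a (m + 1) (X 0) (X 1 + X 2)) ∈
        lazI (Fin 3) K (m + 2) := by
      convert sub_mem (sub_mem c2 c1) (sub_mem b01 b12) using 1
      ring
    have := lazI_iff.1 c3 (e3 i j (m + 1 - i - j)) (by rw [degree_e3]; omega)
    rw [map_sub, map_add, map_add, coeff_form_01 _ _ _ _ _ (by omega), coeff_form_12 _ _ _ _ _ hi,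
      coeff_form_left _ _ _ _ _ (by omega), coeff_form_right _ _ _ _ _ (by omega), zero_add,
      zero_add] at this
    exact sub_eq_zero.1 this
  have htr : ∀ k : ℕ, mulSeries F k - mulSeries G k -
      PowerSeries.C (∑ t ∈ range k, ∑ i ∈ range (m + 1 + 1), a i * (t : K) ^ i) *
        PowerSeries.X ^ (m + 1) ∈ lazI Unit K (m + 2) := by
    intro k
    induction k with
    | zero => simp [mulSeries]
    | succ k ih =>
      have x0 := lazI_psX (R := K)
      have d : mulSeries F k - mulSeries G k ∈ lazI Unit K (m + 1) := by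
        have := add_mem (lazI_mono (Nat.le_succ _) ih)
          (Ideal.mul_mem_left _ (PowerSeries.C (∑ t ∈ range k, ∑ i ∈ range (m + 1 + 1),
            a i * (t : K) ^ i)) (lazI_pow x0 (m + 1)))
        rwa [sub_add_cancel] at this
      have c1 := laz_diff F G hD (lazI_mulSeries F k) x0 (lazI_mulSeries G k) x0
        (Ideal.mul_mem_left _ (k : PowerSeries K) x0) x0 (lazI_mulSeries_lin F k) (z1 _ _) d
        (z1 _ _)
      rw [← ha] at c1
      have e1 : lazForm a (m + 1) ((k : PowerSeries K) * PowerSeries.X) PowerSeries.X =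
          PowerSeries.C (∑ i ∈ range (m + 1 + 1), a i * (k : K) ^ i) * PowerSeries.X ^ (m + 1) := by
        rw [lazForm, map_sum, Finset.sum_mul]
        refine Finset.sum_congr rfl fun b hb => ?_
        have := mem_range.1 hb
        have e : (PowerSeries.X : PowerSeries K) ^ (m + 1) =
            PowerSeries.X ^ b * PowerSeries.X ^ (m + 1 - b) := by
          rw [← pow_add]; congr 1; omega
        rw [e, map_mul, map_pow, map_natCast, mul_pow]
        change PowerSeries.C (a b) * _ = _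
        ring
      rw [e1] at c1
      rw [Finset.sum_range_succ, map_add]
      convert add_mem c1 ih using 1
      simp only [mulSeries, fadd]
      ring
  have htr' : ∑ t ∈ range p, ∑ i ∈ range (m + 1 + 1), a i * (t : K) ^ i = 0 := by
    have := coeff_unit_of_lazI (htr p) (Nat.lt_succ_self (m + 1))
    rw [hp', sub_self, zero_sub, map_neg, PowerSeries.coeff_C_mul, PowerSeries.coeff_X_pow_self,
      mul_one, neg_eq_zero] at this
    exact this
  obtain ⟨c, hc⟩ := laz_cocycle p (m + 1) a (by omega) h0 hmm hsym hrel htr'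
  refine ⟨c, fun i hi => ?_⟩
  change a i = _
  split_ifs with h
  · exact hc i h.1 h.2
  · have : i = 0 ∨ i = m + 1 := by omega
    rcases this with rfl | rfl
    · exact h0
    · exact hmm

end Crest.Agent.R227
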