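import Crest.Agent.R227.Test
import Crest.Agent.R227.LazCmp

/-! # Row 227: normal form of the Honda law (Lazard's comparison lemma). -/

set_option autoImplicit false
set_option linter.unusedSectionVars false

open MvPowerSeries

noncomputable section
namespace Crest.Agent.R227

open Crest.LubinTate


section general

variable {K : Type} [Field K]

/-- the chosen position in degree `m` -/
def LazGood (K : Type) [Field K] (m i : ℕ) : Prop :=
  0 < i ∧ i < m ∧ ((m.choose i : ℕ) : K) ≠ 0 ∧ ∀ j, 0 < j → j < i → ((m.choose j : ℕ) : K) = 0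

theorem LazGood.unique {m i j : ℕ} (hi : LazGood K m i) (hj : LazGood K m j) : i = j := by
  rcases lt_trichotomy i j with h | h | h
  · exact absurd (hj.2.2.2 i hi.1 h) hi.2.2.1
  · exact h
  · exact absurd (hi.2.2.2 j hj.1 h) hj.2.2.1

theorem exists_lazGood {m i : ℕ} (h0 : 0 < i) (h1 : i < m) (h2 : ((m.choose i : ℕ) : K) ≠ 0) :
    ∃ j, LazGood K m j := by
  classical
  have h : ∃ i, 0 < i ∧ i < m ∧ ((m.choose i : ℕ) : K) ≠ 0 := ⟨i, h0, h1, h2⟩
  obtain ⟨a, b, c⟩ := Nat.find_spec h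
  refine ⟨Nat.find h, a, b, c, fun j hj hj' => ?_⟩
  by_contra hne
  exact Nat.find_min h hj' ⟨hj, hj'.trans b, hne⟩

/-- normal in degree `m` -/
def LazNormal (F : FormalGroup K) (m : ℕ) : Prop :=
  ∀ i, LazGood K m i → coeff (e2 i (m - i)) F.toPowerSeries = 0

theorem LazNormal.congr {F G : FormalGroup K} {m : ℕ} (h : LazNormal F m)
    (hD : G.toPowerSeries - F.toPowerSeries ∈ lazI (Fin 2) K (m + 1)) : LazNormal G m := by
  intro i hi
  have := lazI_iff.1 hD (e2 i (m - i)) (by have := hi.2.1; rw [degree_e2]; omega)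
  rwa [map_sub, h i hi, sub_zero] at this

theorem laz_unique (p : ℕ) [Fact p.Prime] [CharP K p] (F G : FormalGroup K) [F.IsComm] [G.IsComm]
    (hp : mulSeries F p = mulSeries G p) (hF : ∀ m, LazNormal F m) (hG : ∀ m, LazNormal G m) :
    F = G := by
  have key : ∀ m, F.toPowerSeries - G.toPowerSeries ∈ lazI (Fin 2) K (m + 1) := by
    intro m
    induction m with
    | zero => exact sub_mem (lazI_fg_one F) (lazI_fg_one G)
    | succ m ih =>
      obtain ⟨c, hc⟩ := laz_compare p F G hp ih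
      rw [lazI_iff]
      intro d hd
      by_cases hd' : d.degree < m + 1
      · exact lazI_iff.1 ih d hd'
      rw [← e2_eta d, degree_e2] at hd hd'
      rw [← e2_eta d, show d 1 = m + 1 - d 0 by omega, hc _ (by omega)]
      split_ifs with h
      · by_cases h2 : (((m + 1).choose (d 0) : ℕ) : K) = 0
        · rw [h2, mul_zero]
        obtain ⟨j, hj⟩ := exists_lazGood h.1 h.2 h2
        have := hc j hj.2.1.le
        rw [map_sub, hF _ j hj, hG _ j hj, sub_zero, if_pos ⟨hj.1, hj.2.1⟩] at this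
        rw [(mul_eq_zero.1 this.symm).resolve_right hj.2.2.1, zero_mul]
      · rfl
  apply FormalGroup.ext
  exact sub_eq_zero.1 (eq_zero_of_lazI fun k => lazI_mono (Nat.le_succ k) (key k))

theorem lazI_psubst {τ : Type} {A : MvPowerSeries τ K} (hA : A ∈ lazI τ K 1) {k : ℕ}
    {f : PowerSeries K} (hf : f ∈ lazI Unit K k) : PowerSeries.subst A f ∈ lazI τ K k :=
  lazI_subst (a := fun _ : Unit => A) (fun _ => hA) hf

theorem lazI_psubst_sub {τ : Type} {A A' : MvPowerSeries τ K} (hA : A ∈ lazI τ K 1)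
    (hA' : A' ∈ lazI τ K 1) {r : ℕ} (h : A - A' ∈ lazI τ K (r + 1)) {k : ℕ}
    {f : PowerSeries K} (hf : f ∈ lazI Unit K k) :
    PowerSeries.subst A f - PowerSeries.subst A' f ∈ lazI τ K (k + r) :=
  lazI_subst_sub (a := fun _ : Unit => A) (a' := fun _ : Unit => A') (fun _ => hA) (fun _ => hA')
    (fun _ => h) hf

theorem laz_psubst_sub {τ : Type} {A : MvPowerSeries τ K} (hA : A ∈ lazI τ K 1)
    (f g : PowerSeries K) :
    PowerSeries.subst A (f - g) = PowerSeries.subst A f - PowerSeries.subst A g := by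
  rw [← PowerSeries.coe_substAlgHom (laz_hs hA), map_sub]

/-- effect of a change of coordinate -/
theorem laz_conj {G G' Γ : FormalGroup K} {ι ι' : PowerSeries K} (h : IsFGHom G Γ ι)
    (h' : IsFGHom G' Γ ι') (hι : ι - PowerSeries.X ∈ lazI Unit K 2) {r : ℕ}
    (hδ : ι' - ι ∈ lazI Unit K (r + 1)) :
    G'.toPowerSeries - G.toPowerSeries ∈ lazI (Fin 2) K (r + 1) ∧
      G'.toPowerSeries - G.toPowerSeries - (in0 (ι' - ι) + in1 (ι' - ι) -
        PowerSeries.subst (X 0 + X 1 : MvPowerSeries (Fin 2) K) (ι' - ι)) ∈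
          lazI (Fin 2) K (r + 2) := by
  have x0 := lazI_X (R := K) (0 : Fin 2)
  have x1 := lazI_X (R := K) (1 : Fin 2)
  have i1 : ι ∈ lazI Unit K 1 := lazI_one_iff.2 h.1
  have i1' : ι' ∈ lazI Unit K 1 := lazI_one_iff.2 h'.1
  have g1 := lazI_fg_one G
  have g1' := lazI_fg_one G'
  have d0 : in0 ι' - in0 ι ∈ lazI (Fin 2) K (r + 1) := by
    rw [← laz_psubst_sub x0]; exact lazI_psubst x0 hδ
  have d1 : in1 ι' - in1 ι ∈ lazI (Fin 2) K (r + 1) := by
    rw [← laz_psubst_sub x1]; exact lazI_psubst x1 hδ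
  have c1 := lazI_fadd_sub Γ (lazI_psubst x0 i1') (lazI_psubst x1 i1') (lazI_psubst x0 i1)
    (lazI_psubst x1 i1) d0 d1
  rw [← ((isFGHom_iff _ _ _).1 h).2, ← ((isFGHom_iff _ _ _).1 h').2] at c1
  have c2 : ∀ s, G'.toPowerSeries - G.toPowerSeries ∈ lazI (Fin 2) K (s + 1) →
      PowerSeries.subst G'.toPowerSeries ι - PowerSeries.subst G.toPowerSeries ι -
        (G'.toPowerSeries - G.toPowerSeries) ∈ lazI (Fin 2) K (s + 2) := by
    intro s hs
    have := lazI_psubst_sub g1' g1 hs hι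
    rw [laz_psubst_sub g1', laz_psubst_sub g1, PowerSeries.subst_X (laz_hs g1'),
      PowerSeries.subst_X (laz_hs g1), add_comm 2 s] at this
    convert this using 1
    ring
  have c3 : PowerSeries.subst G'.toPowerSeries ι' - PowerSeries.subst G'.toPowerSeries ι ∈
      lazI (Fin 2) K (r + 1) := by
    rw [← laz_psubst_sub g1']; exact lazI_psubst g1' hδ
  have c4 : ∀ s, s ≤ r → G'.toPowerSeries - G.toPowerSeries ∈ lazI (Fin 2) K (s + 1) := by
    intro s
    induction s with
    | zero => intro _; exact sub_mem g1' g1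
    | succ s ih =>
      intro hs
      have a1 := c2 s (ih (by omega))
      have a2 : _ ∈ lazI (Fin 2) K (s + 2) := lazI_mono (by omega) c1
      have a3 : _ ∈ lazI (Fin 2) K (s + 2) := lazI_mono (by omega) c3
      have a4 : _ ∈ lazI (Fin 2) K (s + 2) := lazI_mono (by omega) d0
      have a5 : _ ∈ lazI (Fin 2) K (s + 2) := lazI_mono (by omega) d1
      convert sub_mem (sub_mem (add_mem a2 (add_mem a4 a5)) a3) a1 using 1
      ring
  refine ⟨c4 r le_rfl, ?_⟩
  have c5 := lazI_psubst_sub (r := 1) g1' (add_mem x0 x1) (lazI_fg G') hδ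
  rw [laz_psubst_sub g1'] at c5
  rw [in0, in1, laz_psubst_sub x0, laz_psubst_sub x1]
  convert sub_mem (sub_mem c1 c5) (c2 r (c4 r le_rfl)) using 1
  ring

theorem laz_unit {ι : PowerSeries K} (hι : ι - PowerSeries.X ∈ lazI Unit K 2) :
    PowerSeries.constantCoeff ι = 0 ∧ PowerSeries.coeff 1 ι = 1 := by
  have h0 := coeff_unit_of_lazI hι (i := 0) (by omega)
  have h1 := coeff_unit_of_lazI hι (i := 1) (by omega)
  constructor
  · simpa using h0
  · rw [map_sub, PowerSeries.coeff_one_X] at h1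
    exact sub_eq_zero.1 h1

theorem laz_psubst_mono {τ : Type} {A : MvPowerSeries τ K} (hA : A ∈ lazI τ K 1) (b : K) (k : ℕ) :
    PowerSeries.subst A (PowerSeries.C b * PowerSeries.X ^ k : PowerSeries K) = C b * A ^ k := by
  rw [← PowerSeries.smul_eq_C_mul, ← PowerSeries.coe_substAlgHom (laz_hs hA), map_smul, map_pow,
    PowerSeries.substAlgHom_X, smul_eq_C_mul]

/-- the inductive invariant -/
def LazInv (Γ : FormalGroup K) (m : ℕ) (ι : PowerSeries K) : Prop :=
  ι - PowerSeries.X ∈ lazI Unit K 2 ∧ ∀ G, IsFGHom G Γ ι → ∀ k, k ≤ m → LazNormal G k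

theorem laz_step (Γ : FormalGroup K) (m : ℕ) (ι : PowerSeries K) (h : LazInv Γ (m + 1) ι) :
    ∃ ι', LazInv Γ (m + 2) ι' ∧ ι' - ι ∈ lazI Unit K (m + 2) := by
  by_cases hg : ∃ i, LazGood K (m + 2) i
  swap
  · refine ⟨ι, ⟨h.1, fun G hG k hk => ?_⟩, by simp⟩
    rcases Nat.lt_or_ge k (m + 2) with hk' | hk'
    · exact h.2 G hG k (by omega)
    · intro i hi
      obtain rfl : k = m + 2 := by omega
      exact absurd ⟨i, hi⟩ hg
  obtain ⟨i, hi⟩ := hg
  obtain ⟨h0, h1⟩ := laz_unit h.1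
  obtain ⟨G, hG, -⟩ := exists_conj Γ ι h0 (by rw [h1]; exact isUnit_one)
  set b : K := coeff (e2 i (m + 2 - i)) G.toPowerSeries / ((m + 2).choose i : ℕ) with hb
  have hδ : ι + PowerSeries.C b * PowerSeries.X ^ (m + 2) - ι =
      PowerSeries.C b * PowerSeries.X ^ (m + 2) := by ring
  have hδ' : PowerSeries.C b * PowerSeries.X ^ (m + 2) ∈ lazI Unit K (m + 2) :=
    Ideal.mul_mem_left _ _ (lazI_pow lazI_psX (m + 2))
  refine ⟨ι + PowerSeries.C b * PowerSeries.X ^ (m + 2), ⟨?_, fun G' hG' k hk => ?_⟩, ?_⟩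
  · have := add_mem h.1 (lazI_mono (by omega) hδ')
    convert this using 1
    ring
  · obtain ⟨c1, c2⟩ := laz_conj hG hG' h.1 (r := m + 1) (by rw [hδ]; exact hδ')
    rcases Nat.lt_or_ge k (m + 2) with hk' | hk'
    · exact (h.2 G hG k (by omega)).congr (lazI_mono (by omega) c1)
    · obtain rfl : k = m + 2 := by omega
      intro j hj
      obtain rfl := hj.unique hi
      have x0 := lazI_X (R := K) (0 : Fin 2)
      have x1 := lazI_X (R := K) (1 : Fin 2)
      obtain ⟨j0, j1, j2, -⟩ := hj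
      rw [hδ, in0, in1, laz_psubst_mono x0, laz_psubst_mono x1,
        laz_psubst_mono (add_mem x0 x1)] at c2
      have := lazI_iff.1 c2 (e2 j (m + 2 - j)) (by rw [degree_e2]; omega)
      have e0 := coeff_e2_X (R := K) j (m + 2 - j) (m + 2) 0
      have e1 := coeff_e2_X (R := K) j (m + 2 - j) 0 (m + 2)
      rw [pow_zero, mul_one, if_neg (by omega)] at e0
      rw [pow_zero, one_mul, if_neg (by omega)] at e1
      have e3 : (X 0 + X 1 : MvPowerSeries (Fin 2) K) ^ (m + 2) =
          lazForm (fun i => (((m + 2).choose i : ℕ) : K)) (m + 2) (X 0) (X 1) := by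
        rw [add_pow, lazForm]
        refine Finset.sum_congr rfl fun s _ => ?_
        rw [map_natCast]; ring
      rw [map_sub, map_sub, map_sub, map_add, coeff_C_mul, coeff_C_mul, coeff_C_mul, e0, e1, e3,
        coeff_lazForm, if_pos (by omega), hb, div_mul_cancel₀ _ j2] at this
      simpa using this
  · rw [hδ]; exact hδ'

theorem laz_exists (Γ : FormalGroup K) :
    ∃ ι : PowerSeries K, ι - PowerSeries.X ∈ lazI Unit K 2 ∧
      ∀ G, IsFGHom G Γ ι → ∀ k, LazNormal G k := by
  classical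
  have step : ∀ (m : ℕ) (ι : PowerSeries K), ∃ ι', LazInv Γ (m + 1) ι →
      LazInv Γ (m + 2) ι' ∧ ι' - ι ∈ lazI Unit K (m + 2) := by
    intro m ι
    by_cases h : LazInv Γ (m + 1) ι
    · obtain ⟨ι', h'⟩ := laz_step Γ m ι h
      exact ⟨ι', fun _ => h'⟩
    · exact ⟨ι, fun h' => absurd h' h⟩
  choose f hf using step
  let s : ℕ → PowerSeries K := fun m => Nat.rec PowerSeries.X f m
  have hs : ∀ m, LazInv Γ (m + 1) (s m) := by
    intro m
    induction m with
    | zero =>
      refine ⟨by simp [s], fun G _ k hk i hi => ?_⟩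
      have := hi.1
      have := hi.2.1
      omega
    | succ m ih => exact (hf m _ ih).1
  have hs' : ∀ m j, s (m + j) - s m ∈ lazI Unit K (m + 2) := by
    intro m j
    induction j with
    | zero => simp
    | succ j ih =>
      have := add_mem (lazI_mono (by omega) (hf (m + j) _ (hs (m + j))).2) ih
      rwa [sub_add_sub_cancel] at this
  have hl : ∀ m, (PowerSeries.mk fun k => PowerSeries.coeff k (s k)) - s m ∈ lazI Unit K (m + 2) := by
    intro m
    refine lazI_unit_of_coeff fun i hi => ?_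
    rw [map_sub, PowerSeries.coeff_mk]
    rcases Nat.le_total i m with h | h
    · obtain ⟨j, rfl⟩ := Nat.exists_eq_add_of_le h
      have := coeff_unit_of_lazI (hs' i j) (i := i) (by omega)
      rw [map_sub, sub_eq_zero] at this
      rw [this, sub_self]
    · obtain ⟨j, rfl⟩ := Nat.exists_eq_add_of_le h
      have := coeff_unit_of_lazI (hs' m j) hi
      rwa [map_sub] at this
  refine ⟨_, hl 0, fun G hG k => ?_⟩
  obtain ⟨h0, h1⟩ := laz_unit (hs k).1
  obtain ⟨G', hG', -⟩ := exists_conj Γ (s k) h0 (by rw [h1]; exact isUnit_one)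
  exact ((hs k).2 G' hG' k (by omega)).congr
    (lazI_mono (by omega) (laz_conj hG' hG (hs k).1 (hl k)).1)

end general

variable (p : ℕ) [Fact p.Prime] (n : ℕ)

/-- a law with `[p] = X ^ q` for which `a X` (`a ∈ 𝔽_q`) and `X ^ p` are endomorphisms -/
structure Nice (Γ : FormalGroup (kk p n)) : Prop where
  hp : mulSeries Γ p = PowerSeries.X ^ (p ^ n)
  smul : ∀ a : kk p n, IsFGHom Γ Γ (PowerSeries.C a * PowerSeries.X)
  frob : IsFGHom Γ Γ (PowerSeries.X ^ p)

variable {p n}

theorem laz_pow_card (hn : 1 ≤ n) (θ : PowerSeries (kk p n)) :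
    (PowerSeries.subst (PowerSeries.X ^ (p ^ n) : PowerSeries (kk p n)) θ : PowerSeries (kk p n)) =
      θ ^ (p ^ n) := by
  have hp : p ≠ 0 := (Fact.out : p.Prime).ne_zero
  haveI : Fintype (kk p n) := Fintype.ofFinite _
  have hc : Fintype.card (kk p n) = p ^ n := by
    rw [← Nat.card_eq_fintype_card]; exact GaloisField.card p n (by omega)
  have h := MvPowerSeries.map_iterateFrobenius_expand p hp θ n
  have e : iterateFrobenius (kk p n) p n = RingHom.id _ := by
    ext x
    rw [iterateFrobenius_def, ← hc, FiniteField.pow_card, RingHom.id_apply]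
  rw [e, MvPowerSeries.map_id, RingHom.id_apply] at h
  rw [← PowerSeries.expand_apply _ (pow_ne_zero n hp)]
  exact h

theorem laz_hp (hn : 1 ≤ n) {G Γ : FormalGroup (kk p n)} {θ : PowerSeries (kk p n)}
    (h : IsFGHom G Γ θ) (hu : IsUnit (PowerSeries.coeff 1 θ))
    (hΓ : mulSeries Γ p = PowerSeries.X ^ (p ^ n)) : mulSeries G p = PowerSeries.X ^ (p ^ n) := by
  have hp : p ≠ 0 := (Fact.out : p.Prime).ne_zero
  have h1 := hom_comm_mulSeries h p
  rw [hΓ, ← PowerSeries.coe_substAlgHom (fg_hs h.1), map_pow, PowerSeries.substAlgHom_X,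
    ← laz_pow_card hn] at h1
  have c : constantCoeff (PowerSeries.X ^ (p ^ n) : PowerSeries (kk p n)) = 0 := by
    rw [map_pow, fg_ccX, zero_pow (pow_ne_zero n hp)]
  rw [← fg_inv_left h.1 hu (constantCoeff_mulSeries G p), h1, fg_inv_left h.1 hu c]


/-- Plan.  (1) Cocycle lemma over a field `K` of characteristic `p`: a symmetric homogeneous
`Δ(X,Y)` of degree `k ≥ 2` with `Δ(X,0) = 0`, `Δ(X,Y) + Δ(X+Y,Z) = Δ(Y,Z) + Δ(X,Y+Z)` and
`∑_{i=1}^{p-1} Δ(X, iX) = 0` is a multiple of `B_k = (X+Y)^k - X^k - Y^k`.  [The coefficient of `X`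
in the cocycle identity gives `∂₁Δ(Y,Z) = a₁ ((Y+Z)^(k-1) - Y^(k-1))`.  If `p ∤ k` subtract
`(a₁/k) B_k`, then both partial derivatives vanish, so `Δ = 0`.  If `p ∣ k`, `k ≠ p`, the
coefficient of `Y^(p-1)` forces `a₁ = 0` (Lucas); for `k = p` the trace condition gives `-a₁ = 0`;
then `Δ = Δ'(X^p, Y^p)`, induct.]
(2) Two commutative laws with `[p] = X^q` that agree below degree `k` differ in degree `k` by such a
`Δ`.  Call a law normal if for every `k ≥ 2` with `B_k ≠ 0` the coefficient at a chosen position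
`(i_k, k - i_k)` with `choose k i_k ≠ 0` in `K` vanishes; normal laws with `[p] = X^q` are unique.
(3) Changes of coordinates `X + b X^k`, `b ∈ 𝔽_q`, preserve `[p] = X^q`; their limit `ι` normalises `Γ`.
(4) `a⁻¹ Γ₀(aX, aY)` and the Frobenius twist of `Γ₀` are normal with `[p] = X^q`, so equal `Γ₀`. -/
theorem exists_nice (hn : 1 ≤ n) (Γ : FormalGroup (kk p n)) [Γ.IsComm]
    (hΓ : mulSeries Γ p = PowerSeries.X ^ (p ^ n)) :
    ∃ (Γ₀ : FormalGroup (kk p n)) (ι : PowerSeries (kk p n)), Γ₀.IsComm ∧ Nice p n Γ₀ ∧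
      IsFGHom Γ₀ Γ ι ∧ PowerSeries.coeff 1 ι = 1 := by
  have hp : p ≠ 0 := (Fact.out : p.Prime).ne_zero
  obtain ⟨ι, hι, hN⟩ := laz_exists Γ
  obtain ⟨h0, h1⟩ := laz_unit hι
  have hu : IsUnit (PowerSeries.coeff 1 ι) := by rw [h1]; exact isUnit_one
  obtain ⟨Γ₀, hG, hc⟩ := exists_conj Γ ι h0 hu
  haveI : Γ₀.IsComm := hc inferInstance
  have hN₀ := hN Γ₀ hG
  have hp₀ := laz_hp hn hG hu hΓ
  have x0 := lazI_X (R := kk p n) (0 : Fin 2)
  have x1 := lazI_X (R := kk p n) (1 : Fin 2)
  refine ⟨Γ₀, ι, inferInstance, ⟨hp₀, fun a => ?_, ?_⟩, hG, h1⟩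
  · by_cases ha : a = 0
    · rw [ha, map_zero, zero_mul]; exact hom_zero _ _
    have hu' : IsUnit (PowerSeries.coeff 1 (PowerSeries.C a * PowerSeries.X)) := by
      rw [PowerSeries.coeff_C_mul, PowerSeries.coeff_one_X, mul_one]; exact Ne.isUnit ha
    obtain ⟨G, hG', hc'⟩ := exists_conj Γ₀ (PowerSeries.C a * PowerSeries.X) (by simp) hu'
    haveI : G.IsComm := hc' inferInstance
    have e : G = Γ₀ := by
      refine laz_unique p G Γ₀ ((laz_hp hn hG' hu' hp₀).trans hp₀.symm) (fun m i hi => ?_) hN₀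
      have h2 := ((isFGHom_iff _ _ _).1 hG').2
      rw [← pow_one PowerSeries.X, in0, in1, laz_psubst_mono x0, laz_psubst_mono x1,
        laz_psubst_mono (lazI_fg_one G), pow_one, pow_one, pow_one] at h2
      have e1 : fadd Γ₀ (C a * X 0 : MvPowerSeries (Fin 2) (kk p n)) (C a * X 1) =
          rescale (fun _ => a) Γ₀.toPowerSeries := by
        rw [rescale_eq_subst, fadd]
        congr 1
        funext s
        fin_cases s <;> simp [smul_eq_C_mul]
      have h3 := congrArg (coeff (e2 i (m - i))) h2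
      rw [e1, coeff_rescale, hN₀ m i hi, mul_zero, coeff_C_mul] at h3
      exact (mul_eq_zero.1 h3).resolve_left ha
    rwa [e] at hG'
  · have e : Γ₀.map (frobenius (kk p n) p) = Γ₀ := by
      refine laz_unique p _ Γ₀ ?_ (fun m i hi => ?_) hN₀
      · rw [← map_mulSeries, hp₀, map_pow, PowerSeries.map_X]
      · change coeff _ (MvPowerSeries.map _ _) = 0
        rw [coeff_map, hN₀ m i hi, map_zero]
    have hm : ∀ {A : MvPowerSeries (Fin 2) (kk p n)}, A ∈ lazI (Fin 2) (kk p n) 1 →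
        PowerSeries.subst A (PowerSeries.X ^ p : PowerSeries (kk p n)) = A ^ p := by
      intro A hA
      rw [← PowerSeries.coe_substAlgHom (laz_hs hA), map_pow, PowerSeries.substAlgHom_X]
    refine (isFGHom_iff _ _ _).2 ⟨by simp [hp], ?_⟩
    rw [in0, in1, hm x0, hm x1, hm (lazI_fg_one _), ← MvPowerSeries.map_frobenius_expand p hp,
      MvPowerSeries.map_expand]
    have e2 : MvPowerSeries.map (frobenius (kk p n) p) Γ₀.toPowerSeries = Γ₀.toPowerSeries :=
      congrArg FormalGroup.toPowerSeries e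
    rw [e2, MvPowerSeries.expand, substAlgHom_apply, fadd]
    congr 1
    funext s
    fin_cases s <;> rfl

end Crest.Agent.R227
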