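import Crest.Agent.R227.CZ2
import Crest.Agent.R227.Lazard

/-! # Row 227, characteristic zero: a stable ideal with a point in characteristic zero vanishes. -/

set_option autoImplicit false
set_option linter.unusedSectionVars false

open MvPowerSeries IsLocalRing

noncomputable section
namespace Crest.Agent.R227

open Crest.LubinTate

variable {p : ℕ} [Fact p.Prime] {n : ℕ} {Γ : FormalGroup (kk p n)} {H : FormalGroup (LTRing p n)}

section Der
variable {R B σ : Type} [CommRing R] [CommRing B]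

theorem cz3_der_pow {A : Type} [CommRing A] (t : A →+* B) (D : A →+ B)
    (hD : ∀ x y, D (x * y) = t x * D y + t y * D x) (𝔞 : Ideal A) (I : Ideal B)
    (h : ∀ x ∈ 𝔞, t x ∈ I) (k : ℕ) : ∀ x ∈ 𝔞 ^ (k + 1), D x ∈ I ^ k := by
  have hle : 𝔞.map t ≤ I := Ideal.map_le_iff_le_comap.2 h
  have hpow : ∀ k : ℕ, ∀ x ∈ 𝔞 ^ k, t x ∈ I ^ k := fun k x hx => by
    have h1 := Ideal.mem_map_of_mem t hx
    rw [Ideal.map_pow] at h1
    exact Ideal.pow_right_mono hle k h1
  induction k with
  | zero => intro x _; simp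
  | succ k ih =>
    intro x hx
    rw [pow_succ] at hx
    refine Submodule.mul_induction_on hx (fun a ha b hb => ?_) (fun a b ha hb => ?_)
    · rw [hD]
      refine add_mem (Ideal.mul_mem_right _ _ (hpow _ a ha)) ?_
      rw [pow_succ']
      exact Ideal.mul_mem_mul (h b hb) (ih a ha)
    · rw [map_add]
      exact add_mem ha hb

theorem cz3_der_zero [Finite σ] (I : Ideal B) [IsHausdorff I B] (t : MvPowerSeries σ R →+* B)
    (ht : ∀ l, t (X l) ∈ I) (D : MvPowerSeries σ R →+ B)
    (hD : ∀ x y, D (x * y) = t x * D y + t y * D x) (hC : ∀ w, D (C w) = 0)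
    (hX : ∀ l, D (X l) = 0) (x : MvPowerSeries σ R) : D x = 0 := by
  have hP : ∀ P : MvPolynomial σ R, D P = 0 := by
    intro P
    induction P using MvPolynomial.induction_on with
    | C a => rw [MvPolynomial.coe_C, hC]
    | add P Q hP hQ => rw [MvPolynomial.coe_add, map_add, hP, hQ, add_zero]
    | mul_X P l hP => rw [MvPolynomial.coe_mul, MvPolynomial.coe_X, hD, hP, hX]; simp
  refine frob_eq_zero_of_haus I fun k => ?_
  have h1 := cz3_der_pow t D hD (Ideal.span (Set.range (X : σ → MvPowerSeries σ R))) I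
    (fun y hy => (Ideal.span_le (I := I.comap t)).2 (by rintro _ ⟨l, rfl⟩; exact ht l) hy) k _
    (ev_sub_trunc_mem x (k + 1))
  rwa [map_sub, hP, sub_zero] at h1

/-- the chain rule -/
theorem cz3_chain [Fintype σ] (I : Ideal B) [IsHausdorff I B] (t : MvPowerSeries σ R →+* B)
    (ht : ∀ l, t (X l) ∈ I) (δ : MvPowerSeries σ R →+ B)
    (hδ : ∀ x y, δ (x * y) = t x * δ y + t y * δ x) (hC : ∀ w, δ (C w) = 0)
    (x : MvPowerSeries σ R) : δ x = ∑ l, t (pderiv R l x) * δ (X l) := by
  classical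
  let D : MvPowerSeries σ R →+ B := AddMonoidHom.mk'
    (fun x => δ x - ∑ l, t (pderiv R l x) * δ (X l)) fun x y => by
      simp only [map_add, add_mul, Finset.sum_add_distrib]
      ring
  have hDa : ∀ x, D x = δ x - ∑ l, t (pderiv R l x) * δ (X l) := fun _ => rfl
  have key := cz3_der_zero I t ht D ?_ ?_ ?_ x
  · rwa [hDa, sub_eq_zero] at key
  · intro x y
    simp only [hDa, hδ, Derivation.leibniz, smul_eq_mul, map_add, map_mul, add_mul,
      Finset.sum_add_distrib, mul_sub, Finset.mul_sum, mul_assoc]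
    ring
  · intro w
    simp [hDa, hC]
  · intro l
    rw [hDa, Finset.sum_eq_single l]
    · simp
    · intro l' _ hl'
      rw [pderiv_X_of_ne hl'.symm, map_zero, zero_mul]
    · simp

/-- the divided power of a partial derivative -/
def cz3Hasse (l : σ) (k : ℕ) (f : MvPowerSeries σ R) : MvPowerSeries σ R :=
  fun d => ((d l + k).choose k : R) * coeff (d + Finsupp.single l k) f

theorem cz3_coeff_hasse (l : σ) (k : ℕ) (f : MvPowerSeries σ R) (d : σ →₀ ℕ) :
    coeff d (cz3Hasse l k f) = ((d l + k).choose k : R) * coeff (d + Finsupp.single l k) f := rfl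

theorem cz3_hasse_zero (l : σ) (f : MvPowerSeries σ R) : cz3Hasse l 0 f = f := by
  ext d
  simp [cz3_coeff_hasse]

theorem cz3_hasse_succ (l : σ) (k : ℕ) (f : MvPowerSeries σ R) :
    pderiv R l (cz3Hasse l k f) = ((k + 1 : ℕ) : MvPowerSeries σ R) * cz3Hasse l (k + 1) f := by
  ext d
  rw [coeff_pderiv, cz3_coeff_hasse, ← map_natCast (C : R →+* MvPowerSeries σ R), coeff_C_mul,
    cz3_coeff_hasse, add_assoc d, ← Finsupp.single_add, add_comm 1 k, Finsupp.add_apply,
    Finsupp.single_eq_same]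
  have h := Nat.choose_succ_right_eq (d l + (k + 1)) k
  rw [show d l + (k + 1) - k = d l + 1 by omega] at h
  have h' := congrArg (Nat.cast : ℕ → R) h
  rw [show d l + 1 + k = d l + (k + 1) by omega]
  push_cast at h' ⊢
  linear_combination (-coeff (d + Finsupp.single l (k + 1)) f) * h'

/-- a saturated ideal which is stable under the partial derivatives -/
theorem cz3_coeff_mem (J : Ideal (MvPowerSeries σ R)) (𝔞 : Ideal R)
    (hd : ∀ l, ∀ f ∈ J, pderiv R l f ∈ J)
    (hs : ∀ (m : ℕ) (f : MvPowerSeries σ R), ((m + 1 : ℕ) : MvPowerSeries σ R) * f ∈ J → f ∈ J)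
    (h0 : ∀ f ∈ J, constantCoeff f ∈ 𝔞) (d : σ →₀ ℕ) : ∀ f ∈ J, coeff d f ∈ 𝔞 := by
  have hH : ∀ l k, ∀ f ∈ J, cz3Hasse l k f ∈ J := by
    intro l k f hf
    induction k with
    | zero => rwa [cz3_hasse_zero]
    | succ k ih => exact hs k _ (cz3_hasse_succ l k f ▸ hd l _ ih)
  induction d using Finsupp.induction with
  | zero => exact h0
  | single_add l k d hl _ ih =>
    intro f hf
    have h1 := ih _ (hH l k f hf)
    rwa [cz3_coeff_hasse, Finsupp.notMem_support_iff.1 hl, zero_add, Nat.choose_self, Nat.cast_one,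
      one_mul, add_comm] at h1

end Der

theorem cz3_hom_frob (hΓ : Nice p n Γ) (s : ℕ) : IsFGHom Γ Γ (PowerSeries.X ^ p ^ s) := by
  induction s with
  | zero => simpa using hom_X Γ
  | succ s ih =>
    have h1 := hom_comp ih hΓ.frob
    have hs := transfer_hasSubst ih.1
    rwa [PowerSeries.subst_pow hs, PowerSeries.subst_X hs, ← pow_mul, ← pow_succ] at h1

theorem cz3_hom_mono (hΓ : Nice p n Γ) (a : kk p n) (s : ℕ) :
    IsFGHom Γ Γ (PowerSeries.C a * PowerSeries.X ^ p ^ s) := by
  have h0 := cz3_hom_frob hΓ s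
  have h1 := hom_comp h0 (hΓ.smul a)
  have hs := transfer_hasSubst h0.1
  rwa [PowerSeries.subst_mul hs, PowerSeries.subst_X hs, PowerSeries.subst_C] at h1

theorem cz3_charZero {B : Type} [CommRing B] [IsDomain B] [IsLocalRing B] [Algebra (WW p n) B]
    {r : B →+* kk p n} (hB : IsTest p n B r) (hp : (p : B) ≠ 0) : CharZero B := by
  refine charZero_of_inj_zero fun m hm => ?_
  by_contra h0
  obtain ⟨k, m', hm', rfl⟩ := Nat.exists_eq_pow_mul_and_not_dvd h0 p (Fact.out : p.Prime).ne_one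
  rw [Nat.cast_mul, Nat.cast_pow, mul_eq_zero] at hm
  rcases hm with hm | hm
  · exact pow_ne_zero k hp hm
  · have := congrArg r hm
    rw [map_natCast, map_zero, CharP.cast_eq_zero_iff (kk p n) p] at this
    exact hm' this

/-- the infinitesimal form of stability at a point in characteristic zero -/
theorem cz3_point (hn : 1 ≤ n) [Γ.IsComm] [H.IsComm] (hΓ : Nice p n Γ)
    (hH : IsUniversalDeformation p n Γ H) {B : Type} [CommRing B] [IsDomain B] [IsLocalRing B]
    [Algebra (WW p n) B] {r : B →+* kk p n} (hB : IsTest p n B r) (hp : (p : B) ≠ 0) {N : ℕ}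
    (hN : maximalIdeal B ^ N ≤ Ideal.span {(p : B)})
    (t : LTRing p n →ₐ[WW p n] B) (ht : r.comp t.toRingHom = LTRing.residue p n) {M : ℕ}
    {f : LTRing p n} (hf : t f = 0)
    (hst : ∀ (g : PowerSeries (kk p n)) (φ : LTRing p n →ₐ[WW p n] LTRing p n), IsFGAut Γ g →
      (∀ i : ℕ, i < M → PowerSeries.coeff i g = PowerSeries.coeff i PowerSeries.X) →
      IsStabilizerMap p n H g φ → t (φ f) = 0) (l : Fin (n - 1)) :
    t (pderiv (WW p n) l f) = 0 := by
  classical
  have hcz := cz3_charZero hB hp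
  have hcomp := hB.complete
  let K := FractionRing B
  have hinj : Function.Injective (algebraMap B K) := IsFractionRing.injective B K
  set G := H.map t.toRingHom with hG
  have hGr : G.map r = Γ := by rw [hG, map_map, ht, hH.1]
  obtain ⟨ℓ, hℓ⟩ := exists_log (K := K) G
  let τ : kk p n →* B := (algebraMap (WW p n) B).toMonoidHom.comp (WittVector.teichmuller p)
  have hτ : ∀ a, r (τ a) = a := fun a => by
    have := RingHom.congr_fun hB.comp (WittVector.teichmuller p a)
    exact this.trans (WittVector.teichmuller_coeff_zero p a)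
  let z : kk p n → ℕ → PowerSeries B := fun a s =>
    PowerSeries.C (τ a) * PowerSeries.X ^ p ^ s
  have hzr : ∀ a s, PowerSeries.map r (z a s) = PowerSeries.C a * PowerSeries.X ^ p ^ s := by
    intro a s
    simp [z, hτ]
  have hzK : ∀ a s, PowerSeries.map (algebraMap B K) (z a s) =
      PowerSeries.C (algebraMap B K (τ a)) * PowerSeries.X ^ p ^ s := by
    intro a s
    simp [z]
  have hz0 : ∀ a s, PowerSeries.constantCoeff (z a s) = 0 := by
    intro a s
    simp [z, (Fact.out : p.Prime).ne_zero]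
  let ζ : kk p n → ℕ → PowerSeries B := fun a s =>
    PowerSeries.subst (z a s) (mulSeries G (p ^ (2 * N)))
  have hζ0 : ∀ a s, PowerSeries.constantCoeff (ζ a s) = 0 := fun a s =>
    transfer_cc_subst (hz0 a s) (constantCoeff_mulSeries G _)
  have hGc : constantCoeff G.toPowerSeries = 0 := G.zero_constantCoeff
  have hX : ∀ i : Fin 2, constantCoeff (X i : MvPowerSeries (Fin 2) B) = 0 := fun i =>
    constantCoeff_X i
  have hζ : ∀ a s d, coeff d (PowerSeries.subst G.toPowerSeries (ζ a s) -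
      fadd G (in0 (ζ a s)) (in1 (ζ a s))) ∈ Ideal.span {(p : B) ^ 2} := by
    intro a s d
    have h0 : constantCoeff (in0 (z a s)) = 0 := fg_cc (hX 0) (hz0 a s)
    have h1 : constantCoeff (in1 (z a s)) = 0 := fg_cc (hX 1) (hz0 a s)
    have e1 : PowerSeries.subst G.toPowerSeries (ζ a s) =
        PowerSeries.subst (PowerSeries.subst G.toPowerSeries (z a s)) (mulSeries G (p ^ (2 * N))) :=
      fg_ev1 _ (hz0 a s) hGc
    have e2 : fadd G (in0 (ζ a s)) (in1 (ζ a s)) =
        PowerSeries.subst (fadd G (in0 (z a s)) (in1 (z a s))) (mulSeries G (p ^ (2 * N))) := by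
      rw [hom_fadd (hom_mulSeries G _) h0 h1]
      congr 2
      · exact fg_ev1 _ (hz0 a s) (hX 0)
      · congr 1
        exact fg_ev1 _ (hz0 a s) (hX 1)
    rw [e1, e2]
    have hc : ∀ d, coeff d (PowerSeries.subst G.toPowerSeries (z a s) -
        fadd G (in0 (z a s)) (in1 (z a s))) ∈ maximalIdeal B ^ 1 := by
      intro d
      obtain ⟨m1, m2⟩ := fg_hom_map_eq G G (hz0 a s) r
      have h3 := (cz3_hom_mono hΓ a s).2
      rw [← hzr, ← hGr] at h3
      rw [pow_one, ← hB.ker, RingHom.mem_ker, ← coeff_map, map_sub, m1, m2]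
      rw [sub_eq_zero.2 h3, map_zero]
    have h4 := mulSeries_contract G p (maximalIdeal B) hB.natCast_mem (fg_cc hGc (hz0 a s))
      (constantCoeff_fadd G h0 h1) le_rfl hc (2 * N) d
    have h5 : maximalIdeal B ^ (1 + 2 * N) ≤ Ideal.span {(p : B) ^ 2} := by
      rw [← Ideal.span_singleton_pow]
      refine (Ideal.pow_le_pow_right (show N * 2 ≤ 1 + 2 * N by omega)).trans ?_
      rw [pow_mul]
      exact Ideal.pow_right_mono hN 2
    exact h5 h4
  have hξ : ∀ a s, IsFGHom Γ Γ (PowerSeries.map r (ζ a s)) := by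
    intro a s
    have h1 := hom_comp (cz3_hom_mono hΓ a s) (hom_mulSeries Γ (p ^ (2 * N)))
    rwa [← hzr, ← hGr, ← map_mulSeries, ← transfer_map_subst r (hz0 a s), hGr] at h1
  have hder := fun a s => exists_derivation hn hΓ.hp hH hB t ht hℓ (ζ a s) (hζ0 a s) (hζ a s)
  choose δ β hδ hδC hβ hKS hφ using hder
  -- the derivations kill `f`
  have hδf : ∀ a s, δ a s f = 0 := by
    intro a s
    refine frob_eq_zero_of_haus (maximalIdeal B) fun k => ?_
    have hi : 1 ≤ M + k + 1 := by omega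
    have hg := gser_aut hn hΓ.hp (hξ a s) hi
    obtain ⟨φ, hφ'⟩ := exists_stab hH hg
    have h1 := hst _ φ hg (fun e he => coeff_gser hn hΓ.hp (hξ a s) (by omega)) hφ'
    have h2 := hφ a s _ hi φ hφ' f
    rw [h1, hf, sub_zero, zero_sub, neg_mem_iff, two_mul, pow_add _ (M + k + 1),
      Ideal.mem_span_singleton, mul_dvd_mul_iff_left (pow_ne_zero _ hp)] at h2
    obtain ⟨c, hc⟩ := h2
    rw [hc]
    exact Ideal.mul_mem_right _ _ (Ideal.pow_le_pow_right (by omega)
      (Ideal.pow_mem_pow hB.natCast_mem (M + k + 1)))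
  have htX : ∀ l, t.toRingHom (X l) ∈ maximalIdeal B := by
    intro l
    rw [← hB.ker, RingHom.mem_ker]
    have := RingHom.congr_fun ht (X l)
    rw [RingHom.comp_apply] at this
    rw [this]
    simp [LTRing.residue]
  have hchain : ∀ a s x, δ a s x = ∑ l, t (pderiv (WW p n) l x) * δ a s (X l) := fun a s x =>
    cz3_chain (maximalIdeal B) t.toRingHom htX (δ a s) (hδ a s) (hδC a s) x
  let A : Fin (n - 1) → MvPowerSeries (Fin 2) K := fun l d =>
    algebraMap B K (t (pderiv (WW p n) l (coeff d H.toPowerSeries)))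
  let KS : (Fin (n - 1) → K) →ₗ[K] MvPowerSeries (Fin 2) K :=
    (LinearMap.mulRight K (PowerSeries.subst (G.map (algebraMap B K)).toPowerSeries
      (PowerSeries.derivative K ℓ))).comp (Fintype.linearCombination K A)
  have hspan := span_eq_top hn hB G (by rw [hGr]; exact hΓ.hp) hℓ τ hτ KS
    (fun a s l => algebraMap B K (δ a s (X l))) β hβ ((p ^ (2 * N) : ℕ) : K)
    (Nat.cast_ne_zero.2 (pow_ne_zero _ (Fact.out : p.Prime).ne_zero)) ?_
  · let Λ : (Fin (n - 1) → K) →ₗ[K] K :=
      Fintype.linearCombination K fun l => algebraMap B K (t (pderiv (WW p n) l f))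
    have hΛ : Λ = 0 := by
      refine LinearMap.ext_on_range hspan fun x => ?_
      have h1 := congrArg (algebraMap B K) (hchain x.1 x.2 f)
      rw [hδf, map_zero, map_sum] at h1
      rw [LinearMap.zero_apply, h1, Fintype.linearCombination_apply]
      exact Finset.sum_congr rfl fun l _ => by rw [map_mul, smul_eq_mul, mul_comm]
    have h2 : Λ (Pi.single l 1) = 0 := by rw [hΛ, LinearMap.zero_apply]
    rw [Fintype.linearCombination_apply_single, one_smul] at h2
    exact hinj (h2.trans (map_zero _).symm)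
  · intro a s
    have h1 := hKS a s
    have e1 : (show MvPowerSeries (Fin 2) K from
        fun d => algebraMap B K (δ a s (coeff d H.toPowerSeries))) =
        Fintype.linearCombination K A fun l => algebraMap B K (δ a s (X l)) := by
      ext d
      rw [Fintype.linearCombination_apply, map_sum]
      refine (congrArg (algebraMap B K) (hchain a s (coeff d H.toPowerSeries))).trans ?_
      rw [map_sum]
      refine Finset.sum_congr rfl fun l _ => ?_
      rw [map_mul, mul_comm]
      rfl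
    have hzc : PowerSeries.constantCoeff (PowerSeries.map (algebraMap B K) (z a s)) = 0 :=
      transfer_cc_map _ (hz0 a s)
    have e2 : (PowerSeries.subst (PowerSeries.map (algebraMap B K) (ζ a s)) ℓ : PowerSeries K) =
        ((p ^ (2 * N) : ℕ) : K) • (PowerSeries.subst
          (PowerSeries.C (algebraMap B K (τ a)) * PowerSeries.X ^ p ^ s : PowerSeries K) ℓ) := by
      rw [← hzK, ← PowerSeries.subst_smul (transfer_hasSubst hzc), ← hℓ.mulSeries,
        fg_ev1 ℓ (constantCoeff_mulSeries _ _) hzc, transfer_map_subst _ (hz0 a s), map_mulSeries]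
    rw [e1, e2] at h1
    exact h1

/-- Plan.  Let `𝒬` be the set of primes `Q ⊇ J` with `p ∉ Q` and `𝔪^N ≤ Q + (p)` for some `N`
(nonempty by `exists_dim_one`) and `J₀ = ⋂ 𝒬`.  Stabiliser maps `φ` with `comap φ J = J` are
automorphisms (`stab_bijective`), so `comap φ` preserves `𝒬` and `φ J₀ ⊆ J₀`.  Fix `Q ∈ 𝒬`,
`B = E₀ ⧸ Q`, `K = Frac B`, `ζ = [p^(2N)] (τ(a) X^(p^s))` (`mulSeries_contract`, `Nice`),
`exists_derivation`, `exists_stab`, `gser_aut`, `coeff_gser`: `δ f ∈ ⋂ p^i B = 0` for `f ∈ J₀`.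
Chain rule `δ x = ∑ t(∂_l x) δ(u_l)` (both sides are derivations killing `W`, agree on `u_l`, and map
`𝔪^(k+1)` to `𝔪_B^k`); `span_eq_top` gives `t(∂_l f) = 0`.  So `J₀` is stable under all `∂_l`,
`p`-saturated and proper; then all coefficients of `f ∈ J₀` lie in `p W` (apply `∂^α`, divide by
`α!`), `f / p ∈ J₀`, and `f = 0`. -/
theorem density_zero (hn : 1 ≤ n) [Γ.IsComm] [H.IsComm] (hΓ : Nice p n Γ)
    (hH : IsUniversalDeformation p n Γ H) {M : ℕ} {J : Ideal (LTRing p n)}
    (hJ : IsStableIdeal p n Γ H M J) (P : Ideal (LTRing p n)) [P.IsPrime] (hJP : J ≤ P)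
    (hp : (p : LTRing p n) ∉ P) : J = ⊥ := by
  have hE := isTest_LT p n
  let 𝒬 : Set (Ideal (LTRing p n)) := {Q | Q.IsPrime ∧ J ≤ Q ∧ (p : LTRing p n) ∉ Q ∧
    ∃ N : ℕ, maximalIdeal (LTRing p n) ^ N ≤ Q ⊔ Ideal.span {(p : LTRing p n)}}
  have hJ0 : J ≤ sInf 𝒬 := le_sInf fun Q hQ => hQ.2.1
  have hmax : sInf 𝒬 ≤ maximalIdeal (LTRing p n) := by
    obtain ⟨Q, N, hQ, hPQ, hpQ, hN⟩ := exists_dim_one P hp hE.natCast_mem
    exact (sInf_le (show Q ∈ 𝒬 from ⟨hQ, hJP.trans hPQ, hpQ, N, hN⟩)).trans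
      (le_maximalIdeal hQ.ne_top)
  have hstab : ∀ (g : PowerSeries (kk p n)) (φ : LTRing p n →ₐ[WW p n] LTRing p n), IsFGAut Γ g →
      (∀ i : ℕ, i < M → PowerSeries.coeff i g = PowerSeries.coeff i PowerSeries.X) →
      IsStabilizerMap p n H g φ → ∀ f ∈ sInf 𝒬, ∀ Q ∈ 𝒬, φ f ∈ Q := by
    rintro g φ hg hM hφ f hf Q ⟨hQ, hJQ, hpQ, N, hN⟩
    have hsurj := (stab_bijective hn hΓ.hp hH hg hφ).2
    have hQ' : Q.comap φ.toRingHom ∈ 𝒬 := by
      refine ⟨Ideal.comap_isPrime _ _, ?_, ?_, N, fun x hx => ?_⟩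
      · rw [← hJ g φ hg hM hφ]
        exact Ideal.comap_mono hJQ
      · rwa [Ideal.mem_comap, map_natCast]
      · have hle : (maximalIdeal (LTRing p n)).map φ.toRingHom ≤ maximalIdeal (LTRing p n) := by
          rw [Ideal.map_le_iff_le_comap, ← hE.ker]
          intro y hy
          rw [Ideal.mem_comap, RingHom.mem_ker, ← RingHom.comp_apply, hφ.1]
          exact hy
        have h1 := Ideal.mem_map_of_mem φ.toRingHom hx
        rw [Ideal.map_pow] at h1
        obtain ⟨q, hq, y, hy, hqy⟩ := Submodule.mem_sup.1 (hN (Ideal.pow_right_mono hle N h1))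
        obtain ⟨c, rfl⟩ := Ideal.mem_span_singleton'.1 hy
        obtain ⟨c', rfl⟩ := hsurj c
        refine Submodule.mem_sup.2 ⟨x - c' * p, ?_, c' * p,
          Ideal.mem_span_singleton'.2 ⟨c', rfl⟩, sub_add_cancel _ _⟩
        rw [Ideal.mem_comap, map_sub, map_mul, map_natCast, ← hqy]
        simpa using hq
    exact (Submodule.mem_sInf.1 hf) _ hQ'
  have hquot : ∀ Q ∈ 𝒬, CharZero (LTRing p n ⧸ Q) ∧
      ∀ l, ∀ f ∈ sInf 𝒬, pderiv (WW p n) l f ∈ Q := by
    intro Q hQ'
    obtain ⟨hQ, hJQ, hpQ, N, hN⟩ := id hQ'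
    obtain ⟨_, r, hB, hr, hm⟩ := hE.quot Q hQ.ne_top
    have hp0 : (p : LTRing p n ⧸ Q) ≠ 0 := by
      rw [← map_natCast (Ideal.Quotient.mk Q), Ne, Ideal.Quotient.eq_zero_iff_mem]
      exact hpQ
    refine ⟨cz3_charZero hB hp0, fun l f hf => ?_⟩
    have hN' : maximalIdeal (LTRing p n ⧸ Q) ^ N ≤ Ideal.span {(p : LTRing p n ⧸ Q)} := by
      rw [hm, ← Ideal.map_pow]
      refine (Ideal.map_mono hN).trans ?_
      rw [Ideal.map_sup, Ideal.map_quotient_self, bot_sup_eq, Ideal.map_span, Set.image_singleton,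
        map_natCast]
    exact Ideal.Quotient.eq_zero_iff_mem.1 (cz3_point hn hΓ hH hB hp0 hN'
      (Ideal.Quotient.mkₐ (WW p n) Q) hr (M := M)
      (Ideal.Quotient.eq_zero_iff_mem.2 (Submodule.mem_sInf.1 hf Q hQ'))
      (fun g φ hg hM hφ => Ideal.Quotient.eq_zero_iff_mem.2 (hstab g φ hg hM hφ f hf Q hQ')) l)
  have hsat : ∀ (m : ℕ) (f : LTRing p n), ((m + 1 : ℕ) : LTRing p n) * f ∈ sInf 𝒬 →
      f ∈ sInf 𝒬 := by
    intro m f hf
    refine Submodule.mem_sInf.2 fun Q hQ => ?_
    refine (hQ.1.mem_or_mem (Submodule.mem_sInf.1 hf Q hQ)).resolve_left fun h => ?_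
    have := (hquot Q hQ).1
    rw [← Ideal.Quotient.eq_zero_iff_mem, map_natCast, Nat.cast_eq_zero] at h
    omega
  have hcoef := cz3_coeff_mem (sInf 𝒬) (Ideal.span {(p : WW p n)})
    (fun l f hf => Submodule.mem_sInf.2 fun Q hQ => (hquot Q hQ).2 l f hf) hsat
    (fun f hf => by
      have h1 := hmax hf
      rw [← hE.ker] at h1
      rw [← WittVector.ker_constantCoeff]
      exact h1)
  have hbot : sInf 𝒬 = ⊥ := by
    refine Submodule.eq_bot_of_le_smul_of_le_jacobson_bot (maximalIdeal (LTRing p n)) _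
      (IsNoetherian.noetherian _) (fun f hf => ?_) (maximalIdeal_le_jacobson _)
    choose c hc using fun d => Ideal.mem_span_singleton'.1 (hcoef d f hf)
    have e : f = (p : LTRing p n) * (show LTRing p n from c) := by
      ext1 d
      rw [← map_natCast (C : WW p n →+* LTRing p n), coeff_C_mul, ← hc d, mul_comm]
      rfl
    have hc' : (show LTRing p n from c) ∈ sInf 𝒬 := by
      refine hsat (p - 1) _ ?_
      rw [Nat.sub_add_cancel (Fact.out : p.Prime).one_le, ← e]
      exact hf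
    rw [e]
    exact Submodule.smul_mem_smul hE.natCast_mem hc'
  exact le_bot_iff.1 (hbot ▸ hJ0)

end Crest.Agent.R227
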