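import Crest.Agent.R227.Tate
import Crest.Agent.R227.Transfer
import Crest.Agent.R227.Lazard

/-! # Row 227: small estimates used in the assembly. -/

set_option autoImplicit false
set_option linter.unusedSectionVars false

open MvPowerSeries Filter Topology

noncomputable section
namespace Crest.Agent.R227

open Crest.LubinTate

theorem mulSeries_pow' {R : Type} [CommRing R] {F : FormalGroup R} {p N : ℕ} (hN : N ≠ 0)
    (h : mulSeries F p = PowerSeries.X ^ N) (i : ℕ) :
    mulSeries F (p ^ i) = PowerSeries.X ^ N ^ i := by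
  induction i with
  | zero => simp [mulSeries_one]
  | succ i ih =>
    rw [pow_succ, mulSeries_mul, h, ih, PowerSeries.subst_pow (PowerSeries.HasSubst.X_pow hN),
      PowerSeries.subst_X (PowerSeries.HasSubst.X_pow hN), ← pow_mul, ← pow_succ']

theorem map_frob_comm {R S : Type} [CommRing R] [CommRing S] (p : ℕ) [Fact p.Prime] [CharP R p]
    [CharP S p] (F : FormalGroup R) (φ : R →+* S) (h : ℕ) :
    (F.map (iterateFrobenius R p h)).map φ = (F.map φ).map (iterateFrobenius S p h) := by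
  rw [map_map, map_map]
  congr 1
  ext x
  simp [iterateFrobenius_def]

theorem map_versch {R S : Type} [CommRing R] [CommRing S] {p : ℕ} [Fact p.Prime]
    {F : FormalGroup R} (φ : R →+* S) {h : ℕ} {V : PowerSeries R}
    (hV : mulSeries F p = PowerSeries.subst (PowerSeries.X ^ p ^ h : PowerSeries R) V) :
    mulSeries (F.map φ) p =
      PowerSeries.subst (PowerSeries.X ^ p ^ h : PowerSeries S) (PowerSeries.map φ V) := by
  have hp : p ^ h ≠ 0 := pow_ne_zero _ (Fact.out : p.Prime).ne_zero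
  rw [← map_mulSeries, hV, transfer_map_subst φ (by rw [map_pow, PowerSeries.constantCoeff_X, zero_pow hp])]
  simp

theorem Nice.hom_monomial {p : ℕ} [Fact p.Prime] {n : ℕ} {Γ : FormalGroup (kk p n)}
    (hΓ : Nice p n Γ) (a : kk p n) (r : ℕ) :
    IsFGHom Γ Γ (PowerSeries.C a * PowerSeries.X ^ p ^ r) := by
  have hp : p ≠ 0 := (Fact.out : p.Prime).ne_zero
  have h1 : ∀ r : ℕ, IsFGHom Γ Γ (PowerSeries.X ^ p ^ r) := by
    intro r
    induction r with
    | zero => simpa using hom_X Γ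
    | succ r ih =>
      have := hom_comp ih hΓ.frob
      rwa [PowerSeries.subst_pow (PowerSeries.HasSubst.X_pow (pow_ne_zero _ hp)),
        PowerSeries.subst_X (PowerSeries.HasSubst.X_pow (pow_ne_zero _ hp)), ← pow_mul,
        ← pow_succ] at this
  have := hom_comp (h1 r) (hΓ.smul a)
  rwa [PowerSeries.subst_mul (PowerSeries.HasSubst.X_pow (pow_ne_zero _ hp)),
    PowerSeries.subst_X (PowerSeries.HasSubst.X_pow (pow_ne_zero _ hp)), PowerSeries.subst_C] at this

variable {K : Type} [NontriviallyNormedField K] [IsUltrametricDist K] [CompleteSpace K]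

theorem rad {x : OO K} (hx : ‖x‖ < 1) : x ∈ (IO K).radical := (mem_IO_radical K x).2 hx

theorem unrad {x : OO K} (hx : x ∈ (IO K).radical) : ‖x‖ < 1 := (mem_IO_radical K x).1 hx

theorem mk_eq_iff {ε : ℝ} (hε : 0 ≤ ε) (a b : OO K) :
    Ideal.Quotient.mk (ball K ε) a = Ideal.Quotient.mk (ball K ε) b ↔ ‖a - b‖ ≤ ε := by
  rw [Ideal.Quotient.eq, mem_ball K hε]

theorem norm_coeff_subst_sub {τ : Type} {ε : ℝ} (hε : 0 ≤ ε) {a a' : MvPowerSeries τ (OO K)}
    (ha : constantCoeff a = 0) (ha' : constantCoeff a' = 0)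
    (h : ∀ d, ‖coeff d a - coeff d a'‖ ≤ ε) (β : PowerSeries (OO K)) (d : τ →₀ ℕ) :
    ‖coeff d (PowerSeries.subst a β - PowerSeries.subst a' β)‖ ≤ ε := by
  have e : MvPowerSeries.map (Ideal.Quotient.mk (ball K ε)) a =
      MvPowerSeries.map (Ideal.Quotient.mk (ball K ε)) a' := by
    ext d
    rw [coeff_map, coeff_map, mk_eq_iff hε]
    exact h d
  rw [map_sub, ← mk_eq_iff hε, ← coeff_map, ← coeff_map,
    PowerSeries.map_subst (PowerSeries.HasSubst.of_constantCoeff_zero ha),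
    PowerSeries.map_subst (PowerSeries.HasSubst.of_constantCoeff_zero ha'), e]

theorem norm_coeff_subst_sub_self {δ : ℝ} (hδ : 0 ≤ δ) {θ : PowerSeries (OO K)}
    (h0 : PowerSeries.constantCoeff θ = 0) {e : ℕ}
    (h : ∀ e', e' < e + 1 → ‖PowerSeries.coeff e' (θ - PowerSeries.X)‖ ≤ δ)
    (η : PowerSeries (OO K)) :
    ‖PowerSeries.coeff e (PowerSeries.subst θ η : PowerSeries (OO K)) - PowerSeries.coeff e η‖ ≤
      δ := by
  set q := Ideal.Quotient.mk (ball K δ) with hq
  have h1 : (PowerSeries.X : PowerSeries (OO K ⧸ ball K δ)) ^ (e + 1) ∣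
      PowerSeries.map q θ - PowerSeries.X := by
    rw [PowerSeries.X_pow_dvd_iff]
    intro e' he'
    have : PowerSeries.map q θ - PowerSeries.X = PowerSeries.map q (θ - PowerSeries.X) := by simp
    rw [this, PowerSeries.coeff_map, hq, Ideal.Quotient.eq_zero_iff_mem, mem_ball K hδ]
    exact h e' he'
  have h2 := transfer_dvd_subst (a := fun _ : Unit => PowerSeries.map q θ)
    (a' := fun _ : Unit => PowerSeries.X) (fun _ => transfer_cc_map q h0) (fun _ => by simp)
    (fun _ => h1) (PowerSeries.map q η)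
  rw [PowerSeries.X_pow_dvd_iff] at h2
  have h3 := h2 e (Nat.lt_succ_self e)
  rw [← mk_eq_iff hδ, ← hq, ← PowerSeries.coeff_map, ← PowerSeries.coeff_map,
    transfer_map_subst q h0, ← sub_eq_zero, ← map_sub]
  have h4 : (MvPowerSeries.subst (fun _ : Unit => (PowerSeries.X : PowerSeries (OO K ⧸ ball K δ)))
      (PowerSeries.map q η) : PowerSeries (OO K ⧸ ball K δ)) = PowerSeries.map q η :=
    PowerSeries.X_subst _
  rw [h4] at h3
  exact h3

theorem norm_ev1_le {x : OO K} (hx : ‖x‖ < 1) {f : PowerSeries (OO K)}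
    (hf : PowerSeries.constantCoeff f = 0) : ‖ev1 (IO K) x f‖ ≤ ‖x‖ := by
  obtain ⟨c, hc⟩ := ev1_sub (IO K) f (rad hx) (zero_mem _)
  rw [ev1_zero, hf, sub_zero, sub_zero] at hc
  rw [hc, norm_mul]
  exact mul_le_of_le_one_right (norm_nonneg _) (OO.norm_le_one K c)

theorem norm_ev1_eq {x : OO K} (hx : ‖x‖ < 1) {f : PowerSeries (OO K)}
    (hf : PowerSeries.constantCoeff f = 0) (hu : IsUnit (PowerSeries.coeff 1 f)) :
    ‖ev1 (IO K) x f‖ = ‖x‖ := by
  refine le_antisymm (norm_ev1_le hx hf) ?_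
  have h1 := PowerSeries.subst_substInvOfIsUnit_left (P := f) hf hu
  have h2 := ev1_subst (IO K) (rad hx) hf (f.substInvOfIsUnit hu)
  rw [h1, ev1_X _ (rad hx)] at h2
  conv_lhs => rw [h2]
  exact norm_ev1_le ((norm_ev1_le hx hf).trans_lt hx) (by simp)

theorem norm_ev1_sub_le {x x' : OO K} (hx : ‖x‖ < 1) (hx' : ‖x'‖ < 1) (f : PowerSeries (OO K)) :
    ‖ev1 (IO K) x f - ev1 (IO K) x' f‖ ≤ ‖x - x'‖ := by
  obtain ⟨c, hc⟩ := ev1_sub (IO K) f (rad hx) (rad hx')
  rw [hc, norm_mul]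
  exact mul_le_of_le_one_right (norm_nonneg _) (OO.norm_le_one K c)

theorem ev1_X_pow {x : OO K} (hx : ‖x‖ < 1) (N : ℕ) :
    ev1 (IO K) x (PowerSeries.X ^ N) = x ^ N := by
  rw [map_pow, ev1_X _ (rad hx)]

theorem norm_ev1_mulSeries_le {F : FormalGroup (OO K)} {p Q : ℕ} (hQ : Q ≠ 0)
    {V : PowerSeries (OO K)} (hV0 : PowerSeries.constantCoeff V = 0)
    (hV : mulSeries F p = PowerSeries.subst (PowerSeries.X ^ Q : PowerSeries (OO K)) V)
    (i : ℕ) {x : OO K} (hx : ‖x‖ < 1) : ‖ev1 (IO K) x (mulSeries F (p ^ i))‖ ≤ ‖x‖ ^ Q ^ i := by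
  induction i generalizing x with
  | zero => simp [mulSeries_one, ev1_X _ (rad hx)]
  | succ i ih =>
    have h1 : ‖ev1 (IO K) x (mulSeries F p)‖ ≤ ‖x‖ ^ Q := by
      rw [hV, ev1_subst _ (rad hx) (by simp [hQ]), ev1_X_pow hx, ← norm_pow]
      refine norm_ev1_le ?_ hV0
      rw [norm_pow]
      exact pow_lt_one₀ (norm_nonneg _) hx hQ
    have h2 : ‖ev1 (IO K) x (mulSeries F p)‖ < 1 :=
      h1.trans_lt (pow_lt_one₀ (norm_nonneg _) hx hQ)
    rw [pow_succ, mulSeries_mul, ev1_subst _ (rad hx) (constantCoeff_mulSeries F p)]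
    refine (ih h2).trans ?_
    rw [pow_succ', pow_mul]
    exact pow_le_pow_left₀ (norm_nonneg _) h1 _

theorem norm_sum_sub_le {ι : Type} {F : FormalGroup (OO K)} [F.IsComm] {ε : ℝ} (hε : 0 ≤ ε)
    (s : Finset ι) (x x' : ι → Pt (IO K) F) (h : ∀ l, ‖(x l).1 - (x' l).1‖ ≤ ε) :
    ‖(∑ l ∈ s, x l).1 - (∑ l ∈ s, x' l).1‖ ≤ ε := by
  classical
  induction s using Finset.induction_on with
  | empty => simpa using hε
  | insert a s ha ih =>
    rw [Finset.sum_insert ha, Finset.sum_insert ha, Pt.add_val, Pt.add_val]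
    refine norm_ev_sub_le ?_ ?_ hε ?_ (by simpa using hε)
    · intro i; fin_cases i
      · exact unrad (x a).2
      · exact unrad (∑ l ∈ s, x l).2
    · intro i; fin_cases i
      · exact unrad (x' a).2
      · exact unrad (∑ l ∈ s, x' l).2
    · intro i; fin_cases i
      · exact h a
      · exact ih

theorem norm_le_pow_of_mem {A : Type} [CommRing A] (t : A →+* OO K) (𝔪 : Ideal A) {ε : ℝ}
    (hε : 0 ≤ ε) (h : ∀ x ∈ 𝔪, ‖t x‖ ≤ ε) {c : A} (hc : t c = 0) (r : ℕ) {x : A}
    (hx : x ∈ 𝔪 ^ r ⊔ Ideal.span {c}) : ‖t x‖ ≤ ε ^ r := by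
  have h1 : ∀ r : ℕ, 𝔪 ^ r ≤ (ball K (ε ^ r)).comap t := by
    intro r
    induction r with
    | zero =>
      intro x _
      rw [Ideal.mem_comap, mem_ball K (by positivity), pow_zero]
      exact OO.norm_le_one K _
    | succ r ih =>
      rw [pow_succ, Ideal.mul_le]
      intro a ha b hb
      have := ih ha
      rw [Ideal.mem_comap, mem_ball K (by positivity)] at this ⊢
      rw [map_mul, norm_mul, pow_succ]
      exact mul_le_mul this (h b hb) (norm_nonneg _) (by positivity)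
  have h2 : 𝔪 ^ r ⊔ Ideal.span {c} ≤ (ball K (ε ^ r)).comap t := by
    refine sup_le (h1 r) ?_
    rw [Ideal.span_le, Set.singleton_subset_iff, SetLike.mem_coe, Ideal.mem_comap, hc]
    exact zero_mem _
  have := h2 hx
  rwa [Ideal.mem_comap, mem_ball K (by positivity)] at this

end Crest.Agent.R227
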