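import Crest.Agent.R227.DensU
import Crest.Agent.R227.CZ3

/-! # Row 227: the density theorem on the Lubin–Tate ring. -/

set_option autoImplicit false
set_option linter.unusedSectionVars false

open MvPowerSeries Filter Topology IsLocalRing

noncomputable section
namespace Crest.Agent.R227

open Crest.LubinTate

variable {p : ℕ} [Fact p.Prime] {n : ℕ} {Γ : FormalGroup (kk p n)} {H : FormalGroup (LTRing p n)}

theorem not_mem_of_not_le {h : ℕ} {P : Ideal (LTRing p n)} (hP : heightIdeal p n H h ≤ P)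
    (hP' : ¬ heightIdeal p n H (h + 1) ≤ P) : PowerSeries.coeff (p ^ h) (mulSeries H p) ∉ P := by
  intro hv
  apply hP'
  rw [heightIdeal, sup_le_iff, Ideal.span_le, Set.singleton_subset_iff]
  exact ⟨hP, hv⟩

theorem density_pos [Γ.IsComm] [H.IsComm] (hΓ : Nice p n Γ)
    (hH : IsUniversalDeformation p n Γ H) {M : ℕ} {J : Ideal (LTRing p n)}
    (hJ : IsStableIdeal p n Γ H M J) {h : ℕ} (hh : 1 ≤ h) (hlt : h < n) (P : Ideal (LTRing p n))
    [P.IsPrime] (hJP : J ≤ P) (hP : heightIdeal p n H h ≤ P)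
    (hP' : ¬ heightIdeal p n H (h + 1) ≤ P) : J ≤ heightIdeal p n H h := by
  obtain ⟨m, hn⟩ : ∃ m, n = h + m := ⟨n - h, by omega⟩
  have hm : 1 ≤ m := by omega
  have hn1 : 1 ≤ n := by omega
  have hT := isTest_LT p n
  obtain ⟨ϖ, hsurj, hker, hres, hW, hv⟩ := exists_coords hh hn hΓ.hp hH
  have hvP := not_mem_of_not_le hP hP'
  have hmem : ∀ l, l < n → PowerSeries.coeff (p ^ l) (mulSeries H p) ∈ maximalIdeal (LTRing p n) :=
    fun l hl => lt_heightIdeal_le hΓ.hp hH le_rfl (lt_coeff_mem H hl)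
  have hpP : (p : LTRing p n) ∈ P := by
    have := hP (lt_coeff_mem H (l := 0) (by omega))
    rwa [pow_zero, coeff_one_mulSeries] at this
  obtain ⟨K, _, _, _, _, _, t₀, hK, ht₀, htP, htv⟩ := exists_point hn1 hT P hpP hvP (hmem h hlt)
  have hlift : ∀ s : LTRing p n →+* OO K, (∀ x ∈ heightIdeal p n H h, s x = 0) →
      ∃ t : MvPowerSeries (Fin m) (kk p n) →+* OO K, t.comp ϖ = s := fun s hs =>
    ⟨ϖ.liftOfSurjective hsurj ⟨s, fun x hx => hs x (hker ▸ hx)⟩,
      RingHom.liftOfSurjective_comp _ _ _⟩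
  obtain ⟨t, ht⟩ := hlift t₀ fun x hx => htP x (hP hx)
  have ht' : ∀ x, t (ϖ x) = t₀ x := fun x => by rw [← ht]; rfl
  set j : kk p n →+* OO K := t.comp C with hj
  set ε : ℝ := ‖fun l : Fin m => t (X l)‖ with hε
  have hε0 : 0 ≤ ε := norm_nonneg _
  have hε1 : ε < 1 := (pi_norm_lt_iff one_pos).2 fun l => by
    rw [← hv l, ht']
    exact ht₀ _ (hmem _ (by have := l.2; omega))
  have hpt : IsPoint j ε t := ⟨fun _ => rfl, fun l => norm_le_pi_norm (fun l => t (X l)) l⟩
  have hres' : ∀ x, constantCoeff (ϖ x) = LTRing.residue p n x := fun x => by rw [← hres]; rfl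
  have hclose : ∀ x, ‖t₀ x - j (LTRing.residue p n x)‖ ≤ ε := fun x => by
    rw [← ht', ← hres']; exact hpt.norm_sub hε0 hε1 _
  have hsmall : ∀ x ∈ maximalIdeal (LTRing p n), ‖t₀ x‖ ≤ ε := fun x hx => by
    have := hclose x
    rw [← hT.ker, RingHom.mem_ker] at hx
    rwa [hx, map_zero, sub_zero] at this
  have hp0 : t₀ (p : LTRing p n) = 0 := htP _ hpP
  intro f hf
  rw [← hker, RingHom.mem_ker]
  refine density_U (K := K) (j := j) hK hΓ hh hm hn hε0 hε1 (HU := H.map ϖ) ?_ ?_ ?_ hpt ?_ _ ?_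
  · rw [map_map, hres, hH.1]
  · intro l hl
    rw [← map_mulSeries, PowerSeries.coeff_map, ← RingHom.mem_ker, hker]
    exact lt_coeff_mem H hl
  · intro l
    rw [← map_mulSeries, PowerSeries.coeff_map, hv]
  · rw [← hv, ht']
    exact htv
  · intro ξ hξ
    have haut : ∀ i, IsFGAut Γ (gser Γ ξ (max i 1)) := fun i =>
      gser_aut hn1 hΓ.hp hξ (le_max_right _ _)
    choose φ hφ using fun i => exists_stab hH (haut i)
    choose θ hθ hθ' using fun i => (hφ i).2
    have hkill : ∀ i, ∀ x ∈ heightIdeal p n H h, (t₀.comp (φ i).toRingHom) x = 0 := by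
      intro i x hx
      refine htP _ (hP ?_)
      rw [← map_heightIdeal (haut i) (hφ i) h]
      exact Ideal.mem_map_of_mem _ hx
    choose t' ht'' using fun i => hlift _ (hkill i)
    have ht3 : ∀ i x, t' i (ϖ x) = t₀ (φ i x) := fun i x => by
      have := DFunLike.congr_fun (ht'' i) x
      exact this
    have hest : ∀ (e : ℕ) (δ : ℝ), 0 < δ → ∀ᶠ i in atTop, (∀ x, ‖t₀ (φ i x - x)‖ ≤ δ) ∧
        ∀ e', e' < e → ‖t₀ (PowerSeries.coeff e' (θ i - PowerSeries.X))‖ ≤ δ := by
      intro e δ hδ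
      obtain ⟨r, hr⟩ := exists_pow_lt_of_lt_one hδ hε1
      obtain ⟨i₀, hi₀⟩ := stab_tendsto hn1 hΓ.hp hH hξ r e
      filter_upwards [eventually_ge_atTop i₀] with i hi
      obtain ⟨h1, h2⟩ := hi₀ (max i 1) (le_max_of_le_left hi) (φ i) (θ i) (hφ i).1 (hθ i) (hθ' i)
      exact ⟨fun x => (norm_le_pow_of_mem t₀ _ hε0 hsmall hp0 r (h1 x)).trans hr.le,
        fun e' he' => (norm_le_pow_of_mem t₀ _ hε0 hsmall hp0 r (h2 e' he')).trans hr.le⟩
    refine ⟨t', fun i => PowerSeries.map t₀ (θ i), fun l => ?_, fun e δ hδ => ?_, ?_⟩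
    · rw [Metric.tendsto_nhds]
      intro δ hδ
      filter_upwards [hest 0 (δ / 2) (by positivity)] with i hi
      rw [dist_zero_right, ← hv l, ht3, ht', ← map_sub]
      exact (hi.1 _).trans_lt (by linarith)
    · filter_upwards [hest e δ hδ] with i hi e' he'
      have : PowerSeries.map t₀ (θ i) - PowerSeries.X =
          PowerSeries.map t₀ (θ i - PowerSeries.X) := by simp
      rw [this, PowerSeries.coeff_map]
      exact hi.2 e' he'
    · filter_upwards [eventually_ge_atTop (max M 1)] with i hi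
      have hi1 : max i 1 = i := max_eq_left ((le_max_right _ _).trans hi)
      refine ⟨⟨fun a => ?_, fun l => ?_⟩, ?_, fun e => ?_, ?_⟩
      · obtain ⟨w, rfl⟩ := WittVector.constantCoeff_surjective p a
        have h1 := DFunLike.congr_fun hW w
        simp only [RingHom.comp_apply] at h1
        rw [hj, RingHom.comp_apply, ← h1, ht3, ht', AlgHom.commutes]
      · rw [← hv l, ht3]
        refine hsmall _ ?_
        rw [← hT.ker, RingHom.mem_ker]
        have h1 := DFunLike.congr_fun (hφ i).1 (PowerSeries.coeff (p ^ (h + l)) (mulSeries H p))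
        have h2 := hmem (h + l) (by have := l.2; omega)
        rw [← hT.ker, RingHom.mem_ker] at h2
        exact h1.trans h2
      · have := hom_map (hθ i) t₀
        rw [map_map] at this
        rw [map_map, map_map, ht'' i, ht]
        exact this
      · rw [← hi1, ← hθ' i, PowerSeries.coeff_map, PowerSeries.coeff_map, hi1]
        exact hclose _
      · rw [ht3]
        refine htP _ (hJP ?_)
        have h1 := hJ _ (φ i) (haut i) (fun e he => coeff_gser hn1 hΓ.hp hξ
          (lt_of_lt_of_le he (le_max_of_le_left ((le_max_left _ _).trans hi)))) (hφ i)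
        rw [← h1] at hf
        exact hf

theorem density (hn : 1 ≤ n) [Γ.IsComm] [H.IsComm]
    (hΓ : mulSeries Γ p = PowerSeries.X ^ (p ^ n))
    (hH : IsUniversalDeformation p n Γ H) {M : ℕ} {J : Ideal (LTRing p n)}
    (hJ : IsStableIdeal p n Γ H M J) {h : ℕ} (hlt : h < n) (P : Ideal (LTRing p n))
    [P.IsPrime] (hJP : J ≤ P) (hP : heightIdeal p n H h ≤ P)
    (hP' : ¬ heightIdeal p n H (h + 1) ≤ P) : J ≤ heightIdeal p n H h := by
  obtain ⟨Γ₀, ι, hc, hnice, hι, h1⟩ := exists_nice hn Γ hΓ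
  obtain ⟨H₀, hc', hH₀, hI, hst⟩ := transfer hH hι h1
  rw [← hI] at hP hP' ⊢
  rcases Nat.eq_zero_or_pos h with rfl | hh
  · have hv := not_mem_of_not_le hP hP'
    rw [pow_zero, coeff_one_mulSeries] at hv
    exact (density_zero hn hnice hH₀ (hst M J hJ) P hJP hv).le
  · exact density_pos hnice hH₀ (hst M J hJ) hh hlt P hJP hP hP'

theorem radical_stable (hn : 1 ≤ n) [Γ.IsComm] [H.IsComm]
    (hΓ : mulSeries Γ p = PowerSeries.X ^ (p ^ n))
    (hH : IsUniversalDeformation p n Γ H) {M : ℕ} {J : Ideal (LTRing p n)}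
    (hJ : IsStableIdeal p n Γ H M J) (hr : J.IsRadical) (htop : J ≠ ⊤) :
    ∃ h, h ≤ n ∧ J = heightIdeal p n H h := by
  classical
  have hex : ∃ h, ¬ heightIdeal p n H (h + 1) ≤ J :=
    ⟨n, by rw [heightIdeal_succ_n hΓ hH, top_le_iff]; exact htop⟩
  set h := Nat.find hex with hh
  have h1 : ¬ heightIdeal p n H (h + 1) ≤ J := Nat.find_spec hex
  have h2 : heightIdeal p n H h ≤ J := by
    rcases Nat.eq_zero_or_pos h with h0 | h0
    · rw [h0]; exact bot_le
    · obtain ⟨k, hk⟩ : ∃ k, h = k + 1 := ⟨h - 1, by omega⟩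
      have := Nat.find_min hex (m := k) (by omega)
      rw [hk]
      exact not_not.1 this
  have h3 : h ≤ n := Nat.find_min' hex (by rw [heightIdeal_succ_n hΓ hH, top_le_iff]; exact htop)
  refine ⟨h, h3, le_antisymm ?_ h2⟩
  rcases h3.eq_or_lt with h4 | h4
  · rw [h4, heightIdeal_n hn hΓ hH]
    exact le_maximalIdeal htop
  · have hv := not_mem_of_not_le h2 h1
    rw [← hr.radical, Ideal.radical_eq_sInf, Submodule.mem_sInf] at hv
    push Not at hv
    obtain ⟨P, ⟨hJP, hP⟩, hvP⟩ := hv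
    exact density hn hΓ hH hJ h4 P hJP (h2.trans hJP)
      (fun h5 => hvP (h5 (lt_coeff_mem H (Nat.lt_succ_self h))))

end Crest.Agent.R227
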