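import Crest.Agent.R227.Perf

/-! # Row 227: the integral map to the generic Honda law; the hypersurface. -/

set_option autoImplicit false
set_option linter.unusedSectionVars false

open MvPowerSeries Filter Topology

noncomputable section
namespace Crest.Agent.R227

open Crest.LubinTate

variable {K : Type} [NontriviallyNormedField K] [IsUltrametricDist K] [CompleteSpace K]
  [IsAlgClosed K] {p : ℕ} [Fact p.Prime] [CharP K p]

theorem eta_cc_X_pow {R : Type} [CommRing R] {N : ℕ} (hN : N ≠ 0) :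
    constantCoeff (PowerSeries.X ^ N : PowerSeries R) = 0 := by
  rw [map_pow, fg_ccX, zero_pow hN]

/-- `f ^ Q = f^(Q) (X ^ Q)` -/
theorem eta_pow {R : Type} [CommRing R] [CharP R p] (h : ℕ) (f : PowerSeries R) :
    (PowerSeries.subst (PowerSeries.X ^ p ^ h : PowerSeries R)
      (PowerSeries.map (iterateFrobenius R p h) f) : PowerSeries R) = f ^ p ^ h := by
  have hp : p ≠ 0 := (Fact.out : p.Prime).ne_zero
  have h1 := MvPowerSeries.map_iterateFrobenius_expand p hp f h
  rw [map_expand] at h1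
  rw [← PowerSeries.expand_apply _ (pow_ne_zero h hp)]
  exact h1

theorem eta_subst_X_pow {R : Type} [CommRing R] {f : PowerSeries R}
    (hf : PowerSeries.constantCoeff f = 0) (N : ℕ) :
    (PowerSeries.subst f (PowerSeries.X ^ N : PowerSeries R) : PowerSeries R) = f ^ N := by
  rw [PowerSeries.subst_pow (fg_hs hf), PowerSeries.subst_X (fg_hs hf)]

theorem eta_coeff_subst {R : Type} [CommRing R] {V : PowerSeries R}
    (hV : PowerSeries.constantCoeff V = 0) (f : PowerSeries R) (e : ℕ) :
    PowerSeries.coeff e (PowerSeries.subst V f : PowerSeries R) =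
      PowerSeries.coeff 1 V ^ e * PowerSeries.coeff e f +
        ∑ d : Fin e, PowerSeries.coeff d f * PowerSeries.coeff e (V ^ (d : ℕ)) := by
  obtain ⟨W, rfl⟩ := PowerSeries.X_dvd_iff.2 hV
  rw [PowerSeries.coeff_subst' (fg_hs hV), finsum_eq_sum_of_support_subset (s := Finset.range (e + 1)),
    Finset.sum_range_succ, add_comm,
    Finset.sum_range fun d => PowerSeries.coeff d f • PowerSeries.coeff e ((PowerSeries.X * W) ^ d)]
  · congr 1
    rw [smul_eq_mul, mul_comm, mul_pow, PowerSeries.coeff_X_pow_mul', if_pos le_rfl, Nat.sub_self,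
      PowerSeries.coeff_zero_eq_constantCoeff_apply, map_pow,
      ← PowerSeries.coeff_zero_eq_constantCoeff_apply, PowerSeries.coeff_succ_X_mul]
  · intro d hd
    rw [Finset.coe_range, Set.mem_Iio]
    by_contra hlt
    apply hd
    dsimp only
    rw [mul_pow, PowerSeries.coeff_X_pow_mul', if_neg (by omega), smul_zero]

/-- the coefficients of the solution of `η ∘ V = η^(Q)` -/
def etaCoeff {R : Type} [CommRing R] (sol : R → R → R) (V : PowerSeries R) (e : ℕ) : R :=
  if e = 0 then 0 else sol (PowerSeries.coeff 1 V ^ e)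
    (∑ d : Fin e, etaCoeff sol V d * PowerSeries.coeff e (V ^ (d : ℕ)))
decreasing_by exact d.2

omit [CompleteSpace K] [CharP K p] in
theorem eta_exists_root {Q : ℕ} (hQ : 2 ≤ Q) (a b : OO K) :
    ∃ x : OO K, x ^ Q = a * x + b ∧ (a ≠ 0 → x ≠ 0) := by
  have key : ∀ x : K, x ^ Q = a * x + b → ‖x‖ ≤ 1 := by
    intro x hx
    by_contra hlt
    push Not at hlt
    have h1 : ‖x‖ ^ Q ≤ ‖x‖ := by
      rw [← norm_pow, hx]
      refine (IsUltrametricDist.norm_add_le_max _ _).trans (max_le ?_ (b.2.trans hlt.le))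
      rw [norm_mul]
      exact mul_le_of_le_one_left (norm_nonneg _) a.2
    have h2 : ‖x‖ ^ 1 < ‖x‖ ^ Q := pow_lt_pow_right₀ hlt (by omega)
    rw [pow_one] at h2
    exact absurd h1 h2.not_ge
  by_cases hb : b = 0
  · obtain ⟨x, hx⟩ := IsAlgClosed.exists_pow_nat_eq (a : K) (show 0 < Q - 1 by omega)
    have hx' : x ^ Q = a * x + b := by
      rw [hb, ← hx, ← pow_succ, Nat.sub_add_cancel (by omega)]
      simp
    refine ⟨⟨x, key x hx'⟩, Subtype.ext hx', fun ha h0 => ha (Subtype.ext ?_)⟩
    rw [← hx, show x = 0 from congrArg Subtype.val h0, zero_pow (by omega)]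
    rfl
  · have hdeg : (Polynomial.X ^ Q - (Polynomial.C (a : K) * Polynomial.X + Polynomial.C (b : K)) :
        Polynomial K).degree = Q := by
      rw [Polynomial.degree_sub_eq_left_of_degree_lt, Polynomial.degree_X_pow]
      rw [Polynomial.degree_X_pow]
      exact Polynomial.degree_linear_le.trans_lt (by exact_mod_cast hQ)
    obtain ⟨x, hx⟩ := IsAlgClosed.exists_root _
      (hdeg.trans_ne (by exact_mod_cast (show Q ≠ 0 by omega)))
    have hx' : x ^ Q = a * x + b := by
      simpa [sub_eq_zero] using hx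
    refine ⟨⟨x, key x hx'⟩, Subtype.ext hx', fun _ h0 => hb (Subtype.ext ?_)⟩
    rw [show x = 0 from congrArg Subtype.val h0, zero_pow (by omega), mul_zero, zero_add] at hx'
    exact hx'.symm

theorem eta_two_le {h : ℕ} (hh : 1 ≤ h) : 2 ≤ p ^ h :=
  (Fact.out : p.Prime).two_le.trans (Nat.le_self_pow (by omega) p)

theorem eta_exists_sol {h : ℕ} (hh : 1 ≤ h) {V : PowerSeries (OO K)}
    (hV0 : PowerSeries.constantCoeff V = 0) (hV1 : PowerSeries.coeff 1 V ≠ 0) :
    ∃ η : PowerSeries (OO K), PowerSeries.constantCoeff η = 0 ∧ PowerSeries.coeff 1 η ≠ 0 ∧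
      (PowerSeries.subst V η : PowerSeries (OO K)) =
        PowerSeries.map (iterateFrobenius (OO K) p h) η := by
  choose sol h1 h2 using eta_exists_root (K := K) (eta_two_le (p := p) hh)
  refine ⟨PowerSeries.mk (etaCoeff sol V), ?_, ?_, PowerSeries.ext fun e => ?_⟩
  · rw [PowerSeries.constantCoeff_mk, etaCoeff, if_pos rfl]
  · rw [PowerSeries.coeff_mk, etaCoeff, if_neg one_ne_zero]
    exact h2 _ _ (pow_ne_zero _ hV1)
  · rw [eta_coeff_subst hV0, PowerSeries.coeff_map, iterateFrobenius_def]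
    simp only [PowerSeries.coeff_mk]
    by_cases he : e = 0
    · subst he
      rw [etaCoeff, if_pos rfl]
      simp [(Fact.out : p.Prime).ne_zero]
    · rw [etaCoeff, if_neg he, h1]

theorem eta_core {R : Type} [CommRing R] [CharP R p] (G : FormalGroup R) [hG : G.IsComm] {h : ℕ}
    {V η : PowerSeries R} (hV : IsFGHom (G.map (iterateFrobenius R p h)) G V)
    (hV' : mulSeries G p = PowerSeries.subst (PowerSeries.X ^ p ^ h : PowerSeries R) V)
    (h0 : PowerSeries.constantCoeff η = 0) (hu : IsUnit (PowerSeries.coeff 1 η))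
    (hη : (PowerSeries.subst V η : PowerSeries R) = PowerSeries.map (iterateFrobenius R p h) η) :
    ∃ Γ : FormalGroup R, Γ.IsComm ∧ IsFGHom G Γ η ∧ mulSeries Γ p = PowerSeries.X ^ p ^ h ∧
      Γ.map (iterateFrobenius R p h) = Γ := by
  have hp : p ≠ 0 := (Fact.out : p.Prime).ne_zero
  have hinv : ∀ {f : PowerSeries R} (hf : IsUnit (PowerSeries.coeff 1 f)),
      IsUnit (PowerSeries.coeff 1 (f.substInvOfIsUnit hf)) := by
    intro f hf
    rw [PowerSeries.coeff_one_substInvOfIsUnit]
    exact Units.isUnit _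
  have hθ := PowerSeries.constantCoeff_substInvOfIsUnit η hu
  obtain ⟨Γ, hΓ, hc⟩ := exists_conj G _ hθ (hinv hu)
  have c0 := fg_cc (constantCoeff_X (R := R) (0 : Fin 2)) h0
  have c1 := fg_cc (constantCoeff_X (R := R) (1 : Fin 2)) h0
  have hhom : IsFGHom G Γ η := by
    refine ⟨h0, ?_⟩
    have h1 := hom_fadd hΓ c0 c1
    rw [fg_inv_left h0 hu (constantCoeff_X _), fg_inv_left h0 hu (constantCoeff_X _), fadd,
      fadd, fg_self2] at h1
    rw [← h1, fg_inv_right h0 hu (fg_cc2 Γ.zero_constantCoeff c0 c1)]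
  refine ⟨Γ, hc hG, hhom, ?_, ?_⟩
  · have h1 := hom_comm_mulSeries hhom p
    rw [hV', ← fg_ev1 η hV.1 (eta_cc_X_pow (pow_ne_zero h hp)), hη, eta_pow,
      ← eta_subst_X_pow h0] at h1
    have h2 := congrArg (fun f : PowerSeries R =>
      (PowerSeries.subst (η.substInvOfIsUnit hu) f : PowerSeries R)) h1
    simp only [fg_ev1 _ h0 hθ, PowerSeries.subst_substInvOfIsUnit_right η h0 hu,
      PowerSeries.X_subst] at h2
    exact h2.symm
  · have h1 := hom_map hhom (iterateFrobenius R p h)
    have h2 := hom_comp hV hhom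
    rw [hη] at h2
    have hu' : IsUnit (PowerSeries.coeff 1 (PowerSeries.map (iterateFrobenius R p h) η)) := by
      rw [PowerSeries.coeff_map]
      exact hu.map _
    exact eq_of_hom (hom_inv h1 hu') (hom_inv h2 hu') (hinv hu')

/-- Plan (`Q = p^h`).  Solve `η(V(X)) = η^(Q)(X)` coefficient by coefficient: `η₁^(Q-1) = v`,
`η_e^Q - v^e η_e = (lower terms)`, monic equations over `O_K`.  Over `K` let `Γh = η G η⁻¹`
(`exists_conj` for `η⁻¹`).  Since `η^(Q)(G^(Q)) = η(V(G^(Q))) = η(G(V,V)) = Γh(η^(Q), η^(Q))`, the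
coefficients of `Γh` satisfy `a^Q = a`; descend to `O_K` (`exists_descent`, `hom_of_map`). -/
theorem exists_eta (G : FormalGroup (OO K)) [G.IsComm] {h : ℕ} (hh : 1 ≤ h)
    {V : PowerSeries (OO K)} (hV : IsFGHom (G.map (iterateFrobenius (OO K) p h)) G V)
    (hV' : mulSeries G p = PowerSeries.subst (PowerSeries.X ^ p ^ h : PowerSeries (OO K)) V)
    (hV1 : PowerSeries.coeff 1 V ≠ 0) :
    ∃ (η : PowerSeries (OO K)) (Γh : FormalGroup (OO K)), Γh.IsComm ∧ IsFGHom G Γh η ∧
      mulSeries Γh p = PowerSeries.X ^ p ^ h ∧ PowerSeries.coeff 1 η ≠ 0 := by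
  have hp : p ≠ 0 := (Fact.out : p.Prime).ne_zero
  obtain ⟨η, h0, h1, hη⟩ := eta_exists_sol (p := p) hh hV.1 hV1
  let φ : OO K →+* K := (OO K).subtype
  have hφ : Function.Injective φ := Subtype.val_injective
  have hfr : φ.comp (iterateFrobenius (OO K) p h) = (iterateFrobenius K p h).comp φ := by
    ext x
    simp [iterateFrobenius_def]
  obtain ⟨Γ, hc, hhom, hmul, hfix⟩ := eta_core (p := p) (G.map φ) (h := h)
    (V := PowerSeries.map φ V) (η := PowerSeries.map φ η)
    (by
      have := hom_map hV φ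
      rwa [map_map, hfr, ← map_map] at this)
    (by
      rw [← map_mulSeries, hV']
      refine (fg_map1 φ V (eta_cc_X_pow (pow_ne_zero h hp))).trans ?_
      congr 1
      change PowerSeries.map φ _ = _
      rw [map_pow, PowerSeries.map_X])
    (by
      rw [← PowerSeries.coeff_zero_eq_constantCoeff_apply, PowerSeries.coeff_map,
        PowerSeries.coeff_zero_eq_constantCoeff_apply, h0, map_zero])
    (by
      rw [PowerSeries.coeff_map]
      exact ((map_ne_zero_iff φ hφ).2 h1).isUnit)
    (by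
      refine (fg_map1 φ η hV.1).symm.trans ?_
      rw [hη]
      refine PowerSeries.ext fun e => ?_
      change PowerSeries.coeff e (PowerSeries.map φ _) = _
      simp only [PowerSeries.coeff_map, iterateFrobenius_def, map_pow])
  obtain ⟨Γh, rfl, hc'⟩ := exists_descent φ hφ Γ fun d => by
    have h2 : coeff d Γ.toPowerSeries ^ p ^ h = coeff d Γ.toPowerSeries := by
      conv_rhs => rw [← hfix]
      rw [FormalGroup.map_toPowerSeries, coeff_map, iterateFrobenius_def]
    refine ⟨⟨coeff d Γ.toPowerSeries, ?_⟩, rfl⟩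
    change ‖coeff d Γ.toPowerSeries‖ ≤ 1
    by_contra hlt
    have h3 : ‖coeff d Γ.toPowerSeries‖ ^ 1 < ‖coeff d Γ.toPowerSeries‖ ^ p ^ h :=
      pow_lt_pow_right₀ (not_le.1 hlt) (eta_two_le hh)
    rw [pow_one, ← norm_pow, h2] at h3
    exact h3.false
  refine ⟨η, Γh, hc' hc, hom_of_map φ hφ hhom, ?_, h1⟩
  apply PowerSeries.map_injective φ hφ
  rw [map_mulSeries, hmul, map_pow, PowerSeries.map_X]

/-- for a homomorphism `η : G → Γh`, `η ∘ V = η^(Q)` -/
theorem subst_versch {R : Type} [CommRing R] [CharP R p] {G Γh : FormalGroup R} {h : ℕ}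
    {V η : PowerSeries R} (hV0 : PowerSeries.constantCoeff V = 0)
    (hV' : mulSeries G p = PowerSeries.subst (PowerSeries.X ^ p ^ h : PowerSeries R) V)
    (hΓ : mulSeries Γh p = PowerSeries.X ^ p ^ h) (hη : IsFGHom G Γh η) :
    (PowerSeries.subst V η : PowerSeries R) = PowerSeries.map (iterateFrobenius R p h) η := by
  have hp : p ≠ 0 := (Fact.out : p.Prime).ne_zero
  have h1 := hom_comm_mulSeries hη p
  rw [hV', hΓ, ← fg_ev1 η hV0 (eta_cc_X_pow (pow_ne_zero h hp)), eta_subst_X_pow hη.1, ← eta_pow h η,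
    ← PowerSeries.expand_apply _ (pow_ne_zero h hp),
    ← PowerSeries.expand_apply _ (pow_ne_zero h hp)] at h1
  exact frob_expand_injective (pow_ne_zero h hp) h1

/-- if `β(P) = β^Q` with `P ≡ X^N mod ε` then `β ≢ 0 mod ε` (look at a coefficient of nearly
maximal norm) -/
theorem exists_big_coeff {β P : PowerSeries (OO K)} (hβ : β ≠ 0)
    (hP0 : PowerSeries.constantCoeff P = 0) {N Q : ℕ} (hN : N ≠ 0) (hQ : 2 ≤ Q) {ε : ℝ}
    (hε : ε < 1) (hP : ∀ e, ‖PowerSeries.coeff e (P - PowerSeries.X ^ N)‖ ≤ ε)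
    (h : (PowerSeries.subst P β : PowerSeries (OO K)) = β ^ Q) :
    ∃ e, ε < ‖PowerSeries.coeff e β‖ := by
  by_contra hcon
  push Not at hcon
  have hε0 : 0 ≤ ε := (norm_nonneg _).trans (hP 0)
  have hball : ∀ a : ℝ, 0 ≤ a → ball K a * ball K ε ≤ ball K (a * ε) := by
    intro a ha
    rw [Ideal.mul_le]
    intro x hx y hy
    rw [mem_ball K (by positivity), norm_mul]
    exact mul_le_mul ((mem_ball K ha _).1 hx) ((mem_ball K hε0 _).1 hy) (norm_nonneg _) ha
  have key : ∀ k e : ℕ, ‖PowerSeries.coeff e β‖ ≤ ε ^ k := by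
    intro k
    induction k with
    | zero => exact fun e => by simpa using OO.norm_le_one K _
    | succ k ih =>
      intro e
      have hk : 0 ≤ ε ^ k := by positivity
      have h1 := frob_subst_sub_mem (I := ball K (ε ^ k)) (J := ball K ε) (f := β)
        (fun e => (mem_ball K hk _).2 (ih e)) hP0 (eta_cc_X_pow hN)
        (fun d => (mem_ball K hε0 _).2 (by
          rw [Finsupp.unique_single d]
          exact hP _)) (Finsupp.single () (N * e))
      have h2 := frob_mul_mem_left (β ^ (Q - 2))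
        (frob_mul_mem (I := ball K (ε ^ k)) (J := ball K ε) (φ := β) (ψ := β)
          (fun d => (mem_ball K hk _).2 (by
            rw [Finsupp.unique_single d]
            exact ih _))
          (fun d => (mem_ball K hε0 _).2 (by
            rw [Finsupp.unique_single d]
            exact hcon _))) (Finsupp.single () (N * e))
      rw [← sq, ← pow_add, Nat.sub_add_cancel hQ, ← h] at h2
      have h3 := hball _ hk (sub_mem h2 h1)
      rw [map_sub, sub_sub_cancel, ← pow_succ, mem_ball K (by positivity)] at h3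
      have h4 : coeff (Finsupp.single () (N * e))
          (PowerSeries.subst (PowerSeries.X ^ N : PowerSeries (OO K)) β) = PowerSeries.coeff e β := by
        change PowerSeries.coeff (N * e) _ = _
        rw [PowerSeries.coeff_subst_X_pow hN, if_pos (dvd_mul_right _ _),
          Nat.mul_div_cancel_left _ (Nat.pos_of_ne_zero hN)]
        rfl
      rwa [h4] at h3
  apply hβ
  refine PowerSeries.ext fun e => ?_
  rw [map_zero, ← norm_le_zero_iff]
  exact OO_le_of_le_add_pow hε0 hε fun k => by simpa using key k e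

end Crest.Agent.R227
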