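import Crest.Agent.R227.Tate

/-! # Row 227: Serre–Tate type coordinates at a point of the height stratum. -/

set_option autoImplicit false
set_option linter.unusedSectionVars false

open MvPowerSeries Filter Topology

noncomputable section
namespace Crest.Agent.R227

open Crest.LubinTate

variable {K : Type} [NontriviallyNormedField K] [IsUltrametricDist K] [CompleteSpace K]
  [IsAlgClosed K] {p : ℕ} [Fact p.Prime] [CharP K p] {n m : ℕ}

/-- a point of `Spf k⟦U⟧` in the disc of radius `ε` -/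
structure IsPoint (j : kk p n →+* OO K) (ε : ℝ) (t : MvPowerSeries (Fin m) (kk p n) →+* OO K) :
    Prop where
  const : ∀ a, t (C a) = j a
  norm_le : ∀ l, ‖t (X l)‖ ≤ ε

/-- expansion around the point `t`: `U ↦ t(U) + T` -/
def tT (j : kk p n →+* OO K) (t : MvPowerSeries (Fin m) (kk p n) →+* OO K) :
    MvPowerSeries (Fin m) (kk p n) →+* MvPowerSeries (Fin m) (OO K) :=
  ev (psIdeal (Fin m) (IO K)) ((C : OO K →+* MvPowerSeries (Fin m) (OO K)).comp j)
    (fun l => C (t (X l)) + X l)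

/-- evaluation at `T = t'(U) - t(U)` -/
def evT (t t' : MvPowerSeries (Fin m) (kk p n) →+* OO K) :
    MvPowerSeries (Fin m) (OO K) →+* OO K :=
  ev (IO K) (RingHom.id _) (fun l => t' (X l) - t (X l))

variable {j : kk p n →+* OO K} {ε : ℝ} {t t' : MvPowerSeries (Fin m) (kk p n) →+* OO K}

theorem IsPoint.jac_mem (ht : IsPoint j ε t) (hε : ε < 1) (l : Fin m) :
    t (X l) ∈ (IO K).radical := (mem_IO_radical K _).2 ((ht.norm_le l).trans_lt hε)

theorem IsPoint.jac_mem_ps (ht : IsPoint j ε t) (hε : ε < 1) (l : Fin m) :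
    (C (t (X l)) + X l : MvPowerSeries (Fin m) (OO K)) ∈ (psIdeal (Fin m) (IO K)).radical := by
  rw [mem_psIdeal_radical]
  simpa using ht.jac_mem hε l

theorem jac_tT_C (a : kk p n) : tT j t (C a) = C (j a) := ev_C _ _ _ a

theorem jac_tT_X (ht : IsPoint j ε t) (hε : ε < 1) (l : Fin m) :
    tT j t (X l) = C (t (X l)) + X l := ev_X _ _ (ht.jac_mem_ps hε) l

theorem jac_evT_C (a : OO K) : evT t t' (C a) = a := ev_C _ _ _ a

theorem jac_norm_diff (ht : IsPoint j ε t) (ht' : IsPoint j ε t') (l : Fin m) :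
    ‖t' (X l) - t (X l)‖ ≤ ε := by
  rw [sub_eq_add_neg]
  exact (OO_norm_add_le K _ _).trans (max_le (ht'.norm_le l) (by rw [norm_neg]; exact ht.norm_le l))

theorem jac_evT_X (ht : IsPoint j ε t) (ht' : IsPoint j ε t') (hε : ε < 1) (l : Fin m) :
    evT t t' (X l) = t' (X l) - t (X l) :=
  ev_X _ _ (fun l => sub_mem (ht'.jac_mem hε l) (ht.jac_mem hε l)) l

theorem IsPoint.norm_sub (ht : IsPoint j ε t) (hε0 : 0 ≤ ε) (hε : ε < 1)
    (f : MvPowerSeries (Fin m) (kk p n)) : ‖t f - j (constantCoeff f)‖ ≤ ε := by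
  have h1 := ev_hom_mem_pow t (k := 1) (by rw [pow_one]; exact ev_sub_C_mem f)
  rw [pow_one, map_sub, ht.const] at h1
  have h2 : Ideal.span (Set.range fun l => t (X l)) ≤ ball K ε := by
    rw [Ideal.span_le]
    rintro _ ⟨l, rfl⟩
    exact (mem_ball K hε0 _).2 (ht.norm_le l)
  exact (mem_ball K hε0 _).1 (h2 h1)

theorem IsPoint.isDef (ht : IsPoint j ε t) (hε0 : 0 ≤ ε) (hε : ε < 1) (hn : 1 ≤ n)
    {Γ : FormalGroup (kk p n)} (hΓ : mulSeries Γ p = PowerSeries.X ^ (p ^ n))
    {HU : FormalGroup (MvPowerSeries (Fin m) (kk p n))} (hred : HU.map constantCoeff = Γ) :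
    IsDef Γ j ε (HU.map t) := by
  refine ⟨hn, hΓ, hε0, hε, fun d => ?_⟩
  subst hred
  exact ht.norm_sub hε0 hε (coeff d HU.toPowerSeries)

theorem evT_comp_tT (ht : IsPoint j ε t) (ht' : IsPoint j ε t') (hε : ε < 1) :
    (evT t t').comp (tT j t) = t' := by
  refine (hom_ext (IO K) (ht'.jac_mem hε) (fun a => ?_) fun l => ?_).symm
  · rw [RingHom.comp_apply, jac_tT_C, jac_evT_C, ht'.const]
  · rw [RingHom.comp_apply, jac_tT_X ht hε, map_add, jac_evT_C, jac_evT_X ht ht' hε, add_sub_cancel]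

theorem constantCoeff_comp_tT (ht : IsPoint j ε t) (hε : ε < 1) :
    (constantCoeff : MvPowerSeries (Fin m) (OO K) →+* OO K).comp (tT j t) = t := by
  refine (hom_ext (IO K) (ht.jac_mem hε) (fun a => ?_) fun l => ?_).symm
  · rw [RingHom.comp_apply, jac_tT_C, constantCoeff_C, ht.const]
  · rw [RingHom.comp_apply, jac_tT_X ht hε, map_add, constantCoeff_C, constantCoeff_X, add_zero]

/-- compose with `T ↦ T - t(U)` to get `MvPowerSeries.map j` -/
theorem tT_injective (ht : IsPoint j ε t) (hε : ε < 1) : Function.Injective (tT j t) := by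
  have hr : ∀ l : Fin m, (X l - C (t (X l)) : MvPowerSeries (Fin m) (OO K)) ∈
      (psIdeal (Fin m) (IO K)).radical := fun l => by
    rw [mem_psIdeal_radical]
    simpa using ht.jac_mem hε l
  have key : MvPowerSeries.map j = (ev (psIdeal (Fin m) (IO K))
      (C : OO K →+* MvPowerSeries (Fin m) (OO K)) fun l => X l - C (t (X l))).comp (tT j t) := by
    refine hom_ext (psIdeal (Fin m) (IO K)) (fun l => ?_) (fun a => ?_) fun l => ?_
    · rw [mem_psIdeal_radical]
      simp
    · rw [RingHom.comp_apply, jac_tT_C, ev_C, map_C]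
    · rw [RingHom.comp_apply, jac_tT_X ht hε, map_add, ev_C, ev_X _ _ hr, map_X, add_sub_cancel]
  have h := fg_map_injective j j.injective (τ := Fin m)
  rw [key, RingHom.coe_comp] at h
  exact h.of_comp

section Aux
variable {A : Type} [CommRing A] {I : Ideal A} [IsAdicComplete I A] {F : FormalGroup A} [F.IsComm]

theorem jac_nsmul_val {h : ℕ} {V : PowerSeries A}
    (hV : mulSeries F p = PowerSeries.subst (PowerSeries.X ^ p ^ h : PowerSeries A) V)
    (z : Pt I F) : (p • z).1 = ev1 I (z.1 ^ p ^ h) V := by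
  have hq : p ^ h ≠ 0 := pow_ne_zero _ (Fact.out : p.Prime).ne_zero
  rw [Pt.nsmul_val, hV, ev1_subst I z.2 (by rw [map_pow, PowerSeries.constantCoeff_X, zero_pow hq]),
    map_pow, ev1_X I z.2]

theorem jac_contract [CharP A p] {h : ℕ} (hh : 1 ≤ h) {V : PowerSeries A}
    (hV : mulSeries F p = PowerSeries.subst (PowerSeries.X ^ p ^ h : PowerSeries A) V)
    (J : Ideal A) {z z' : Pt I F} (hz : z.1 - z'.1 ∈ J) (k : ℕ) :
    (p ^ k • z).1 - (p ^ k • z').1 ∈ J ^ (k + 1) := by
  have hp : p.Prime := Fact.out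
  have h2 : 2 ≤ p ^ h := hp.two_le.trans (Nat.le_self_pow (by omega) p)
  induction k with
  | zero => simpa using hz
  | succ k ih =>
    rw [pow_succ' p, mul_nsmul', mul_nsmul', jac_nsmul_val hV, jac_nsmul_val hV]
    obtain ⟨c, hc⟩ := ev1_sub I V (Ideal.pow_mem_of_mem _ (p ^ k • z).2 (p ^ h) (by omega))
      (Ideal.pow_mem_of_mem _ (p ^ k • z').2 (p ^ h) (by omega))
    rw [hc, ← sub_pow_char_pow]
    refine Ideal.mul_mem_right _ _ (Ideal.pow_le_pow_right ?_
      (show _ ∈ J ^ ((k + 1) * p ^ h) by rw [pow_mul]; exact Ideal.pow_mem_pow ih _))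
    nlinarith

theorem jac_map_nsmul {B : Type} [CommRing B] (J : Ideal B) [IsAdicComplete J B] (ψ : A →+* B)
    (z : Pt I F) (hz : ψ z.1 ∈ J.radical) (k : ℕ) :
    ψ (k • z).1 = ev1 J (ψ z.1) (mulSeries (F.map ψ) k) := by
  rw [Pt.nsmul_val, comp_ev1 I J ψ z.2 hz, map_mulSeries]

/-- limit of a sequence of series whose coefficients stabilise -/
theorem jac_exists_lim {σ R : Type} [Finite σ] [CommRing R] (S : ℕ → MvPowerSeries σ R)
    (hS : ∀ k, S (k + 1) - S k ∈ Ideal.span (Set.range (X : σ → MvPowerSeries σ R)) ^ (k + 1)) :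
    ∃ L : MvPowerSeries σ R, ∀ k (d : σ →₀ ℕ), d.degree < k + 1 → coeff d (L - S k) = 0 := by
  refine ⟨fun d => coeff d (S d.degree), fun k d hd => ?_⟩
  rw [map_sub, sub_eq_zero]
  change coeff d (S d.degree) = _
  have hk : d.degree ≤ k := by omega
  induction k, hk using Nat.le_induction with
  | base => rfl
  | succ k hk ih =>
    have := (mem_span_X_pow_iff _ _).1 (hS k) d (by omega)
    rw [map_sub, sub_eq_zero] at this
    rw [this, ih (by omega)]

end Aux

/-- derivative at the origin in the direction `b` -/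
def jacD (b : Fin m → OO K) : MvPowerSeries (Fin m) (OO K) →+ OO K where
  toFun f := ∑ l, coeff (Finsupp.single l 1) f * b l
  map_zero' := by simp
  map_add' f g := by simp only [map_add, add_mul, Finset.sum_add_distrib]

theorem jacD_apply (b : Fin m → OO K) (f : MvPowerSeries (Fin m) (OO K)) :
    jacD b f = ∑ l, coeff (Finsupp.single l 1) f * b l := rfl

theorem jacD_C_mul (b : Fin m → OO K) (w : OO K) (f : MvPowerSeries (Fin m) (OO K)) :
    jacD b (C w * f) = w * jacD b f := by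
  simp only [jacD_apply, coeff_C_mul, Finset.mul_sum, mul_assoc]

theorem jacD_eq_zero (b : Fin m → OO K) {f : MvPowerSeries (Fin m) (OO K)}
    (hf : f ∈ Ideal.span (Set.range (X : Fin m → MvPowerSeries (Fin m) (OO K))) ^ 2) :
    jacD b f = 0 := by
  rw [jacD_apply]
  refine Finset.sum_eq_zero fun l _ => ?_
  rw [(mem_span_X_pow_iff _ _).1 hf (Finsupp.single l 1) (by simp), zero_mul]

theorem jacD_C_add_X (b : Fin m → OO K) (w : OO K) (l : Fin m) : jacD b (C w + X l) = b l := by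
  rw [jacD_apply, Finset.sum_eq_single l]
  · simp [coeff_C, coeff_X]
  · intro l' _ hl
    simp [coeff_C, coeff_X, Finsupp.single_left_inj, hl]
  · simp

theorem jac_C_mem {w : OO K} (hw : w ∈ (IO K).radical) :
    (C w : MvPowerSeries (Fin m) (OO K)) ∈ (psIdeal (Fin m) (IO K)).radical := by
  rw [mem_psIdeal_radical]
  simpa using hw

theorem jacD_ev1 (b : Fin m → OO K) {w : OO K} (hw : w ∈ (IO K).radical)
    (g : PowerSeries (MvPowerSeries (Fin m) (OO K))) :
    jacD b (ev1 (psIdeal (Fin m) (IO K)) (C w) g) =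
      ev1 (IO K) w (PowerSeries.mk fun e => jacD b (PowerSeries.coeff e g)) := by
  have hw1 := (mem_IO_radical K w).1 hw
  have key : ∀ (N : ℕ) (g : PowerSeries (MvPowerSeries (Fin m) (OO K))),
      ‖jacD b (ev1 (psIdeal (Fin m) (IO K)) (C w) g) -
        ev1 (IO K) w (PowerSeries.mk fun e => jacD b (PowerSeries.coeff e g))‖ ≤ ‖w‖ ^ N := by
    intro N
    induction N with
    | zero => intro g; rw [pow_zero]; exact OO.norm_le_one K _
    | succ N ih =>
      intro g
      have h1 := congrArg (fun f => jacD b (ev1 (psIdeal (Fin m) (IO K)) (C w) f))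
        g.eq_X_mul_shift_add_const
      have h2 := congrArg (ev1 (IO K) w) (PowerSeries.mk fun e =>
        jacD b (PowerSeries.coeff e g)).eq_X_mul_shift_add_const
      simp only [map_add, map_mul, ev1_X _ (jac_C_mem hw), ev1_C, jacD_C_mul] at h1
      simp only [map_add, map_mul, ev1_X _ hw, ev1_C, PowerSeries.coeff_mk,
        PowerSeries.constantCoeff_mk, PowerSeries.coeff_zero_eq_constantCoeff_apply] at h2
      have h3 := ih (PowerSeries.mk fun e => PowerSeries.coeff (e + 1) g)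
      simp only [PowerSeries.coeff_mk] at h3
      rw [h1, h2, add_sub_add_right_eq_sub, ← mul_sub, norm_mul, pow_succ']
      exact mul_le_mul_of_nonneg_left h3 (norm_nonneg _)
  rw [← sub_eq_zero, ← norm_le_zero_iff]
  exact OO_le_of_le_add_pow (norm_nonneg w) hw1 fun N => by rw [zero_add]; exact key N g

/-- the constant lift of a point -/
def jacP (HT : FormalGroup (MvPowerSeries (Fin m) (OO K))) {G : FormalGroup (OO K)}
    (z : Pt (IO K) G) : Pt (psIdeal (Fin m) (IO K)) HT := ⟨C z.1, jac_C_mem z.2⟩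

/-- the Jacobian argument -/
theorem jac_core {h : ℕ} (hh : 1 ≤ h) {HT : FormalGroup (MvPowerSeries (Fin m) (OO K))} [HT.IsComm]
    {G : FormalGroup (OO K)} [G.IsComm] (hG : HT.map constantCoeff = G)
    {V : PowerSeries (MvPowerSeries (Fin m) (OO K))}
    (hV : mulSeries HT p = PowerSeries.subst
      (PowerSeries.X ^ p ^ h : PowerSeries (MvPowerSeries (Fin m) (OO K))) V)
    {b : Fin m → OO K} {l₀ : Fin m} (hb : jacD b (PowerSeries.coeff (p ^ (l₀ : ℕ)) V) = 1)
    {x : Fin m → Pt (IO K) G} (hx0 : ∀ l, p • x l = 0)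
    (hx : ∀ l, jacD b (p • jacP HT (x l)).1 = 0)
    (hinj : Function.Injective (fun c : Fin m → Fin p => ∑ l, (c l : ℕ) • x l)) : False := by
  classical
  have hp : p.Prime := Fact.out
  have : CharP (MvPowerSeries (Fin m) (OO K)) p := charP_of_injective_ringHom C_injective p
  have hcc : ∀ z : Pt (IO K) G, constantCoeff (p • jacP HT z).1 = (p • z).1 := fun z => by
    rw [jac_map_nsmul (IO K) constantCoeff (jacP HT z) z.2, hG, Pt.nsmul_val]
    rfl
  let Z : AddSubmonoid (Pt (IO K) G) :=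
    { carrier := {z | p • z = 0 ∧ jacD b (p • jacP HT z).1 = 0}
      zero_mem' := ⟨nsmul_zero _, by
        have : jacP HT (0 : Pt (IO K) G) = 0 := Pt.ext (map_zero C)
        rw [this, nsmul_zero, Pt.zero_val, map_zero]⟩
      add_mem' := by
        rintro z z' ⟨h1, h2⟩ ⟨h1', h2'⟩
        refine ⟨by rw [nsmul_add, h1, h1', add_zero], ?_⟩
        have h3 : (jacP HT (z + z')).1 - (jacP HT z + jacP HT z').1 ∈
            Ideal.span (Set.range (X : Fin m → MvPowerSeries (Fin m) (OO K))) := by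
          rw [TestAux.mem_span_X_iff, map_sub, Pt.add_val, comp_ev2 _ (IO K) constantCoeff HT
            (jacP HT z).2 (jacP HT z').2 z.2 z'.2, hG, sub_eq_zero]
          rfl
        have h4 := jacD_eq_zero b (jac_contract hh hV _ h3 1)
        obtain ⟨c, hc⟩ := ev2_eq _ HT (p • jacP HT z).2 (p • jacP HT z').2
        have h5 : (p • jacP HT z).1 * (p • jacP HT z').1 * c ∈
            Ideal.span (Set.range (X : Fin m → MvPowerSeries (Fin m) (OO K))) ^ 2 := by
          rw [sq]
          refine Ideal.mul_mem_right _ _ (Ideal.mul_mem_mul ?_ ?_)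
          · rw [TestAux.mem_span_X_iff, hcc, h1, Pt.zero_val]
          · rw [TestAux.mem_span_X_iff, hcc, h1', Pt.zero_val]
        rw [pow_one, map_sub, nsmul_add, Pt.add_val, hc, map_add, map_add, h2, h2',
          jacD_eq_zero b h5] at h4
        simpa using h4 }
  have hq : 0 < p ^ h := pow_pos hp.pos _
  have hZ : ∀ c : Fin m → Fin p, ∑ l, (c l : ℕ) • x l ∈ Z := fun c =>
    sum_mem fun l _ => nsmul_mem (show x l ∈ Z from ⟨hx0 l, hx l⟩) _
  have hcard := card_roots_le (f := PowerSeries.mk fun e => jacD b (PowerSeries.coeff e V))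
    (d := p ^ (l₀ : ℕ)) ⟨_, le_rfl, by rw [PowerSeries.coeff_mk, hb, norm_one]⟩
    (Finset.univ.image fun c : Fin m → Fin p => (∑ l, (c l : ℕ) • x l).1 ^ p ^ h) (by
      intro w hw
      obtain ⟨c, -, rfl⟩ := Finset.mem_image.1 hw
      have h1 := Ideal.pow_mem_of_mem _ (∑ l, (c l : ℕ) • x l).2 _ hq
      refine ⟨(mem_IO_radical K _).1 h1, ?_⟩
      rw [← jacD_ev1 b h1, map_pow, ← (hZ c).2, jac_nsmul_val hV]
      rfl)
  have hinj' : Function.Injective fun c : Fin m → Fin p => (∑ l, (c l : ℕ) • x l).1 ^ p ^ h :=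
    fun c c' e => hinj (Pt.ext (iterateFrobenius_inj (OO K) p h e))
  rw [Finset.card_image_of_injective _ hinj'] at hcard
  simp only [Finset.card_univ, Fintype.card_pi, Fintype.card_fin, Finset.prod_const] at hcard
  exact absurd hcard (not_le.2 (Nat.pow_lt_pow_right hp.one_lt l₀.2))

/-- Plan (`H_T = HU.map (tT j t)`, `G = HU.map t`, `x_k = ρ_G (y^(1/q^k))`, `[p] x_(k+1) = x_k`,
`x_0 = 0`).  `S^(k) = [p^k]_{H_T}(C x_k)` (`ev1 (psIdeal ..)`) satisfies `S^(k+1) ≡ S^(k)` modulo
`(T)^(p^k)` as `[p]` is a series in `X^p`; let `S` be the limit (coefficients stabilise).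
`evT (S^(k)) = [p^k]_{G'}(x_k) → ρ_{G'}(y)` (`tendsto_rho`).  Jacobian: modulo `(T)²`,
`S ≡ [p]_{H_T}(C x₁)`.  For `a` of sup norm one let `c(X) = ∑_e (∑_l a_l coeff_{T_l} coeff_e V_T) X^e`
where `[p]_{H_T} = V_T(X^Q)`; its coefficient of `X^(p^l)` is `a_l`.  The map `x ↦ c(x^Q)` is additive
on `G[p]` (use the group `Pt (psIdeal ..) H_T`: `[p](C x + O(T)) ≡ [p](C x) mod (T)²`), so if it kills
the `x l` it has `p^m` distinct zeros `x^Q`, against `card_roots_le` with `d = p^(m-1)`. -/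
theorem exists_S {h : ℕ} (hh : 1 ≤ h) (hn : n = h + m) (ht : IsPoint j ε t) (hε0 : 0 ≤ ε)
    (hε : ε < 1) {Γ : FormalGroup (kk p n)} [Γ.IsComm]
    (hΓ : mulSeries Γ p = PowerSeries.X ^ (p ^ n))
    {HU : FormalGroup (MvPowerSeries (Fin m) (kk p n))} [HU.IsComm]
    (hred : HU.map constantCoeff = Γ) {VU : PowerSeries (MvPowerSeries (Fin m) (kk p n))}
    (hVU : mulSeries HU p = PowerSeries.subst
      (PowerSeries.X ^ p ^ h : PowerSeries (MvPowerSeries (Fin m) (kk p n))) VU)
    (hcoef : ∀ l : Fin m, PowerSeries.coeff (p ^ (l : ℕ)) VU = X l)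
    {y : Fin m → OO K} {x : Fin m → Pt (IO K) (HU.map t)} (hy : ∀ l, ‖y l‖ < 1)
    (hy0 : ∀ l, rho p n (HU.map t) (y l) = 0)
    (hx : ∀ l, (x l).1 = rho p n (HU.map t) (frz p (-(n : ℤ)) (y l)))
    (hinj : Function.Injective (fun c : Fin m → Fin p => ∑ l, (c l : ℕ) • x l)) :
    ∃ S : Fin m → MvPowerSeries (Fin m) (OO K), (∀ i, constantCoeff (S i) = 0) ∧
      (∀ a : Fin m → K,
        (∀ i, ∑ l, ((coeff (Finsupp.single l 1) (S i) : OO K) : K) * a l = 0) → a = 0) ∧
      ∀ t' : MvPowerSeries (Fin m) (kk p n) →+* OO K, IsPoint j ε t' →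
        ∀ i, evT t t' (S i) = rho p n (HU.map t') (y i) := by
  have hp : p.Prime := Fact.out
  have hn1 : 1 ≤ n := by omega
  have : CharP (MvPowerSeries (Fin m) (OO K)) p := charP_of_injective_ringHom C_injective p
  have hdef := ht.isDef hε0 hε hn1 hΓ hred
  obtain ⟨HT, hHT⟩ : ∃ HT, HT = HU.map (tT j t) := ⟨_, rfl⟩
  have : HT.IsComm := hHT ▸ inferInstance
  have hG : HT.map constantCoeff = HU.map t := by rw [hHT, map_map, constantCoeff_comp_tT ht hε]
  have hV : mulSeries HT p = PowerSeries.subst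
      (PowerSeries.X ^ p ^ h : PowerSeries (MvPowerSeries (Fin m) (OO K)))
      (PowerSeries.map (tT j t) VU) := by
    have hq : p ^ h ≠ 0 := pow_ne_zero _ hp.ne_zero
    rw [hHT, ← map_mulSeries, hVU]
    refine (PowerSeries.map_subst (PowerSeries.HasSubst.X_pow hq) VU).trans ?_
    congr 1
    exact (map_pow (PowerSeries.map (tT j t)) _ _).trans (by rw [PowerSeries.map_X])
  let z : Fin m → ℕ → Pt (IO K) (HU.map t) := fun i k =>
    ⟨rho p n (HU.map t) (frz p (-(n * k : ℤ)) (y i)),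
      (mem_IO_radical K _).2 (hdef.norm_rho_lt (norm_frz_lt p _ (hy i)))⟩
  have hz : ∀ i k, p • z i (k + 1) = z i k := fun i k => by
    refine Pt.ext ?_
    have h1 := hdef.rho_pow (norm_frz_lt p (-(n * (k + 1 : ℕ) : ℤ)) (hy i)) 1
    rw [← frz_natCast, ← frz_add, pow_one] at h1
    rw [Pt.nsmul_val]
    refine h1.symm.trans (congrArg (fun R => rho p n (HU.map t) (frz p R (y i))) ?_)
    push_cast
    ring
  have hz0 : ∀ i, z i 0 = 0 := fun i => Pt.ext (by
    change rho p n (HU.map t) (frz p (-(n * (0 : ℕ) : ℤ)) (y i)) = 0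
    rw [Nat.cast_zero, mul_zero, neg_zero, frz_zero, hy0])
  have hz1 : ∀ i, z i 1 = x i := fun i => Pt.ext (by
    change rho p n (HU.map t) (frz p (-(n * (1 : ℕ) : ℤ)) (y i)) = _
    rw [Nat.cast_one, mul_one, hx])
  have hcc : ∀ w : Pt (IO K) (HU.map t), constantCoeff (p • jacP HT w).1 = (p • w).1 := fun w => by
    rw [jac_map_nsmul (IO K) constantCoeff (jacP HT w) w.2, hG, Pt.nsmul_val]
    rfl
  have hS := fun i => jac_exists_lim (fun k => (p ^ k • jacP HT (z i k)).1) fun k => by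
    rw [pow_succ p, mul_nsmul']
    refine jac_contract hh hV _ ?_ k
    rw [TestAux.mem_span_X_iff, map_sub, hcc, hz, sub_eq_zero]
    rfl
  choose S hS using hS
  refine ⟨S, fun i => ?_, fun a ha => ?_, fun t' ht' i => ?_⟩
  · have h1 := hS i 0 0 (by simp)
    rw [pow_zero, one_nsmul, hz0] at h1
    simpa [jacP, Pt.zero_val] using h1
  · by_contra ha0
    obtain ⟨l₁, hl₁⟩ := Function.ne_iff.1 ha0
    obtain ⟨l₀, -, hl₀⟩ := Finset.exists_max_image Finset.univ (fun l => ‖a l‖) ⟨l₁, Finset.mem_univ _⟩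
    have h0 : a l₀ ≠ 0 := norm_pos_iff.1 ((norm_pos_iff.2 hl₁).trans_le (hl₀ l₁ (Finset.mem_univ _)))
    let b : Fin m → OO K := fun l => ⟨a l / a l₀, by
      change ‖a l / a l₀‖ ≤ 1
      rw [norm_div]
      exact div_le_one_of_le₀ (hl₀ l (Finset.mem_univ _)) (norm_nonneg _)⟩
    refine jac_core hh hG hV (b := b) (l₀ := l₀) ?_ (x := x) (fun l => ?_) (fun l => ?_) hinj
    · rw [PowerSeries.coeff_map, hcoef, jac_tT_X ht hε, jacD_C_add_X]
      exact Subtype.ext (div_self h0)
    · rw [← hz1, hz, hz0]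
    · have h1 := jacD_eq_zero b ((mem_span_X_pow_iff _ _).2 (hS l 1))
      rw [map_sub, pow_one, hz1, sub_eq_zero] at h1
      rw [← h1, jacD_apply]
      refine Subtype.ext ?_
      have h2 := congrArg (· / a l₀) (ha l)
      simp only [Finset.sum_div, zero_div, mul_div_assoc] at h2
      push_cast
      exact h2
  · have hdef' := ht'.isDef hε0 hε hn1 hΓ hred
    have h1 := hdef'.tendsto_rho (hy i) (z := fun k => (z i k).1)
      fun k => hdef.norm_rho_sub (norm_frz_lt p _ (hy i))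
    have h2 : ∀ k, evT t t' (p ^ k • jacP HT (z i k)).1 =
        ev1 (IO K) (z i k).1 (mulSeries (HU.map t') (p ^ k)) := fun k => by
      have e : evT t t' (jacP HT (z i k)).1 = (z i k).1 := jac_evT_C _
      rw [jac_map_nsmul (IO K) (evT t t') _ (e ▸ (z i k).2), e, hHT, map_map,
        evT_comp_tT ht ht' hε]
    refine tendsto_nhds_unique ?_ h1
    rw [tendsto_iff_norm_sub_tendsto_zero]
    refine squeeze_zero (fun _ => norm_nonneg _) (fun k => ?_)
      ((tendsto_pow_atTop_nhds_zero_of_lt_one hε0 hε).comp (tendsto_add_atTop_nat 1))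
    rw [← h2, norm_sub_rev, ← map_sub]
    exact norm_ev_le_pow _ hε0 hε (jac_norm_diff ht ht') (hS i k)

end Crest.Agent.R227
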