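import Crest.Agent.R227.FG

/-! # Row 227: evaluation of power series in adically complete rings, groups of points.

Everything follows from `exists_ev` and the extensionality lemma `hom_ext` (no topology). -/

set_option autoImplicit false
set_option linter.unusedSectionVars false

open MvPowerSeries

noncomputable section
namespace Crest.Agent.R227

open Crest.LubinTate

section Ev
variable {R S T : Type} [CommRing R] [CommRing S] [CommRing T] {σ τ : Type}

theorem ev_monomial_mem (e : σ →₀ ℕ) :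
    monomial e (1 : R) ∈ (Ideal.span (Set.range (X : σ → MvPowerSeries σ R))) ^ e.degree := by
  rw [monomial_one_eq, Finsupp.prod, Finsupp.degree_apply, ← Finset.prod_pow_eq_pow_sum]
  exact Ideal.prod_mem_prod fun i _ => Ideal.pow_mem_pow (Ideal.subset_span (Set.mem_range_self i)) _

theorem ev_mem_span_X_pow [Finite σ] (f : MvPowerSeries σ R) (k : ℕ)
    (h : ∀ d : σ →₀ ℕ, d.degree < k → coeff d f = 0) :
    f ∈ (Ideal.span (Set.range (X : σ → MvPowerSeries σ R))) ^ k := by
  classical
  have hch : ∀ d : σ →₀ ℕ, ∃ e : σ →₀ ℕ, k ≤ d.degree → e ≤ d ∧ e.degree = k := by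
    intro d
    by_cases hd : k ≤ d.degree
    · obtain ⟨e, he⟩ := Finsupp.exists_le_degree_eq d k hd
      exact ⟨e, fun _ => he⟩
    · exact ⟨0, fun h => absurd h hd⟩
  choose c hc using hch
  let g : (σ →₀ ℕ) → MvPowerSeries σ R := fun e d => if c (d + e) = e then coeff (d + e) f else 0
  have hg : ∀ e d, coeff d (g e) = if c (d + e) = e then coeff (d + e) f else 0 := fun _ _ => rfl
  have : f = ∑ e ∈ (Finsupp.finite_of_degree_eq (σ := σ) k).toFinset, monomial e 1 * g e := by
    ext d
    simp only [map_sum, coeff_monomial_mul, one_mul, hg]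
    by_cases hd : k ≤ d.degree
    · rw [Finset.sum_eq_single (c d)]
      · rw [if_pos (hc d hd).1, tsub_add_cancel_of_le (hc d hd).1, if_pos rfl]
      · intro e _ hne
        split_ifs with h1 h2
        · rw [tsub_add_cancel_of_le h1] at h2
          exact absurd h2.symm hne
        · rfl
        · rfl
      · intro h1
        exact absurd (by simpa using (hc d hd).2) h1
    · rw [h d (not_le.1 hd)]
      symm
      refine Finset.sum_eq_zero fun e he => if_neg fun h1 => hd ?_
      have h2 : e.degree = k := by simpa using he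
      exact h2 ▸ Finsupp.degree_mono h1
  rw [this]
  refine Ideal.sum_mem _ fun e he => Ideal.mul_mem_right _ _ ?_
  have h2 : e.degree = k := by simpa using he
  exact h2 ▸ ev_monomial_mem e

theorem ev_coeff_mem_of_mem_pow (I : Ideal S) (k : ℕ) : ∀ f : MvPowerSeries σ S,
    f ∈ (I.map (C : S →+* MvPowerSeries σ S) ⊔ Ideal.span (Set.range X)) ^ k →
      ∀ d : σ →₀ ℕ, coeff d f ∈ I ^ (k - d.degree) := by
  classical
  have hmul : ∀ (a b : ℕ) (f g : MvPowerSeries σ S), (∀ d : σ →₀ ℕ, coeff d f ∈ I ^ (a - d.degree)) →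
      (∀ d : σ →₀ ℕ, coeff d g ∈ I ^ (b - d.degree)) →
      ∀ d : σ →₀ ℕ, coeff d (f * g) ∈ I ^ (a + b - d.degree) := by
    intro a b f g hf hg d
    rw [coeff_mul]
    refine Ideal.sum_mem _ fun p hp => ?_
    have h1 := Ideal.mul_mem_mul (hf p.1) (hg p.2)
    rw [← pow_add] at h1
    refine Ideal.pow_le_pow_right ?_ h1
    have hp' : p.1 + p.2 = d := by simpa using hp
    rw [← hp', map_add]
    omega
  have hone : ∀ f : MvPowerSeries σ S,
      f ∈ I.map (C : S →+* MvPowerSeries σ S) ⊔ Ideal.span (Set.range X) →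
      ∀ d : σ →₀ ℕ, coeff d f ∈ I ^ (1 - d.degree) := by
    intro f hf d
    by_cases hd : d = 0
    · subst hd
      have : I.map (C : S →+* MvPowerSeries σ S) ⊔ Ideal.span (Set.range X)
          ≤ I.comap constantCoeff := by
        refine sup_le ?_ ?_
        · rw [Ideal.map_le_iff_le_comap]
          intro x hx
          simpa using hx
        · rw [Ideal.span_le]
          rintro _ ⟨i, rfl⟩
          simp
      simpa using this hf
    · have : 1 - d.degree = 0 := by
        have := (Finsupp.degree_eq_zero_iff d).not.2 hd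
        omega
      rw [this]; simp
  induction k with
  | zero => intro f _ d; simp
  | succ k ih =>
    intro f hf
    rw [pow_succ] at hf
    refine Submodule.mul_induction_on hf (fun x hx y hy => hmul k 1 x y (ih x hx) (hone y hy)) ?_
    intro x y hx hy d
    rw [map_add]
    exact add_mem (hx d) (hy d)

/-- a series all of whose coefficients of degree `< k` vanish lies in `(X) ^ k` -/
theorem mem_span_X_pow_iff [Finite σ] (f : MvPowerSeries σ R) (k : ℕ) :
    f ∈ (Ideal.span (Set.range (X : σ → MvPowerSeries σ R))) ^ k ↔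
      ∀ d : σ →₀ ℕ, d.degree < k → coeff d f = 0 := by
  refine ⟨fun h d hd => ?_, ev_mem_span_X_pow f k⟩
  have := ev_coeff_mem_of_mem_pow (⊥ : Ideal R) k f (Ideal.pow_right_mono le_sup_right k h) d
  rwa [Ideal.bot_pow (by omega), Ideal.mem_bot] at this

theorem ev_sub_trunc_mem [Finite σ] (f : MvPowerSeries σ R) (k : ℕ) :
    f - (truncTotal k f : MvPolynomial σ R) ∈
      (Ideal.span (Set.range (X : σ → MvPowerSeries σ R))) ^ k :=
  ev_mem_span_X_pow _ k fun d hd => by
    rw [map_sub, MvPolynomial.coeff_coe, coeff_truncTotal _ hd, sub_self]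

theorem ev_hom_mem_pow (ε : MvPowerSeries σ R →+* S) {f : MvPowerSeries σ R} {k : ℕ}
    (hf : f ∈ (Ideal.span (Set.range (X : σ → MvPowerSeries σ R))) ^ k) :
    ε f ∈ Ideal.span (Set.range fun i => ε (X i)) ^ k := by
  have := Ideal.mem_map_of_mem ε hf
  rwa [Ideal.map_pow, Ideal.map_span, ← Set.range_comp] at this

theorem ev_exists_pow_le [Finite σ] (I : Ideal S) {a : σ → S} (ha : ∀ i, a i ∈ I.radical) :
    ∃ N : ℕ, ∀ n, Ideal.span (Set.range a) ^ (N * n) ≤ I ^ n := by
  obtain ⟨N, hN⟩ := Ideal.exists_pow_le_of_le_radical_of_fg (I := Ideal.span (Set.range a)) (J := I)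
    (by rw [Ideal.span_le]; rintro _ ⟨i, rfl⟩; exact ha i) (Submodule.fg_span (Set.finite_range a))
  exact ⟨N, fun n => by rw [pow_mul]; exact Ideal.pow_right_mono hN n⟩

theorem ev_hom_coe (ε : MvPowerSeries σ R →+* S) (P : MvPolynomial σ R) :
    ε P = MvPolynomial.eval₂ (ε.comp C) (fun i => ε (X i)) P := by
  have : ε.comp MvPolynomial.coeToMvPowerSeries.ringHom
      = MvPolynomial.eval₂Hom (ε.comp C) (fun i => ε (X i)) :=
    MvPolynomial.ringHom_ext (fun r => by simp) (fun i => by simp)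
  exact RingHom.congr_fun this P

/-- ring homomorphisms out of a power series ring are determined by constants and variables -/
theorem hom_ext [Finite σ] (I : Ideal S) [IsHausdorff I S] {ε ε' : MvPowerSeries σ R →+* S}
    (hX : ∀ i, ε (X i) ∈ I.radical) (hC : ∀ r, ε (C r) = ε' (C r)) (h : ∀ i, ε (X i) = ε' (X i)) :
    ε = ε' := by
  obtain ⟨N, hN⟩ := ev_exists_pow_le I hX
  have hX' : (fun i => ε' (X i)) = fun i => ε (X i) := funext fun i => (h i).symm
  have hC' : ε'.comp C = ε.comp C := RingHom.ext fun r => (hC r).symm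
  ext f
  rw [IsHausdorff.eq_iff_smodEq (I := I)]
  intro n
  rw [SModEq.sub_mem, smul_eq_mul, Ideal.mul_top]
  have h1 := ev_hom_mem_pow ε (ev_sub_trunc_mem f (N * n))
  have h2 := ev_hom_mem_pow ε' (ev_sub_trunc_mem f (N * n))
  rw [map_sub, ev_hom_coe] at h1 h2
  rw [hX', hC'] at h2
  simpa using hN n (sub_mem h1 h2)

theorem exists_ev [Finite σ] (I : Ideal S) [IsAdicComplete I S] (φ : R →+* S) (a : σ → S)
    (ha : ∀ i, a i ∈ I.radical) :
    ∃ ε : MvPowerSeries σ R →+* S, (∀ r, ε (C r) = φ r) ∧ ∀ i, ε (X i) = a i := by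
  obtain ⟨N, hN⟩ := ev_exists_pow_le I ha
  have h1 : ∀ n, ∀ P ∈ MvPolynomial.idealOfVars σ R ^ (N * n),
      MvPolynomial.eval₂Hom φ a P ∈ I ^ n := by
    intro n P hP
    have := Ideal.mem_map_of_mem (MvPolynomial.eval₂Hom φ a) hP
    rw [Ideal.map_pow, Ideal.map_span, ← Set.range_comp] at this
    refine hN n ?_
    convert this using 4
    funext i
    simp
  let g : (n : ℕ) → MvPowerSeries σ R →+* S ⧸ I ^ n := fun n =>
    (Ideal.Quotient.lift _ ((Ideal.Quotient.mk (I ^ n)).comp (MvPolynomial.eval₂Hom φ a))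
      fun P hP => Ideal.Quotient.eq_zero_iff_mem.2 (h1 n P hP)).comp
      (truncTotalAlgHom σ R (N * n)).toRingHom
  have hg : ∀ n f, g n f = Ideal.Quotient.mk (I ^ n)
      (MvPolynomial.eval₂Hom φ a (truncTotal (N * n) f)) := fun _ _ => rfl
  have hc : ∀ {m n : ℕ} (hle : m ≤ n), (Ideal.Quotient.factorPow I hle).comp (g n) = g m := by
    intro m n hle
    ext f
    rw [RingHom.comp_apply, hg, hg, Ideal.Quotient.factor_mk, Ideal.Quotient.eq, ← map_sub]
    exact h1 m _ (truncTotal_sub_truncTotal_mem_pow_idealOfVars (Nat.mul_le_mul_left N hle) le_rfl f)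
  have key : ∀ P : MvPolynomial σ R,
      IsAdicComplete.liftRingHom I g hc P = MvPolynomial.eval₂Hom φ a P := by
    intro P
    rw [IsHausdorff.eq_iff_smodEq (I := I)]
    intro n
    rw [SModEq.sub_mem, smul_eq_mul, Ideal.mul_top, ← Ideal.Quotient.eq,
      IsAdicComplete.mk_liftRingHom, hg, Ideal.Quotient.eq, ← map_sub]
    refine h1 n _ ((MvPolynomial.mem_pow_idealOfVars_iff' ..).2 fun d hd => ?_)
    rw [MvPolynomial.coeff_sub, coeff_truncTotal _ hd, MvPolynomial.coeff_coe, sub_self]
  refine ⟨IsAdicComplete.liftRingHom I g hc, fun r => ?_, fun i => ?_⟩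
  · simpa using key (MvPolynomial.C r)
  · simpa using key (MvPolynomial.X i)

open Classical in
/-- evaluation at a point with coordinates in the radical of `I` (junk otherwise) -/
def ev [Finite σ] (I : Ideal S) [IsAdicComplete I S] (φ : R →+* S) (a : σ → S) :
    MvPowerSeries σ R →+* S :=
  if h : ∀ i, a i ∈ I.radical then (exists_ev I φ a h).choose else φ.comp constantCoeff

variable [Finite σ] [Finite τ] (I : Ideal S) [IsAdicComplete I S]

theorem ev_C (φ : R →+* S) (a : σ → S) (r : R) : ev I φ a (C r) = φ r := by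
  unfold ev
  split_ifs with h
  · exact (exists_ev I φ a h).choose_spec.1 r
  · simp

theorem ev_X (φ : R →+* S) {a : σ → S} (ha : ∀ i, a i ∈ I.radical) (i : σ) :
    ev I φ a (X i) = a i := by
  unfold ev
  rw [dif_pos ha]
  exact (exists_ev I φ a ha).choose_spec.2 i

theorem ev_coe (φ : R →+* S) {a : σ → S} (ha : ∀ i, a i ∈ I.radical) (P : MvPolynomial σ R) :
    ev I φ a (P : MvPowerSeries σ R) = MvPolynomial.eval₂ φ a P := by
  rw [ev_hom_coe]
  congr 1
  · exact RingHom.ext (ev_C I φ a)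
  · exact funext (ev_X I φ ha)

theorem eq_ev (ε : MvPowerSeries σ R →+* S) (hX : ∀ i, ε (X i) ∈ I.radical) :
    ε = ev I (ε.comp C) (fun i => ε (X i)) :=
  hom_ext I hX (fun r => (ev_C I (ε.comp C) _ r).symm) fun i => (ev_X I _ hX i).symm

theorem ev_map (φ : T →+* S) (ψ : R →+* T) {a : σ → S} (ha : ∀ i, a i ∈ I.radical)
    (f : MvPowerSeries σ R) : ev I φ a (MvPowerSeries.map ψ f) = ev I (φ.comp ψ) a f := by
  have : (ev I φ a).comp (MvPowerSeries.map ψ) = ev I (φ.comp ψ) a :=
    hom_ext I (fun i => by simpa [ev_X I φ ha] using ha i) (fun r => by simp [ev_C])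
      fun i => by simp [ev_X I _ ha]
  exact RingHom.congr_fun this f

theorem ev_mem_pow' (φ : R →+* S) {a : σ → S} (ha : ∀ i, a i ∈ I.radical)
    {f : MvPowerSeries σ R} {k : ℕ}
    (hf : f ∈ (Ideal.span (Set.range (X : σ → MvPowerSeries σ R))) ^ k) :
    ev I φ a f ∈ Ideal.span (Set.range a) ^ k := by
  simpa only [ev_X I φ ha] using ev_hom_mem_pow (ev I φ a) hf

theorem ev_sub_C_mem (f : MvPowerSeries σ R) :
    f - C (constantCoeff f) ∈ Ideal.span (Set.range (X : σ → MvPowerSeries σ R)) := by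
  rw [← pow_one (Ideal.span _)]
  refine ev_mem_span_X_pow _ 1 fun d hd => ?_
  have : d = 0 := (Finsupp.degree_eq_zero_iff d).1 (by omega)
  simp [this]

theorem ev_sub_mem_span (φ : R →+* S) {a : σ → S} (ha : ∀ i, a i ∈ I.radical)
    (f : MvPowerSeries σ R) :
    ev I φ a f - φ (constantCoeff f) ∈ Ideal.span (Set.range a) := by
  have := ev_mem_pow' I φ ha (k := 1) (by rw [pow_one]; exact ev_sub_C_mem f)
  rwa [pow_one, map_sub, ev_C] at this

theorem ev_mem_radical (φ : R →+* S) {a : σ → S} (ha : ∀ i, a i ∈ I.radical)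
    {f : MvPowerSeries σ R} (hf : φ (constantCoeff f) ∈ I.radical) : ev I φ a f ∈ I.radical := by
  have h1 : Ideal.span (Set.range a) ≤ I.radical := by
    rw [Ideal.span_le]; rintro _ ⟨i, rfl⟩; exact ha i
  simpa using add_mem (h1 (ev_sub_mem_span I φ ha f)) hf

theorem ev_mem_pow (φ : R →+* S) {a : σ → S} (ha : ∀ i, a i ∈ I.radical)
    {f : MvPowerSeries σ R} {k : ℕ} (hf : ∀ d : σ →₀ ℕ, d.degree < k → coeff d f = 0) :
    ev I φ a f ∈ Ideal.span (Set.range a) ^ k :=
  ev_mem_pow' I φ ha (ev_mem_span_X_pow f k hf)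

/-- evaluation commutes with substitution -/
theorem ev_subst (φ : R →+* S) {a : τ → S} (ha : ∀ i, a i ∈ I.radical)
    {b : σ → MvPowerSeries τ R} (hb : ∀ i, constantCoeff (b i) = 0) (f : MvPowerSeries σ R) :
    ev I φ a (f.subst b) = ev I φ (fun i => ev I φ a (b i)) f := by
  have hs : HasSubst b := hasSubst_of_constantCoeff_zero hb
  have hr : ∀ i, ev I φ a (b i) ∈ I.radical := fun i =>
    ev_mem_radical I φ ha (by rw [hb, map_zero]; exact zero_mem _)
  have : (ev I φ a).comp (substAlgHom (R := R) hs).toRingHom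
      = ev I φ (fun i => ev I φ a (b i)) :=
    hom_ext I (fun i => by simpa [subst_X hs] using hr i) (fun r => by simp [ev_C])
      fun i => by simp [ev_X I _ hr, subst_X hs]
  simpa using RingHom.congr_fun this f

/-- evaluation commutes with arbitrary ring homomorphisms -/
theorem comp_ev (J : Ideal T) [IsAdicComplete J T] (ψ : S →+* T) (φ : R →+* S) {a : σ → S}
    (ha : ∀ i, a i ∈ I.radical) (ha' : ∀ i, ψ (a i) ∈ J.radical) (f : MvPowerSeries σ R) :
    ψ (ev I φ a f) = ev J (ψ.comp φ) (fun i => ψ (a i)) f := by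
  have : ψ.comp (ev I φ a) = ev J (ψ.comp φ) (fun i => ψ (a i)) :=
    hom_ext J (fun i => by simpa [ev_X I _ ha] using ha' i) (fun r => by simp [ev_C])
      fun i => by simp [ev_X I _ ha, ev_X J _ ha']
  exact RingHom.congr_fun this f

/-- congruences modulo an ideal `𝔟` such that `S ⧸ 𝔟` is separated -/
theorem ev_sub_ev_mem (𝔟 : Ideal S) (h𝔟 : ∀ x, (∀ k : ℕ, x ∈ 𝔟 ⊔ I ^ k) → x ∈ 𝔟)
    (φ : R →+* S) (φ' : T →+* S) {a a' : σ → S} (ha : ∀ i, a i ∈ I.radical)
    (ha' : ∀ i, a' i ∈ I.radical) (h : ∀ i, a i - a' i ∈ 𝔟) {f : MvPowerSeries σ R}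
    {f' : MvPowerSeries σ T} (hf : ∀ d, φ (coeff d f) - φ' (coeff d f') ∈ 𝔟) :
    ev I φ a f - ev I φ' a' f' ∈ 𝔟 := by
  obtain ⟨N, hN⟩ := ev_exists_pow_le I ha
  obtain ⟨N', hN'⟩ := ev_exists_pow_le I ha'
  refine h𝔟 _ fun k => ?_
  have h1 := hN k (Ideal.pow_le_pow_right (Nat.le_add_right _ (N' * k))
    (ev_mem_pow' I φ ha (ev_sub_trunc_mem f (N * k + N' * k))))
  have h2 := hN' k (Ideal.pow_le_pow_right (Nat.le_add_left _ (N * k))
    (ev_mem_pow' I φ' ha' (ev_sub_trunc_mem f' (N * k + N' * k))))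
  rw [map_sub, ev_coe I _ ha] at h1
  rw [map_sub, ev_coe I _ ha'] at h2
  have h3 : MvPolynomial.eval₂ φ a (truncTotal (N * k + N' * k) f)
      - MvPolynomial.eval₂ φ' a' (truncTotal (N * k + N' * k) f') ∈ 𝔟 := by
    rw [← Ideal.Quotient.eq, MvPolynomial.hom_eval₂, MvPolynomial.hom_eval₂,
      MvPolynomial.eval₂_eq_eval_map, MvPolynomial.eval₂_eq_eval_map]
    congr 1
    · congr 1
      funext i
      exact Ideal.Quotient.eq.2 (h i)
    · ext d
      rw [MvPolynomial.coeff_map, MvPolynomial.coeff_map, coeff_truncTotal_eq_ite,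
        coeff_truncTotal_eq_ite]
      split_ifs
      · exact Ideal.Quotient.eq.2 (hf d)
      · simp
  have := add_mem (Ideal.mem_sup_left h3) (Ideal.mem_sup_right (S := 𝔟) (sub_mem h1 h2))
  convert this using 1
  ring

/-- the ideal generated by `I` and the variables -/
def psIdeal (σ : Type) (I : Ideal S) : Ideal (MvPowerSeries σ S) :=
  I.map (C : S →+* MvPowerSeries σ S) ⊔ Ideal.span (Set.range X)

omit [IsAdicComplete I S] in
theorem mem_psIdeal_pow (f : MvPowerSeries σ S) (k : ℕ) :
    f ∈ psIdeal σ I ^ k ↔ ∀ d : σ →₀ ℕ, coeff d f ∈ I ^ (k - d.degree) := by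
  refine ⟨ev_coeff_mem_of_mem_pow I k f, fun h => ?_⟩
  have h1 : f - (truncTotal k f : MvPolynomial σ S) ∈ psIdeal σ I ^ k :=
    Ideal.pow_right_mono le_sup_right k (ev_sub_trunc_mem f k)
  have h2 : ((truncTotal k f : MvPolynomial σ S) : MvPowerSeries σ S) ∈ psIdeal σ I ^ k := by
    rw [(truncTotal k f).as_sum, ← MvPolynomial.coeToMvPowerSeries.ringHom_apply, map_sum]
    refine Ideal.sum_mem _ fun d _ => ?_
    rw [MvPolynomial.coeToMvPowerSeries.ringHom_apply, MvPolynomial.coe_monomial,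
      coeff_truncTotal_eq_ite]
    split_ifs with hd
    · have e : monomial d (coeff d f) = C (coeff d f) * monomial d 1 := by
        rw [monomial_eq', monomial_one_eq]
      have a1 : (C (coeff d f) : MvPowerSeries σ S) ∈ psIdeal σ I ^ (k - d.degree) := by
        have := Ideal.mem_map_of_mem (C : S →+* MvPowerSeries σ S) (h d)
        rw [Ideal.map_pow] at this
        exact Ideal.pow_right_mono le_sup_left _ this
      have a2 : (monomial d 1 : MvPowerSeries σ S) ∈ psIdeal σ I ^ d.degree :=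
        Ideal.pow_right_mono le_sup_right _ (ev_monomial_mem d)
      have := Ideal.mul_mem_mul a1 a2
      rwa [← pow_add, Nat.sub_add_cancel hd.le, ← e] at this
    · simp
  simpa using add_mem h1 h2

omit [IsAdicComplete I S] in
theorem mem_psIdeal_radical (f : MvPowerSeries σ S) :
    f ∈ (psIdeal σ I).radical ↔ constantCoeff f ∈ I.radical := by
  constructor
  · rintro ⟨n, hn⟩
    refine ⟨n, ?_⟩
    simpa using (mem_psIdeal_pow I (f ^ n) 1).1 (by rwa [pow_one]) 0
  · rintro ⟨n, hn⟩
    have h1 : (C (constantCoeff f) : MvPowerSeries σ S) ∈ (psIdeal σ I).radical :=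
      ⟨n, by rw [← map_pow]; exact Ideal.mem_sup_left (Ideal.mem_map_of_mem _ hn)⟩
    have h2 : f - C (constantCoeff f) ∈ (psIdeal σ I).radical :=
      Ideal.le_radical (Ideal.mem_sup_right (ev_sub_C_mem f))
    simpa using add_mem h2 h1

instance isAdicComplete_psIdeal : IsAdicComplete (psIdeal σ I) (MvPowerSeries σ S) where
  haus' f hf := by
    ext d
    simp only [SModEq.zero, smul_eq_mul, Ideal.mul_top, mem_psIdeal_pow] at hf
    refine IsHausdorff.haus' (I := I) _ fun n => ?_
    rw [SModEq.zero, smul_eq_mul, Ideal.mul_top]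
    simpa using hf (n + d.degree) d
  prec' f hf := by
    simp only [SModEq.sub_mem, smul_eq_mul, Ideal.mul_top, mem_psIdeal_pow, map_sub] at hf ⊢
    have h1 : ∀ d : σ →₀ ℕ, ∃ L : S, ∀ n, coeff d (f (n + d.degree)) - L ∈ I ^ n := by
      intro d
      have := IsPrecomplete.prec' (I := I) (fun n => coeff d (f (n + d.degree))) fun {m n} hmn => by
        rw [SModEq.sub_mem, smul_eq_mul, Ideal.mul_top]
        simpa using hf (Nat.add_le_add_right hmn d.degree) d
      simpa only [SModEq.sub_mem, smul_eq_mul, Ideal.mul_top] using this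
    choose L hL using h1
    refine ⟨L, fun n d => ?_⟩
    have := add_mem (hf (show n ≤ n - d.degree + d.degree by omega) d) (hL d (n - d.degree))
    rw [sub_add_sub_cancel] at this
    exact this

/-- substitution is evaluation -/
theorem subst_eq_ev {b : σ → MvPowerSeries τ S} (hb : ∀ i, constantCoeff (b i) = 0)
    (f : MvPowerSeries σ S) : f.subst b = ev (psIdeal τ I) C b f := by
  have hs : HasSubst b := hasSubst_of_constantCoeff_zero hb
  have hr : ∀ i, b i ∈ (psIdeal τ I).radical := fun i =>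
    (mem_psIdeal_radical I _).2 (by rw [hb]; exact zero_mem _)
  have : (substAlgHom (R := S) hs).toRingHom = ev (psIdeal τ I) C b :=
    hom_ext (psIdeal τ I) (fun i => by simpa [subst_X hs] using hr i) (fun r => by simp [ev_C])
      fun i => by simp [ev_X _ _ hr, subst_X hs]
  simpa using RingHom.congr_fun this f

omit [Finite σ] in
theorem ev_X_dvd_of_rescale {a : σ → R} {s : σ} (ha : ∀ i, i ≠ s → a i = 1)
    {g : MvPowerSeries σ R} (h : rescale a g = 0) : X s ∣ g := by
  rw [X_dvd_iff]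
  intro m hm
  have := congrArg (coeff m) h
  rw [coeff_rescale, Finsupp.prod, Finset.prod_eq_one, one_mul] at this
  · exact this
  · intro i hi
    rw [ha i, one_pow]
    rintro rfl
    exact Finsupp.mem_support_iff.1 hi hm

end Ev

section Ev1
variable {R S T : Type} [CommRing R] [CommRing S] [CommRing T]
variable (I : Ideal S) [IsAdicComplete I S]

/-- value of a one-variable series with coefficients in `S` -/
def ev1 (x : S) : PowerSeries S →+* S := ev I (RingHom.id S) (fun _ : Unit => x)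

/-- `F(x, y)` -/
def ev2 (F : FormalGroup S) (x y : S) : S := ev I (RingHom.id S) ![x, y] F.toPowerSeries

theorem ev1_C (x r : S) : ev1 I x (PowerSeries.C r) = r := ev_C I _ _ r

theorem ev1_X {x : S} (hx : x ∈ I.radical) : ev1 I x PowerSeries.X = x :=
  ev_X I _ (fun _ => hx) ()

theorem ev1_mem {x : S} (hx : x ∈ I.radical) {f : PowerSeries S}
    (hf : PowerSeries.constantCoeff f = 0) : ev1 I x f ∈ I.radical :=
  ev_mem_radical I _ (fun _ => hx) (by
    change PowerSeries.constantCoeff f ∈ _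
    rw [hf]; exact zero_mem _)

theorem ev1_zero (f : PowerSeries S) : ev1 I 0 f = PowerSeries.constantCoeff f := by
  have := ev_sub_mem_span I (RingHom.id S) (a := fun _ : Unit => (0 : S)) (fun _ => zero_mem _) f
  rw [Set.range_const, Ideal.span_singleton_zero, Ideal.mem_bot, sub_eq_zero] at this
  exact this

omit [IsAdicComplete I S] in
theorem ev_pair_mem {x y : S} (hx : x ∈ I.radical) (hy : y ∈ I.radical) :
    ∀ i, (![x, y] : Fin 2 → S) i ∈ I.radical := fun i => by fin_cases i <;> simpa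

theorem ev2_mem (F : FormalGroup S) {x y : S} (hx : x ∈ I.radical) (hy : y ∈ I.radical) :
    ev2 I F x y ∈ I.radical :=
  ev_mem_radical I _ (ev_pair_mem I hx hy) (by rw [F.zero_constantCoeff]; exact zero_mem _)

theorem ev_psubst {σ : Type} [Finite σ] {a : σ → S} (ha : ∀ i, a i ∈ I.radical)
    {g : MvPowerSeries σ S} (hg : constantCoeff g = 0) (f : PowerSeries S) :
    ev I (RingHom.id S) a (PowerSeries.subst g f) = ev1 I (ev I (RingHom.id S) a g) f :=
  ev_subst I (RingHom.id S) ha (b := fun _ : Unit => g) (fun _ => hg) f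

theorem ev_fadd {σ : Type} [Finite σ] {a : σ → S} (ha : ∀ i, a i ∈ I.radical) (F : FormalGroup S)
    {f g : MvPowerSeries σ S} (hf : constantCoeff f = 0) (hg : constantCoeff g = 0) :
    ev I (RingHom.id S) a (fadd F f g) =
      ev2 I F (ev I (RingHom.id S) a f) (ev I (RingHom.id S) a g) := by
  rw [fadd, ev_subst I _ ha (fun i => by fin_cases i <;> simpa), ev2]
  congr 2
  funext i
  fin_cases i <;> rfl

theorem ev1_subst {x : S} (hx : x ∈ I.radical) {g : PowerSeries S}
    (hg : PowerSeries.constantCoeff g = 0) (f : PowerSeries S) :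
    ev1 I x (PowerSeries.subst g f) = ev1 I (ev1 I x g) f :=
  ev_psubst I (fun _ => hx) hg f

theorem ev1_hom {F G : FormalGroup S} {f : PowerSeries S} (h : IsFGHom F G f) {x y : S}
    (hx : x ∈ I.radical) (hy : y ∈ I.radical) :
    ev1 I (ev2 I F x y) f = ev2 I G (ev1 I x f) (ev1 I y f) := by
  have hp := ev_pair_mem I hx hy
  have h0 : ∀ i : Fin 2,
      constantCoeff (PowerSeries.subst (X i : MvPowerSeries (Fin 2) S) f) = 0 := fun i =>
    constantCoeff_subst_eq_zero (hasSubst_of_constantCoeff_zero fun _ => by simp)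
      (fun _ => by simp) h.1
  have := congrArg (ev I (RingHom.id S) ![x, y]) h.2
  rw [ev_psubst I hp F.zero_constantCoeff, ev_fadd I hp G (h0 0) (h0 1),
    ev_psubst I hp (by simp), ev_psubst I hp (by simp), ev_X I _ hp, ev_X I _ hp] at this
  exact this

theorem comp_ev1 (J : Ideal T) [IsAdicComplete J T] (ψ : S →+* T) {x : S} (hx : x ∈ I.radical)
    (hx' : ψ x ∈ J.radical) (f : PowerSeries S) :
    ψ (ev1 I x f) = ev1 J (ψ x) (PowerSeries.map ψ f) :=
  (comp_ev I J ψ (RingHom.id S) (a := fun _ : Unit => x) (fun _ => hx) (fun _ => hx') f).trans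
    (ev_map J (RingHom.id T) ψ (a := fun _ : Unit => ψ x) (fun _ => hx') f).symm

theorem comp_ev2 (J : Ideal T) [IsAdicComplete J T] (ψ : S →+* T) (F : FormalGroup S) {x y : S}
    (hx : x ∈ I.radical) (hy : y ∈ I.radical) (hx' : ψ x ∈ J.radical) (hy' : ψ y ∈ J.radical) :
    ψ (ev2 I F x y) = ev2 J (F.map ψ) (ψ x) (ψ y) := by
  have e : (fun i => ψ ((![x, y] : Fin 2 → S) i)) = ![ψ x, ψ y] := by
    funext i; fin_cases i <;> rfl
  rw [ev2, comp_ev I J ψ _ (ev_pair_mem I hx hy) (fun i => by fin_cases i <;> simpa), e]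
  exact (ev_map J (RingHom.id T) ψ (ev_pair_mem J hx' hy') _).symm

/-- `F(x, y) = x + y + x y c` -/
theorem ev2_eq (F : FormalGroup S) {x y : S} (hx : x ∈ I.radical) (hy : y ∈ I.radical) :
    ∃ c, ev2 I F x y = x + y + x * y * c := by
  have hp := ev_pair_mem I hx hy
  have hX : ∀ i : Fin 2, PowerSeries.HasSubst (X i : MvPowerSeries (Fin 2) S) := fun i =>
    PowerSeries.HasSubst.of_constantCoeff_zero (by simp)
  have h0 : X 0 ∣ F.toPowerSeries - X 0 - X 1 := by
    refine ev_X_dvd_of_rescale (a := ![0, 1]) (fun i hi => by fin_cases i <;> simp_all) ?_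
    have e : (![0, 1] : Fin 2 → S) • (X : Fin 2 → MvPowerSeries (Fin 2) S) = ![0, X 1] := by
      funext i; fin_cases i <;> simp
    simp only [map_sub, rescale_eq_subst, e, F.zero_add (hX 1), subst_X HasSubst.zero_X]
    simp
  have h1 : X 1 ∣ F.toPowerSeries - X 0 - X 1 := by
    refine ev_X_dvd_of_rescale (a := ![1, 0]) (fun i hi => by fin_cases i <;> simp_all) ?_
    have e : (![1, 0] : Fin 2 → S) • (X : Fin 2 → MvPowerSeries (Fin 2) S) = ![X 0, 0] := by
      funext i; fin_cases i <;> simp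
    simp only [map_sub, rescale_eq_subst, e, F.add_zero (hX 0), subst_X HasSubst.X_zero]
    simp
  obtain ⟨g, hg⟩ := h0
  obtain ⟨g', hg'⟩ : X 1 ∣ g := by
    rw [hg] at h1
    rw [X_dvd_iff] at h1 ⊢
    intro m hm
    have := h1 (Finsupp.single 0 1 + m) (by simp [hm])
    rwa [X_def, coeff_add_monomial_mul, one_mul] at this
  refine ⟨ev I (RingHom.id S) ![x, y] g', ?_⟩
  have := congrArg (ev I (RingHom.id S) ![x, y]) hg
  rw [hg', map_sub, map_sub, map_mul, map_mul, ev_X I _ hp, ev_X I _ hp] at this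
  simp only [Matrix.cons_val_zero, Matrix.cons_val_one] at this
  rw [ev2]
  linear_combination this

/-- `f(x) = f₀ + f₁ x + x ^ 2 c` -/
theorem ev1_eq (f : PowerSeries S) {x : S} (hx : x ∈ I.radical) :
    ∃ c, ev1 I x f = PowerSeries.constantCoeff f + PowerSeries.coeff 1 f * x + x ^ 2 * c := by
  obtain ⟨g, hg⟩ : PowerSeries.X ^ 2 ∣ f - PowerSeries.C (PowerSeries.constantCoeff f)
      - PowerSeries.C (PowerSeries.coeff 1 f) * PowerSeries.X := by
    rw [PowerSeries.X_pow_dvd_iff]
    intro m hm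
    interval_cases m <;> simp [PowerSeries.coeff_C]
  refine ⟨ev1 I x g, ?_⟩
  have := congrArg (ev1 I x) hg
  rw [map_sub, map_sub, map_mul, map_mul, map_pow, ev1_C, ev1_C, ev1_X I hx] at this
  linear_combination this

/-- `f(x) - f(y)` is divisible by `x - y` -/
theorem ev1_sub (f : PowerSeries S) {x y : S} (hx : x ∈ I.radical) (hy : y ∈ I.radical) :
    ∃ c, ev1 I x f - ev1 I y f = (x - y) * c := by
  have hp := ev_pair_mem I hy (sub_mem hx hy)
  obtain ⟨g, hg⟩ : X 1 ∣ PowerSeries.subst (X 0 + X 1 : MvPowerSeries (Fin 2) S) f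
      - PowerSeries.subst (X 0 : MvPowerSeries (Fin 2) S) f := by
    refine ev_X_dvd_of_rescale (a := ![1, 0]) (fun i hi => by fin_cases i <;> simp_all) ?_
    have e : (![1, 0] : Fin 2 → S) • (X : Fin 2 → MvPowerSeries (Fin 2) S) = ![X 0, 0] := by
      funext i; fin_cases i <;> simp
    rw [map_sub, rescale_eq_subst, rescale_eq_subst, e, PowerSeries.subst_def,
      PowerSeries.subst_def,
      subst_comp_subst_apply (hasSubst_of_constantCoeff_zero fun _ => by simp) HasSubst.X_zero,
      subst_comp_subst_apply (hasSubst_of_constantCoeff_zero fun _ => by simp) HasSubst.X_zero]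
    simp [subst_add HasSubst.X_zero, subst_X HasSubst.X_zero]
  refine ⟨ev I (RingHom.id S) ![y, x - y] g, ?_⟩
  have := congrArg (ev I (RingHom.id S) ![y, x - y]) hg
  rw [map_sub, map_mul, ev_psubst I hp (by simp), ev_psubst I hp (by simp), map_add,
    ev_X I _ hp, ev_X I _ hp] at this
  simpa using this

set_option linter.unusedVariables false in
/-- the points of `F` with values in the radical of `I` -/
@[nolint unusedArguments]
def Pt (F : FormalGroup S) : Type := {x : S // x ∈ I.radical}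

variable {I}

@[ext] theorem Pt.ext {F : FormalGroup S} {x y : Pt I F} (h : x.1 = y.1) : x = y := Subtype.ext h

instance (F : FormalGroup S) : Zero (Pt I F) := ⟨⟨0, zero_mem _⟩⟩

instance (F : FormalGroup S) : Add (Pt I F) := ⟨fun x y => ⟨ev2 I F x.1 y.1, ev2_mem I F x.2 y.2⟩⟩

instance (F : FormalGroup S) [F.IsComm] : Neg (Pt I F) :=
  ⟨fun x => ⟨ev1 I x.1 (exists_neg F).choose, ev1_mem I x.2 (exists_neg F).choose_spec.1.1⟩⟩

theorem Pt.zero_val (F : FormalGroup S) : (0 : Pt I F).1 = 0 := rfl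

theorem Pt.add_val {F : FormalGroup S} (x y : Pt I F) : (x + y).1 = ev2 I F x.1 y.1 := rfl

theorem ev2_assoc (F : FormalGroup S) {x y z : S} (hx : x ∈ I.radical) (hy : y ∈ I.radical)
    (hz : z ∈ I.radical) : ev2 I F (ev2 I F x y) z = ev2 I F x (ev2 I F y z) := by
  have hp : ∀ i, (![x, y, z] : Fin 3 → S) i ∈ I.radical := fun i => by fin_cases i <;> simpa
  have h0 : ∀ i j : Fin 3, constantCoeff (fadd F (X i : MvPowerSeries (Fin 3) S) (X j)) = 0 :=
    fun i j => constantCoeff_subst_eq_zero HasSubst.X_X (fun k => by fin_cases k <;> simp)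
      F.zero_constantCoeff
  have := congrArg (ev I (RingHom.id S) ![x, y, z]) F.assoc
  rw [ev_fadd I hp F (h0 0 1) (by simp), ev_fadd I hp F (by simp) (h0 1 2),
    ev_fadd I hp F (by simp) (by simp), ev_fadd I hp F (by simp) (by simp), ev_X I _ hp,
    ev_X I _ hp, ev_X I _ hp] at this
  exact this

theorem ev2_comm (F : FormalGroup S) [F.IsComm] {x y : S} (hx : x ∈ I.radical)
    (hy : y ∈ I.radical) : ev2 I F x y = ev2 I F y x := by
  have hp := ev_pair_mem I hx hy
  have := congrArg (ev I (RingHom.id S) ![x, y]) (FormalGroup.IsComm.comm (F := F))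
  rw [ev_fadd I hp F (by simp) (by simp), ev_X I _ hp, ev_X I _ hp] at this
  exact this

theorem ev2_zero_left (F : FormalGroup S) {x : S} (hx : x ∈ I.radical) : ev2 I F 0 x = x := by
  obtain ⟨c, hc⟩ := ev2_eq I F (zero_mem _) hx
  simpa using hc

theorem ev2_zero_right (F : FormalGroup S) {x : S} (hx : x ∈ I.radical) : ev2 I F x 0 = x := by
  obtain ⟨c, hc⟩ := ev2_eq I F hx (zero_mem _)
  simpa using hc

theorem ev1_fadd (F : FormalGroup S) {x : S} (hx : x ∈ I.radical) {f g : PowerSeries S}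
    (hf : PowerSeries.constantCoeff f = 0) (hg : PowerSeries.constantCoeff g = 0) :
    ev1 I x (fadd F f g) = ev2 I F (ev1 I x f) (ev1 I x g) :=
  ev_fadd I (a := fun _ : Unit => x) (fun _ => hx) F hf hg

instance (F : FormalGroup S) [F.IsComm] : AddCommGroup (Pt I F) where
  add_assoc x y z := Pt.ext (ev2_assoc F x.2 y.2 z.2)
  zero_add x := Pt.ext (ev2_zero_left F x.2)
  add_zero x := Pt.ext (ev2_zero_right F x.2)
  nsmul := nsmulRec
  zsmul := zsmulRec
  neg_add_cancel x := Pt.ext (by
    have h := (exists_neg F).choose_spec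
    have h1 := ev1_fadd F x.2 (f := PowerSeries.X) (by simp) h.1.1
    rw [h.2.2, map_zero, ev1_X I x.2] at h1
    exact (ev2_comm F (-x).2 x.2).trans h1.symm)
  add_comm x y := Pt.ext (ev2_comm F x.2 y.2)

theorem Pt.nsmul_val {F : FormalGroup S} [F.IsComm] (m : ℕ) (x : Pt I F) :
    (m • x).1 = ev1 I x.1 (mulSeries F m) := by
  induction m with
  | zero => rw [zero_nsmul, Pt.zero_val, mulSeries, map_zero]
  | succ m ih =>
    rw [succ_nsmul, Pt.add_val, ih, mulSeries,
      ev1_fadd F x.2 (constantCoeff_mulSeries F m) (by simp), ev1_X I x.2]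

/-- the map on points induced by a homomorphism -/
def Pt.map {F G : FormalGroup S} [F.IsComm] [G.IsComm] {f : PowerSeries S} (h : IsFGHom F G f) :
    Pt I F →+ Pt I G where
  toFun x := ⟨ev1 I x.1 f, ev1_mem I x.2 h.1⟩
  map_zero' := Pt.ext (by
    change ev1 I 0 f = 0
    rw [ev1_zero, h.1])
  map_add' x y := Pt.ext (ev1_hom I h x.2 y.2)

theorem Pt.map_val {F G : FormalGroup S} [F.IsComm] [G.IsComm] {f : PowerSeries S}
    (h : IsFGHom F G f) (x : Pt I F) : (Pt.map h x).1 = ev1 I x.1 f := rfl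

end Ev1

end Crest.Agent.R227
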