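import Crest.Agent.R227.LazOrd
import Crest.Agent.R227.Ev

/-! # Row 227: weighted bounds for the coefficients of approximate homomorphisms. -/

set_option autoImplicit false
set_option linter.unusedSectionVars false

open MvPowerSeries

noncomputable section
namespace Crest.Agent.R227

open Crest.LubinTate

variable {R : Type} [CommRing R]

/-- a multiplicative family of ideals -/
structure NAFam (J : ℕ → Ideal R) : Prop where
  zero : ∀ x, x ∈ J 0
  mul : ∀ i j x y, x ∈ J i → y ∈ J j → x * y ∈ J (i + j)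

/-- the terms `coeff M f * z ^ M`, `M < N`, lie in the family -/
def NABd (J : ℕ → Ideal R) (z : R) (N : ℕ) (f : PowerSeries R) : Prop :=
  ∀ M, M < N → PowerSeries.coeff M f * z ^ M ∈ J M

theorem na_finsum_mul {ι : Type} {I : Ideal R} {f : ι → R} {w : R} (h : ∀ i, f i * w ∈ I) :
    (∑ᶠ i, f i) * w ∈ I :=
  finsum_induction (fun x => x * w ∈ I) (by simp)
    (fun x y hx hy => by rw [add_mul]; exact add_mem hx hy) h

variable {J : ℕ → Ideal R} {z : R} {N : ℕ}

theorem NABd.one (hJ : NAFam J) : NABd J z N 1 := by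
  intro M _
  rcases M with _ | M
  · exact hJ.zero _
  · simp [PowerSeries.coeff_one]

theorem NABd.add {f g : PowerSeries R} (hf : NABd J z N f) (hg : NABd J z N g) :
    NABd J z N (f + g) := by
  intro M hM
  rw [map_add, add_mul]
  exact add_mem (hf M hM) (hg M hM)

theorem NABd.mul (hJ : NAFam J) {f g : PowerSeries R} (hf : NABd J z N f) (hg : NABd J z N g) :
    NABd J z N (f * g) := by
  intro M hM
  rw [PowerSeries.coeff_mul, Finset.sum_mul]
  refine sum_mem fun x hx => ?_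
  have h := Finset.HasAntidiagonal.mem_antidiagonal.1 hx
  have := hJ.mul _ _ _ _ (hf x.1 (by omega)) (hg x.2 (by omega))
  rw [h] at this
  convert this using 1
  rw [← h]
  ring

theorem NABd.pow (hJ : NAFam J) {f : PowerSeries R} (hf : NABd J z N f) (k : ℕ) :
    NABd J z N (f ^ k) := by
  induction k with
  | zero => rw [pow_zero]; exact NABd.one hJ
  | succ k ih => rw [pow_succ]; exact ih.mul hJ hf

theorem na_prod2 {τ : Type} (a b : MvPowerSeries τ R) (d : Fin 2 →₀ ℕ) :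
    (d.prod fun s e => (![a, b] : Fin 2 → MvPowerSeries τ R) s ^ e) = a ^ d 0 * b ^ d 1 := by
  rw [Finsupp.prod_fintype _ _ (fun _ => pow_zero _), Fin.prod_univ_two]
  rfl

theorem NABd.subst2 (hJ : NAFam J) {f g : PowerSeries R} (hf0 : PowerSeries.constantCoeff f = 0)
    (hg0 : PowerSeries.constantCoeff g = 0) (hf : NABd J z N f) (hg : NABd J z N g)
    (P : MvPowerSeries (Fin 2) R) : NABd J z N (P.subst ![f, g] : PowerSeries R) := by
  intro M hM
  rw [PowerSeries.coeff, coeff_subst (fg_hs2 hf0 hg0)]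
  refine na_finsum_mul fun d => ?_
  rw [na_prod2, smul_eq_mul, mul_assoc]
  exact Ideal.mul_mem_left _ _ (((hf.pow hJ _).mul hJ (hg.pow hJ _)) M hM)

/-- `F = X + Y + X Y G` -/
theorem na_law_eq (F : FormalGroup R) :
    ∃ G : MvPowerSeries (Fin 2) R, F.toPowerSeries = X 0 + X 1 + X 0 * (X 1 * G) := by
  have hX : ∀ i : Fin 2, PowerSeries.HasSubst (X i : MvPowerSeries (Fin 2) R) := fun i =>
    PowerSeries.HasSubst.of_constantCoeff_zero (by simp)
  have h0 : X 0 ∣ F.toPowerSeries - X 0 - X 1 := by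
    refine ev_X_dvd_of_rescale (a := ![0, 1]) (fun i hi => by fin_cases i <;> simp_all) ?_
    have e : (![0, 1] : Fin 2 → R) • (X : Fin 2 → MvPowerSeries (Fin 2) R) = ![0, X 1] := by
      funext i; fin_cases i <;> simp
    simp only [map_sub, rescale_eq_subst, e, F.zero_add (hX 1), subst_X HasSubst.zero_X]
    simp
  have h1 : X 1 ∣ F.toPowerSeries - X 0 - X 1 := by
    refine ev_X_dvd_of_rescale (a := ![1, 0]) (fun i hi => by fin_cases i <;> simp_all) ?_
    have e : (![1, 0] : Fin 2 → R) • (X : Fin 2 → MvPowerSeries (Fin 2) R) = ![X 0, 0] := by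
      funext i; fin_cases i <;> simp
    simp only [map_sub, rescale_eq_subst, e, F.add_zero (hX 0), subst_X HasSubst.X_zero]
    simp
  obtain ⟨g, hg⟩ := h0
  obtain ⟨g', hg'⟩ : X 1 ∣ g := by
    rw [hg] at h1
    rw [X_dvd_iff] at h1 ⊢
    intro m hm
    have := h1 (Finsupp.single 0 1 + m) (by simp [hm])
    rwa [X_def, coeff_add_monomial_mul, one_mul] at this
  exact ⟨g', by rw [← hg', ← hg]; ring⟩

/-- the nonlinear terms of `F(f, g)` are decomposable -/
theorem na_fadd (hJ : NAFam J) (F : FormalGroup R) {f g : PowerSeries R}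
    (hf0 : PowerSeries.constantCoeff f = 0) (hg0 : PowerSeries.constantCoeff g = 0)
    (hf : NABd J z (N + 1) f) (hg : NABd J z (N + 1) g) {L : Ideal R}
    (hL : ∀ i j x y, 1 ≤ i → 1 ≤ j → i + j = N → x ∈ J i → y ∈ J j → x * y ∈ L) :
    PowerSeries.coeff N ((fadd F f g : PowerSeries R) - f - g) * z ^ N ∈ L := by
  obtain ⟨G, hG⟩ := na_law_eq F
  have hs := fg_hs2 hf0 hg0
  have e : (fadd F f g : PowerSeries R) - f - g = f * (g * (G.subst ![f, g] : PowerSeries R)) := by
    rw [fadd, hG, subst_add hs, subst_add hs, subst_mul hs, subst_mul hs, subst_X hs, subst_X hs]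
    change (f + g + f * (g * (G.subst ![f, g] : PowerSeries R)) : PowerSeries R) - f - g = _
    ring
  have hc := hg.mul hJ (hf.subst2 hJ hf0 hg0 hg G)
  have hc0 : PowerSeries.coeff 0 (g * (G.subst ![f, g] : PowerSeries R)) = 0 := by
    rw [PowerSeries.coeff_zero_eq_constantCoeff_apply, map_mul, hg0, zero_mul]
  rw [e, PowerSeries.coeff_mul, Finset.sum_mul]
  refine sum_mem fun x hx => ?_
  have h := Finset.HasAntidiagonal.mem_antidiagonal.1 hx
  rcases Nat.eq_zero_or_pos x.1 with h1 | h1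
  · rw [h1, PowerSeries.coeff_zero_eq_constantCoeff_apply, hf0, zero_mul, zero_mul]
    exact zero_mem _
  rcases Nat.eq_zero_or_pos x.2 with h2 | h2
  · rw [h2, hc0, mul_zero, zero_mul]
    exact zero_mem _
  have := hL _ _ _ _ h1 h2 h (hf x.1 (by omega)) (hc x.2 (by omega))
  convert this using 1
  rw [← h]
  ring

theorem na_coeff_in (f g : PowerSeries R) (i j : ℕ) :
    coeff (e2 i j) (in0 f * in1 g) = PowerSeries.coeff i f * PowerSeries.coeff j g := by
  classical
  rw [MvPowerSeries.coeff_mul, Finset.sum_eq_single (Finsupp.single 0 i, Finsupp.single 1 j)]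
  · simp [PowerSeries.coeff_subst_single]
  · intro b hb hb'
    by_contra hne
    obtain ⟨h0, h1⟩ := ne_zero_and_ne_zero_of_mul hne
    simp only [PowerSeries.coeff_subst_single, ne_eq, ite_eq_right_iff, not_forall,
      exists_prop] at h0 h1
    apply hb'
    have hb2 := Finset.HasAntidiagonal.mem_antidiagonal.1 hb
    rw [h0.1, h1.1] at hb2
    obtain ⟨h2, h3⟩ := e2_inj.1 hb2
    rw [Prod.ext_iff, ← h2, ← h3]
    exact ⟨h0.1, h1.1⟩
  · intro he
    refine absurd (Finset.HasAntidiagonal.mem_antidiagonal.2 ?_) he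
    rw [e2]

theorem na_coeff_pow_self (G : FormalGroup R) (i j : ℕ) :
    coeff (e2 i j) (G.toPowerSeries ^ (i + j)) = ((i + j).choose i : ℕ) := by
  have h1 := lazI_pow_sub (r := 1) (lazI_fg_one G) (add_mem (lazI_X 0) (lazI_X 1)) (lazI_fg G) (i + j)
  have h2 := lazI_iff.1 h1 (e2 i j) (by rw [degree_e2]; omega)
  rw [map_sub, sub_eq_zero] at h2
  have h3 := PowerSeries.coeff_subst_X_zero_add_X_one (PowerSeries.X ^ (i + j) : PowerSeries R) (e2 i j)
  have hs : PowerSeries.HasSubst (X 0 + X 1 : MvPowerSeries (Fin 2) R) := fg_hs (by simp)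
  rw [e2_zero, e2_one, PowerSeries.coeff_X_pow_self, mul_one] at h3
  rw [h2, ← h3]
  congr 1
  rw [PowerSeries.subst_pow hs, PowerSeries.subst_X hs]

/-- the inductive step: a coefficient whose degree is not a power of `p` is controlled by the lower
ones -/
theorem na_step (hJ : NAFam J) {G F : FormalGroup R} {r : ℕ}
    (hdeg : ∀ M i j, coeff (e2 i j) (G.toPowerSeries ^ M) ≠ 0 → M ≡ i + j [MOD r])
    {β : PowerSeries R} (hβ0 : PowerSeries.constantCoeff β = 0) {L : Ideal R} {i j : ℕ}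
    (hi : 1 ≤ i) (hj : 1 ≤ j) (hu : IsUnit (((i + j).choose i : ℕ) : R))
    (hhom : coeff (e2 i j) (PowerSeries.subst G.toPowerSeries β - fadd F (in0 β) (in1 β)) ∈ L)
    (ih : NABd J z (i + j) β) (hL : ∀ x y, x ∈ J i → y ∈ J j → x * y ∈ L)
    (hL' : ∀ M, 1 ≤ M → M < i + j → M ≡ i + j [MOD r] →
      PowerSeries.coeff M β * z ^ (i + j) ∈ L) :
    PowerSeries.coeff (i + j) β * z ^ (i + j) ∈ L := by
  have x0 := constantCoeff_X (R := R) (0 : Fin 2)
  have x1 := constantCoeff_X (R := R) (1 : Fin 2)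
  have hG := fg_hs G.zero_constantCoeff
  have h1 : coeff (e2 i j) (fadd F (in0 β) (in1 β)) * z ^ (i + j) ∈ L := by
    rw [coeff_subst (fg_hs2 (fg_cc x0 hβ0) (fg_cc x1 hβ0))]
    refine na_finsum_mul fun d => ?_
    rw [na_prod2, smul_eq_mul, mul_assoc, ← PowerSeries.subst_pow (fg_hs x0),
      ← PowerSeries.subst_pow (fg_hs x1), na_coeff_in]
    refine Ideal.mul_mem_left _ _ ?_
    have := hL _ _ (ih.pow hJ (d 0) i (by omega)) (ih.pow hJ (d 1) j (by omega))
    convert this using 1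
    ring
  set b := PowerSeries.coeff (i + j) β with hb
  have h2 : coeff (e2 i j) (PowerSeries.subst G.toPowerSeries
      (β - b • PowerSeries.X ^ (i + j))) * z ^ (i + j) ∈ L := by
    rw [PowerSeries.coeff_subst hG]
    refine na_finsum_mul fun M => ?_
    rw [smul_eq_mul]
    by_cases h0 : coeff (e2 i j) (G.toPowerSeries ^ M) = 0
    · rw [h0, mul_zero, zero_mul]
      exact zero_mem _
    have h3 : M ≤ i + j := by
      by_contra h3
      exact h0 (lazI_iff.1 (lazI_pow (lazI_fg_one G) M) _ (by rw [degree_e2]; omega))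
    rw [mul_right_comm]
    refine Ideal.mul_mem_right _ _ ?_
    rw [map_sub, PowerSeries.coeff_smul, PowerSeries.coeff_X_pow]
    split_ifs with h4
    · rw [h4, smul_eq_mul, mul_one, sub_self, zero_mul]
      exact zero_mem _
    · rw [smul_zero, sub_zero]
      rcases Nat.eq_zero_or_pos M with h5 | h5
      · rw [h5, PowerSeries.coeff_zero_eq_constantCoeff_apply, hβ0, zero_mul]
        exact zero_mem _
      · exact hL' M h5 (by omega) (hdeg M i j h0)
  rw [PowerSeries.subst_sub hG, PowerSeries.subst_smul hG, PowerSeries.subst_pow hG,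
    PowerSeries.subst_X hG, map_sub, coeff_smul, na_coeff_pow_self] at h2
  rw [map_sub] at hhom
  have h3 := sub_mem (add_mem (Ideal.mul_mem_right (z ^ (i + j)) _ hhom) h1) h2
  rw [← Ideal.mul_unit_mem_iff_mem L hu]
  convert h3 using 1
  ring

/-- the bound for all coefficients from the bound for the coefficients of the powers of `p` -/
theorem na_ind (p : ℕ) [Fact p.Prime] [CharP R p] (hJ : NAFam J) {G F : FormalGroup R} {r : ℕ}
    (hdeg : ∀ M i j, coeff (e2 i j) (G.toPowerSeries ^ M) ≠ 0 → M ≡ i + j [MOD r])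
    {β : PowerSeries R} (hβ0 : PowerSeries.constantCoeff β = 0)
    (hper : ∀ M N, 1 ≤ M → M ≡ N [MOD r] → J M ≤ J N)
    (hhom : ∀ N d, coeff d (PowerSeries.subst G.toPowerSeries β - fadd F (in0 β) (in1 β)) ∈ J N)
    (hp : ∀ e, PowerSeries.coeff (p ^ e) β * z ^ p ^ e ∈ J (p ^ e)) (N : ℕ) :
    PowerSeries.coeff N β * z ^ N ∈ J N := by
  induction N using Nat.strong_induction_on with
  | _ N ih =>
  rcases Nat.eq_zero_or_pos N with rfl | hN
  · exact hJ.zero _
  by_cases h : ∀ i ∈ Finset.Icc 1 (N - 1), N.choose i ≡ 0 [MOD p]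
  · rw [Choose.eq_pow_multiplicity_of_choose_modEq_zero_nat hN h]
    exact hp _
  push Not at h
  obtain ⟨i, hi, hc⟩ := h
  rw [Finset.mem_Icc] at hi
  obtain ⟨j, rfl⟩ : ∃ j, N = i + j := ⟨N - i, by omega⟩
  refine na_step hJ hdeg hβ0 hi.1 (by omega)
    ((CharP.isUnit_natCast_iff (Fact.out : p.Prime)).2 fun h => hc (Nat.modEq_zero_iff_dvd.2 h))
    (hhom _ _) ih (hJ.mul i j) fun M h1 h2 h3 => ?_
  obtain ⟨k, hk⟩ : ∃ k, i + j = M + k := ⟨i + j - M, by omega⟩
  have := hper _ _ h1 h3 (Ideal.mul_mem_right (z ^ k) _ (ih M h2))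
  rwa [mul_assoc, ← pow_add, ← hk] at this

/-- the strict bound for the degrees which are not powers of `p` -/
theorem na_strict (p : ℕ) [Fact p.Prime] [CharP R p] (hJ : NAFam J) {G F : FormalGroup R} {r : ℕ}
    (hdeg : ∀ M i j, coeff (e2 i j) (G.toPowerSeries ^ M) ≠ 0 → M ≡ i + j [MOD r])
    {β : PowerSeries R} (hβ0 : PowerSeries.constantCoeff β = 0) {L : Ideal R}
    (hhom : ∀ d, coeff d (PowerSeries.subst G.toPowerSeries β - fadd F (in0 β) (in1 β)) ∈ L)
    (hall : ∀ N, PowerSeries.coeff N β * z ^ N ∈ J N) {N : ℕ} (hN : ∀ e, N ≠ p ^ e)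
    (hL : ∀ i j x y, 1 ≤ i → 1 ≤ j → i + j = N → x ∈ J i → y ∈ J j → x * y ∈ L)
    (hL' : ∀ M x, 1 ≤ M → M ≡ N [MOD r] → x ∈ J M → x * z ∈ L) :
    PowerSeries.coeff N β * z ^ N ∈ L := by
  rcases Nat.eq_zero_or_pos N with rfl | hN0
  · rw [PowerSeries.coeff_zero_eq_constantCoeff_apply, hβ0, zero_mul]
    exact zero_mem _
  by_cases h : ∀ i ∈ Finset.Icc 1 (N - 1), N.choose i ≡ 0 [MOD p]
  · exact absurd (Choose.eq_pow_multiplicity_of_choose_modEq_zero_nat hN0 h) (hN _)
  push Not at h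
  obtain ⟨i, hi, hc⟩ := h
  rw [Finset.mem_Icc] at hi
  obtain ⟨j, rfl⟩ : ∃ j, N = i + j := ⟨N - i, by omega⟩
  refine na_step hJ hdeg hβ0 hi.1 (by omega)
    ((CharP.isUnit_natCast_iff (Fact.out : p.Prime)).2 fun h => hc (Nat.modEq_zero_iff_dvd.2 h))
    (hhom _) (fun M _ => hall M) (fun x y => hL i j x y hi.1 (by omega) rfl) fun M h1 h2 h3 => ?_
  obtain ⟨k, hk⟩ : ∃ k, i + j = M + 1 + k := ⟨i + j - M - 1, by omega⟩
  have := Ideal.mul_mem_right (z ^ k) _ (hL' M _ h1 h3 (hall M))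
  rwa [mul_assoc, mul_assoc, ← pow_succ', ← pow_add, add_comm k 1, ← add_assoc, ← hk] at this

/-- scalar endomorphisms force the degrees of the monomials of the law -/
theorem na_deg {k : Type} [Field k] [Finite k] (Γ : FormalGroup k)
    (hsmul : ∀ a : k, IsFGHom Γ Γ (PowerSeries.C a * PowerSeries.X)) (M i j : ℕ)
    (h : coeff (e2 i j) (Γ.toPowerSeries ^ M) ≠ 0) : M ≡ i + j [MOD (Nat.card k - 1)] := by
  obtain ⟨g, hg⟩ := IsCyclic.exists_ofOrder_eq_natCard (α := kˣ)
  rw [Nat.card_units] at hg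
  rw [← hg, ← pow_eq_pow_iff_modEq]
  have e : ∀ {a : MvPowerSeries (Fin 2) k}, constantCoeff a = 0 →
      PowerSeries.subst a (PowerSeries.C (g : k) * PowerSeries.X : PowerSeries k) = (g : k) • a := by
    intro a ha
    rw [← PowerSeries.smul_eq_C_mul, PowerSeries.subst_smul (fg_hs ha), PowerSeries.subst_X (fg_hs ha)]
  have h1 := (hsmul g).2
  rw [e Γ.zero_constantCoeff, e (constantCoeff_X _), e (constantCoeff_X _)] at h1
  have e2' : ![(g : k) • (X 0 : MvPowerSeries (Fin 2) k), (g : k) • X 1] =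
      (fun _ : Fin 2 => (g : k)) • (X : Fin 2 → MvPowerSeries (Fin 2) k) := by
    funext s; fin_cases s <;> rfl
  rw [e2', ← rescale_eq_subst] at h1
  have h2 := congrArg (fun f => coeff (e2 i j) (f ^ M)) h1
  simp only [smul_pow, ← map_pow, coeff_rescale, coeff_smul] at h2
  rw [Finsupp.prod_fintype _ _ (fun _ => pow_zero _), Fin.prod_univ_two, e2_zero, e2_one,
    ← pow_add] at h2
  exact Units.ext (by simpa using mul_right_cancel₀ h h2)

theorem na_pow_modEq {p n : ℕ} (hp : 1 ≤ p) {a b : ℕ} (h : a ≡ b [MOD n]) :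
    p ^ a ≡ p ^ b [MOD (p ^ n - 1)] := by
  have key : ∀ a : ℕ, p ^ a ≡ p ^ (a % n) [MOD (p ^ n - 1)] := by
    intro a
    conv_lhs => rw [← Nat.mod_add_div a n, pow_add, pow_mul]
    have h1 : p ^ n ≡ 1 [MOD (p ^ n - 1)] :=
      ((Nat.modEq_iff_dvd' (Nat.one_le_pow _ _ hp)).2 dvd_rfl).symm
    have h2 := (h1.pow (a / n)).mul_left (p ^ (a % n))
    rwa [one_pow, mul_one] at h2
  refine (key a).trans ?_
  rw [h]
  exact (key b).symm

theorem na_pow_lt {p n : ℕ} (hp : 2 ≤ p) (hn : 2 ≤ n) {a : ℕ} (ha : a < n) : p ^ a < p ^ n - 1 := by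
  obtain ⟨k, rfl⟩ : ∃ k, n = k + 1 := ⟨n - 1, by omega⟩
  have h1 : p ^ a ≤ p ^ k := Nat.pow_le_pow_right (by omega) (by omega)
  have h2 : p ^ 1 ≤ p ^ k := Nat.pow_le_pow_right (by omega) (by omega)
  have h3 : p ^ k * 2 ≤ p ^ k * p := Nat.mul_le_mul_left _ hp
  rw [pow_one] at h2
  rw [pow_succ]
  omega

theorem na_modEq_of_pow {p n : ℕ} (hp : 2 ≤ p) (hn : 2 ≤ n) {a b : ℕ}
    (h : p ^ a ≡ p ^ b [MOD (p ^ n - 1)]) : a ≡ b [MOD n] := by
  have h1 := ((na_pow_modEq (by omega) (Nat.mod_modEq a n)).trans h).trans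
    (na_pow_modEq (p := p) (by omega) (Nat.mod_modEq b n)).symm
  have h2 := Nat.ModEq.eq_of_lt_of_lt h1 (na_pow_lt hp hn (Nat.mod_lt _ (by omega)))
    (na_pow_lt hp hn (Nat.mod_lt _ (by omega)))
  exact Nat.pow_right_injective hp h2

end Crest.Agent.R227
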