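import Crest.Agent.R227.Perf
import Crest.Agent.R227.NewtonAAux

/-! # Row 227: leading terms of a relation `∑ β_j (a y_j^(p^R)) = 0`. -/

set_option autoImplicit false
set_option linter.unusedSectionVars false

open MvPowerSeries Filter Topology

noncomputable section
namespace Crest.Agent.R227

open Crest.LubinTate

variable {K : Type} [NontriviallyNormedField K] [IsUltrametricDist K] [CompleteSpace K]
  [IsAlgClosed K] {p : ℕ} [Fact p.Prime] [CharP K p] {n m : ℕ}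

/-- the formal sum of finitely many bounded series -/
theorem na_sum {S ι : Type} [CommRing S] (I : Ideal S) [IsAdicComplete I S] {J : ℕ → Ideal S}
    (hJ : NAFam J) (F : FormalGroup S) [F.IsComm] {z : S} (f : ι → PowerSeries S)
    (hf0 : ∀ l, PowerSeries.constantCoeff (f l) = 0)
    (hf : ∀ l N, PowerSeries.coeff N (f l) * z ^ N ∈ J N) {L : Ideal S} {D : ℕ → Prop}
    (hL : ∀ N, D N → ∀ i j x y, 1 ≤ i → 1 ≤ j → i + j = N → x ∈ J i → y ∈ J j → x * y ∈ L)
    (s : Finset ι) : ∃ A : PowerSeries S, PowerSeries.constantCoeff A = 0 ∧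
      (∀ N, PowerSeries.coeff N A * z ^ N ∈ J N) ∧
      (∀ N, D N → PowerSeries.coeff N A * z ^ N -
        ∑ l ∈ s, PowerSeries.coeff N (f l) * z ^ N ∈ L) ∧
      ∀ w ∈ I.radical, ∀ x : ι → Pt I F, (∀ l, (x l).1 = ev1 I w (f l)) →
        (∑ l ∈ s, x l).1 = ev1 I w A := by
  classical
  induction s using Finset.induction_on with
  | empty => exact ⟨0, map_zero _, by simp, by simp, fun w _ x _ => by simp [Pt.zero_val]⟩
  | insert a s ha ih =>
    obtain ⟨A, hA0, hA1, hA2, hA3⟩ := ih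
    refine ⟨fadd F (f a) A, constantCoeff_fadd F (hf0 a) hA0, fun N => ?_, fun N hN => ?_,
      fun w hw x hx => ?_⟩
    · exact NABd.subst2 (N := N + 1) hJ (hf0 a) hA0 (fun M _ => hf a M) (fun M _ => hA1 M) _ N
        (Nat.lt_succ_self N)
    · have h1 := na_fadd hJ F (hf0 a) hA0 (fun M _ => hf a M) (fun M _ => hA1 M) (hL N hN)
      rw [map_sub, map_sub] at h1
      rw [Finset.sum_insert ha]
      convert add_mem h1 (hA2 N hN) using 1
      ring
    · rw [Finset.sum_insert ha, Pt.add_val, hx, hA3 w hw x hx, ev1_fadd F hw (hf0 a) hA0]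

/-- the ideal attached to a lower set of norms -/
def naI (K : Type) [NontriviallyNormedField K] [IsUltrametricDist K] (L : ℝ → Prop)
    (hL : ∀ r s, L r → s ≤ r → L s) (h0 : L 0) : Ideal (OO K) where
  carrier := {x | L ‖x‖}
  add_mem' {a b} ha hb := by
    rcases le_total ‖a‖ ‖b‖ with h | h
    · exact hL _ _ hb ((OO_norm_add_le K a b).trans (max_le h le_rfl))
    · exact hL _ _ ha ((OO_norm_add_le K a b).trans (max_le le_rfl h))
  zero_mem' := by simpa using h0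
  smul_mem' c x hx := by
    refine hL _ _ hx ?_
    rw [smul_eq_mul, norm_mul]
    exact mul_le_of_le_one_left (norm_nonneg _) (OO.norm_le_one K c)

/-- the open ball -/
def naLt (K : Type) [NontriviallyNormedField K] [IsUltrametricDist K] {ν : ℝ} (hν : 0 < ν) :
    Ideal (OO K) := naI K (fun r => r < ν) (fun _ _ h h' => h'.trans_lt h) hν

theorem mem_naLt {ν : ℝ} (hν : 0 < ν) (x : OO K) : x ∈ naLt K hν ↔ ‖x‖ < ν := Iff.rfl

theorem na_hasSum {ι : Type} {f : ι → OO K} {V : OO K} (h : HasSum f V) {ν : ℝ} (hν : 0 < ν)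
    (hf : ∀ i, f i ∈ naLt K hν) : V ∈ naLt K hν := by
  obtain ⟨s, hs⟩ := (Metric.tendsto_nhds.1 h ν hν).exists
  rw [dist_comm, dist_eq_norm] at hs
  have := add_mem ((mem_naLt hν _).2 hs) (sum_mem fun i (_ : i ∈ s) => hf i)
  rwa [sub_add_cancel] at this

/-- the exactly periodic family close to an almost periodic one -/
theorem na_gamma {h : ℕ} (hh : 1 ≤ h) {ε : ℝ} (hε0 : 0 ≤ ε) (hε : ε < 1) (g : ℤ → OO K)
    (hg : ∀ e, ‖g (e + m) ^ p ^ h - g e‖ ≤ ε) :
    ∃ γ : ℤ → OO K, (∀ e, γ (e - m) = γ e ^ p ^ h) ∧ ∀ e, ‖γ e - g e‖ ≤ ε := by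
  have hp : 1 < p := (Fact.out : p.Prime).one_lt
  set u : ℤ → ℕ → OO K := fun e k => g (e + m * k) ^ p ^ (h * k) with hu
  have h1 : ∀ e k, ‖u e (k + 1) - u e k‖ ≤ ε ^ p ^ (h * k) := by
    intro e k
    have e1 : u e (k + 1) = (g (e + m * k + m) ^ p ^ h) ^ p ^ (h * k) := by
      simp only [hu]
      rw [← pow_mul, ← pow_add]
      congr 2
      · push_cast; ring
      · ring
    rw [e1, ← sub_pow_char_pow, norm_pow]
    exact pow_le_pow_left₀ (norm_nonneg _) (hg _) _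
  have h2 : ∀ e, CauchySeq (u e) := by
    intro e
    refine cauchySeq_of_le_geometric ε 1 hε fun k => ?_
    rw [dist_comm, dist_eq_norm, one_mul]
    refine (h1 e k).trans (pow_le_pow_of_le_one hε0 hε.le ?_)
    exact (Nat.le_mul_of_pos_left k hh).trans (Nat.lt_pow_self hp).le
  choose γ hγ using fun e => cauchySeq_tendsto_of_complete (h2 e)
  refine ⟨γ, fun e => ?_, fun e => ?_⟩
  · refine tendsto_nhds_unique ((tendsto_add_atTop_iff_nat 1).2 (hγ (e - m))) ?_
    convert (hγ e).pow (p ^ h) using 2 with k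
    simp only [hu]
    rw [← pow_mul, ← pow_add]
    congr 2
    push_cast; ring
  · have h3 : ∀ k, ‖u e k - g e‖ ≤ ε := by
      intro k
      induction k with
      | zero => simpa [hu] using hε0
      | succ k ih =>
        rw [← sub_add_sub_cancel _ (u e k)]
        refine (OO_norm_add_le K _ _).trans (max_le ((h1 e k).trans ?_) ih)
        exact pow_le_of_le_one hε0 hε.le (by positivity)
    exact le_of_tendsto' ((hγ e).sub_const (g e)).norm h3

theorem na_real {ν lam : ℝ} {P r k s : ℕ} (hν0 : 0 < ν) (hν : ν < 1) (hl0 : 0 ≤ lam)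
    (hl : lam ^ P < ν) (hP : P < r) (h : k * P + s ≡ P [MOD r]) :
    ν ^ k * lam ^ s ≤ ν ∧ (2 ≤ k + s → ν ^ k * lam ^ s < ν) := by
  have hl1 : lam < 1 := by
    by_contra h1
    exact absurd (hl.trans hν) (one_le_pow₀ (not_lt.1 h1)).not_gt
  rcases k with _ | k
  · rw [zero_mul, zero_add] at h
    have h1 : P ≤ s := by
      by_contra h1
      have := h.eq_of_lt_of_lt (by omega) hP
      omega
    have h2 : ν ^ 0 * lam ^ s < ν := by
      rw [pow_zero, one_mul]
      exact (pow_le_pow_of_le_one hl0 hl1.le h1).trans_lt hl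
    exact ⟨h2.le, fun _ => h2⟩
  · have h1 : ν ^ k ≤ 1 := pow_le_one₀ hν0.le hν.le
    have h2 : lam ^ s ≤ 1 := pow_le_one₀ hl0 hl1.le
    have h3 : 0 ≤ ν ^ k := by positivity
    have h4 : 0 ≤ lam ^ s := by positivity
    rw [pow_succ', mul_assoc]
    refine ⟨mul_le_of_le_one_right hν0.le (mul_le_one₀ h1 h4 h2), fun h5 => ?_⟩
    refine mul_lt_of_lt_one_right hν0 ?_
    rcases Nat.eq_zero_or_pos k with h6 | h6
    · exact mul_lt_one_of_nonneg_of_lt_one_right h1 h4 (pow_lt_one₀ hl0 hl1 (by omega))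
    · exact mul_lt_one_of_nonneg_of_lt_one_left h3 (pow_lt_one₀ hν0.le hν (by omega)) h2

theorem na_card (hn : n ≠ 0) : Nat.card (kk p n) = p ^ n := GaloisField.card p n hn

theorem na_deg_map (hn : n ≠ 0) (Γ : FormalGroup (kk p n))
    (hsmul : ∀ a : kk p n, IsFGHom Γ Γ (PowerSeries.C a * PowerSeries.X)) (j : kk p n →+* OO K)
    (M a b : ℕ) (h : coeff (e2 a b) ((Γ.map j).toPowerSeries ^ M) ≠ 0) :
    M ≡ a + b [MOD (p ^ n - 1)] := by
  rw [← na_card hn]
  refine na_deg Γ hsmul M a b fun h0 => h ?_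
  change coeff (e2 a b) (MvPowerSeries.map j Γ.toPowerSeries ^ M) = 0
  rw [← map_pow, coeff_map, h0, map_zero]

/-- cancellation of the leading terms when they are larger than the error -/
theorem na_core (hn : 2 ≤ n) (Γ : FormalGroup (kk p n))
    (hsmul : ∀ a : kk p n, IsFGHom Γ Γ (PowerSeries.C a * PowerSeries.X))
    (j : kk p n →+* OO K) (Γh : FormalGroup (OO K)) [Γh.IsComm] {ε : ℝ} (hε0 : 0 ≤ ε)
    (β : Fin m → PowerSeries (OO K)) (hβ0 : ∀ l, PowerSeries.constantCoeff (β l) = 0)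
    (hhom : ∀ l d, ‖coeff d (PowerSeries.subst (Γ.map j).toPowerSeries (β l) -
      fadd Γh (in0 (β l)) (in1 (β l)))‖ ≤ ε)
    (z : Fin m → OO K) (hz : ∀ l, ‖z l‖ < 1)
    (hrel : ∀ (a : kk p n) (x : Fin m → Pt (IO K) Γh),
      (∀ l, (x l).1 = ev1 (IO K) (j a * z l) (β l)) → ‖(∑ l, x l).1‖ ≤ ε)
    (T : Fin m → ℕ → OO K)
    (hT : ∀ l e, ‖T l e - PowerSeries.coeff (p ^ e) (β l) * z l ^ p ^ e‖ ≤ ε)
    {e₀ : ℕ} (he₀ : e₀ < n) {ν lam : ℝ} (hεν : ε < ν) (hν : ν < 1) (hl0 : 0 ≤ lam)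
    (hl : lam ^ p ^ (n - 1) < ν) (h1 : ∀ l e, e ≡ e₀ [MOD n] → ‖T l e‖ ≤ ν)
    (h2 : ∀ l e u, 1 ≤ u → u < n → e + u ≡ e₀ [MOD n] → ‖T l e‖ ≤ lam ^ p ^ (n - 1 - u))
    (𝒢 : Finset (Fin m × ℕ)) (h𝒢 : ∀ l e, (l, e) ∈ 𝒢 ↔ e ≡ e₀ [MOD n] ∧ ‖T l e‖ = ν) :
    ‖∑ x ∈ 𝒢, T x.1 x.2‖ < ν := by
  classical
  have hp : 2 ≤ p := (Fact.out : p.Prime).two_le
  have hν0 : 0 < ν := hε0.trans_lt hεν
  set r : ℕ := p ^ n - 1 with hr
  set P : ℕ := p ^ (n - 1) with hP
  set c : ℕ := p ^ (n - 1 - e₀) with hc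
  set E : ℕ := p ^ e₀ with hE
  have hPr : P < r := na_pow_lt hp hn (by omega)
  have hcE : c * E = P := by
    rw [hc, hE, hP, ← pow_add]
    congr 1
    omega
  obtain ⟨J, hJmem⟩ : ∃ J : ℕ → Ideal (OO K), ∀ N x, x ∈ J N ↔ (‖x‖ ≤ ε ∨ ∃ k s : ℕ,
      min N 1 ≤ k + s ∧ k * P + s ≡ c * N [MOD r] ∧ ‖x‖ ≤ ν ^ k * lam ^ s) := by
    refine ⟨fun N => naI K (fun t => t ≤ ε ∨ ∃ k s : ℕ,
      min N 1 ≤ k + s ∧ k * P + s ≡ c * N [MOD r] ∧ t ≤ ν ^ k * lam ^ s) ?_ (Or.inl hε0),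
      fun N x => Iff.rfl⟩
    rintro t t' (h | ⟨k, s, h3, h4, h5⟩) h'
    · exact Or.inl (h'.trans h)
    · exact Or.inr ⟨k, s, h3, h4, h'.trans h5⟩
  have hmul : ∀ i j x y, x ∈ J i → y ∈ J j → ‖x * y‖ ≤ ε ∨ ∃ k s : ℕ,
      min i 1 + min j 1 ≤ k + s ∧ k * P + s ≡ c * (i + j) [MOD r] ∧ ‖x * y‖ ≤ ν ^ k * lam ^ s := by
    intro i j x y hx hy
    rw [norm_mul]
    rcases (hJmem _ _).1 hx with hx | ⟨k, s, h3, h4, h5⟩
    · exact Or.inl ((mul_le_of_le_one_right (norm_nonneg _) (OO.norm_le_one K y)).trans hx)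
    rcases (hJmem _ _).1 hy with hy | ⟨k', s', h3', h4', h5'⟩
    · exact Or.inl ((mul_le_of_le_one_left (norm_nonneg _) (OO.norm_le_one K x)).trans hy)
    refine Or.inr ⟨k + k', s + s', by omega, ?_, ?_⟩
    · convert h4.add h4' using 1 <;> ring
    · refine (mul_le_mul h5 h5' (norm_nonneg _) (by positivity)).trans_eq ?_
      ring
  have hJ : NAFam J := by
    refine ⟨fun x => (hJmem _ _).2 (Or.inr ⟨0, 0, by simp, by simp [Nat.ModEq], ?_⟩),
      fun i j x y hx hy => (hJmem _ _).2 ?_⟩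
    · simpa using OO.norm_le_one K x
    · rcases hmul i j x y hx hy with h | ⟨k, s, h3, h4, h5⟩
      · exact Or.inl h
      · exact Or.inr ⟨k, s, by omega, h4, h5⟩
  have hper : ∀ M N, 1 ≤ M → M ≡ N [MOD r] → J M ≤ J N := by
    intro M N hM hMN x hx
    rcases (hJmem _ _).1 hx with h | ⟨k, s, h3, h4, h5⟩
    · exact (hJmem _ _).2 (Or.inl h)
    · exact (hJmem _ _).2 (Or.inr ⟨k, s, by omega, h4.trans (hMN.mul_left c), h5⟩)
  have hdec : ∀ N, N ≡ E [MOD r] → ∀ i j x y, 1 ≤ i → 1 ≤ j → i + j = N → x ∈ J i → y ∈ J j →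
      x * y ∈ naLt K hν0 := by
    intro N hN i j x y hi hj hij hx hy
    rcases hmul i j x y hx hy with h | ⟨k, s, h3, h4, h5⟩
    · exact h.trans_lt hεν
    · rw [hij] at h4
      exact h5.trans_lt ((na_real hν0 hν hl0 hl hPr
        (hcE ▸ h4.trans (hN.mul_left c))).2 (by omega))
  have htop : ∀ M x, M ≡ E [MOD r] → x ∈ J M → ‖x‖ ≤ ν := by
    intro M x hM hx
    rcases (hJmem _ _).1 hx with h | ⟨k, s, -, h4, h5⟩
    · exact h.trans hεν.le
    · exact h5.trans (na_real hν0 hν hl0 hl hPr (hcE ▸ h4.trans (hM.mul_left c))).1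
  have hTJ : ∀ l e, T l e ∈ J (p ^ e) := by
    intro l e
    obtain ⟨u, hu, hue⟩ : ∃ u, u < n ∧ e + u ≡ e₀ [MOD n] := by
      have h3 : e % n < n := Nat.mod_lt _ (by omega)
      refine ⟨(e₀ + (n - e % n)) % n, Nat.mod_lt _ (by omega), ?_⟩
      refine ((Nat.mod_modEq e n).symm.add (Nat.mod_modEq _ n)).trans ?_
      rw [show e % n + (e₀ + (n - e % n)) = e₀ + n by omega]
      simp [Nat.ModEq]
    have h3 : p ^ (n - 1 - u) ≡ c * p ^ e [MOD r] := by
      rw [hc, ← pow_add]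
      refine na_pow_modEq (by omega) (Nat.ModEq.add_right_cancel' u ?_)
      rw [show n - 1 - u + u = n - 1 - e₀ + e₀ by omega, add_assoc]
      exact hue.symm.add_left _
    refine (hJmem _ _).2 (Or.inr ?_)
    rcases Nat.eq_zero_or_pos u with rfl | hu0
    · exact ⟨1, 0, by omega, by simpa using h3, by simpa using h1 l e hue⟩
    · refine ⟨0, p ^ (n - 1 - u), ?_, by simpa using h3, by simpa using h2 l e u hu0 hu hue⟩
      have : 1 ≤ p ^ (n - 1 - u) := Nat.one_le_pow _ _ (by omega)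
      omega
  have hdeg := na_deg_map (by omega) Γ hsmul j
  have hall : ∀ l N, PowerSeries.coeff N (β l) * z l ^ N ∈ J N := fun l =>
    na_ind p hJ hdeg (hβ0 l) hper (fun N d => (hJmem _ _).2 (Or.inl (hhom l d))) fun e => by
      have := sub_mem (hTJ l e) ((hJmem _ _).2 (Or.inl (hT l e)))
      rwa [sub_sub_cancel] at this
  have hstrict : ∀ l N, N ≡ E [MOD r] → (∀ e, N ≠ p ^ e) →
      PowerSeries.coeff N (β l) * z l ^ N ∈ naLt K hν0 := fun l N hN hN' =>
    na_strict p hJ hdeg (hβ0 l) (fun d => (hhom l d).trans_lt hεν) (hall l) hN' (hdec N hN)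
      fun M x _ hM hx => by
        rw [mem_naLt, norm_mul]
        exact (mul_le_mul_of_nonneg_right (htop M x (hM.trans hN) hx) (norm_nonneg _)).trans_lt
          (mul_lt_of_lt_one_right hν0 (hz l))
  obtain ⟨ϖ, hϖ, hϖz⟩ : ∃ ϖ : OO K, ‖ϖ‖ < 1 ∧ ∀ l, ‖z l‖ ≤ ‖ϖ‖ := by
    obtain ⟨i, hi⟩ := Finite.exists_max fun i : Option (Fin m) => ‖(i.elim 0 z : OO K)‖
    refine ⟨i.elim 0 z, ?_, fun l => hi (some l)⟩
    rcases i with _ | i
    · simp
    · exact hz i
  choose z' hz' using fun l => Ideal.mem_span_singleton'.1 ((OO_mem_span_iff K ϖ (z l)).2 (hϖz l))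
  have hco : ∀ l N, PowerSeries.coeff N (PowerSeries.rescale (z' l) (β l)) * ϖ ^ N =
      PowerSeries.coeff N (β l) * z l ^ N := by
    intro l N
    rw [PowerSeries.coeff_rescale, ← hz' l]
    ring
  have hre0 : ∀ l, PowerSeries.constantCoeff (PowerSeries.rescale (z' l) (β l)) = 0 := by
    intro l
    rw [← PowerSeries.coeff_zero_eq_constantCoeff_apply, PowerSeries.coeff_rescale,
      PowerSeries.coeff_zero_eq_constantCoeff_apply, hβ0, mul_zero]
  obtain ⟨A, -, -, hA2, hA3⟩ := na_sum (IO K) hJ Γh (z := ϖ)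
    (fun l => PowerSeries.rescale (z' l) (β l)) hre0 (fun l N => by rw [hco]; exact hall l N)
    hdec Finset.univ
  simp only [hco] at hA2
  have hw : ∀ a : kk p n, ‖j a * ϖ‖ < 1 := fun a => by
    rw [mul_comm]; exact OO_norm_mul_lt_left K hϖ _
  have hev : ∀ a : kk p n, ‖ev1 (IO K) (j a * ϖ) A‖ ≤ ε := by
    intro a
    have hw' := (mem_IO_radical K _).2 (hw a)
    rw [← hA3 _ hw' (fun l => ⟨_, ev1_mem (IO K) hw' (hre0 l)⟩) fun l => rfl]
    refine hrel a _ fun l => ?_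
    have hw2 : ‖j a * z l‖ < 1 := by
      rw [mul_comm]; exact OO_norm_mul_lt_left K (hz l) _
    refine (hasSum_ev1 (hw a) _).unique ?_
    convert hasSum_ev1 hw2 (β l) using 2 with N
    rw [mul_pow, mul_pow, mul_left_comm, hco, mul_left_comm]
  let _ : Fintype (kk p n) := Fintype.ofFinite _
  have hcard : Fintype.card (kk p n) - 1 = r := by
    rw [← Nat.card_eq_fintype_card, na_card (by omega)]
  have hS1 : HasSum (fun N => if N ≡ E [MOD r] then -(PowerSeries.coeff N A * ϖ ^ N) else 0)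
      (∑ a : (kk p n)ˣ, j a ^ ((r - 1) * E) * ev1 (IO K) (j a * ϖ) A) := by
    refine (hasSum_sum fun (a : (kk p n)ˣ) (_ : a ∈ Finset.univ) =>
      (hasSum_ev1 (hw a) A).mul_left (j a ^ ((r - 1) * E))).congr_fun fun N => ?_
    have e1 : ∀ a : (kk p n)ˣ, j a ^ ((r - 1) * E) * (PowerSeries.coeff N A * (j a * ϖ) ^ N) =
        j ((a : kk p n) ^ (N + (r - 1) * E)) * (PowerSeries.coeff N A * ϖ ^ N) := by
      intro a
      rw [map_pow]
      ring
    have e2' : N ≡ E [MOD r] ↔ r ∣ N + (r - 1) * E := by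
      have e3 : E + (r - 1) * E = r * E := by
        obtain ⟨r', hr'⟩ : ∃ r', r = r' + 1 := ⟨r - 1, by omega⟩
        rw [hr', Nat.add_sub_cancel]
        ring
      have e4 : E + (r - 1) * E ≡ 0 [MOD r] := by
        rw [e3]
        exact Nat.modEq_zero_iff_dvd.2 (dvd_mul_right _ _)
      rw [← Nat.modEq_zero_iff_dvd]
      exact ⟨fun h => (h.add_right _).trans e4,
        fun h => Nat.ModEq.add_right_cancel' _ (h.trans e4.symm)⟩
    rw [Finset.sum_congr rfl fun a _ => e1 a, ← Finset.sum_mul, ← map_sum,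
      FiniteField.sum_pow_units, hcard, if_congr e2' rfl rfl]
    split_ifs <;> simp
  have hS2 : HasSum (fun N => ∑ l, ∑ x ∈ 𝒢, if N = p ^ x.2 then (if x.1 = l then T x.1 x.2 else 0) else 0)
      (∑ x ∈ 𝒢, T x.1 x.2) := by
    convert hasSum_sum fun l (_ : l ∈ Finset.univ) => hasSum_sum fun x (_ : x ∈ 𝒢) =>
      hasSum_ite_eq (p ^ x.2) (if x.1 = l then T x.1 x.2 else 0) using 1
    rw [Finset.sum_comm]
    simp
  have hV : ∑ a : (kk p n)ˣ, j a ^ ((r - 1) * E) * ev1 (IO K) (j a * ϖ) A ∈ naLt K hν0 :=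
    sum_mem fun a _ => Ideal.mul_mem_left _ _ ((hev a).trans_lt hεν)
  have hS3 := na_hasSum (hS1.add hS2) hν0 fun N => by
    split_ifs with hN
    · have h3 : ∀ l, (∑ x ∈ 𝒢, if N = p ^ x.2 then (if x.1 = l then T x.1 x.2 else 0) else 0) -
          PowerSeries.coeff N (β l) * z l ^ N ∈ naLt K hν0 := by
        intro l
        by_cases h4 : ∃ e, N = p ^ e
        · obtain ⟨e, rfl⟩ := h4
          have h5 : e ≡ e₀ [MOD n] := na_modEq_of_pow hp hn hN
          have h6 : ∀ x : Fin m × ℕ, (if p ^ e = p ^ x.2 then (if x.1 = l then T x.1 x.2 else 0) else 0) =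
              if x = (l, e) then T x.1 x.2 else 0 := by
            rintro ⟨l', e'⟩
            simp only [(Nat.pow_right_injective hp).eq_iff, Prod.mk.injEq, ← ite_and, and_comm,
              eq_comm]
          rw [Finset.sum_congr rfl fun x _ => h6 x, Finset.sum_ite_eq']
          have h7 : T l e - PowerSeries.coeff (p ^ e) (β l) * z l ^ p ^ e ∈ naLt K hν0 :=
            (hT l e).trans_lt hεν
          split_ifs with h8
          · exact h7
          · have h9 : T l e ∈ naLt K hν0 :=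
              lt_of_le_of_ne (h1 l e h5) fun h9 => h8 ((h𝒢 l e).2 ⟨h5, h9⟩)
            convert sub_mem h7 h9 using 1
            ring
        · push Not at h4
          rw [Finset.sum_eq_zero fun x _ => if_neg (h4 _), zero_sub]
          exact neg_mem (hstrict l N hN h4)
      have h4 := sub_mem (sum_mem fun l (_ : l ∈ Finset.univ) => h3 l) (hA2 N hN)
      rw [Finset.sum_sub_distrib] at h4
      convert h4 using 1
      ring
    · rw [zero_add, Finset.sum_eq_zero fun l _ => Finset.sum_eq_zero fun x hx => if_neg ?_]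
      · exact zero_mem _
      · rintro rfl
        exact hN (na_pow_modEq (by omega) ((h𝒢 x.1 x.2).1 hx).1)
  have := sub_mem hS3 hV
  rwa [add_sub_cancel_left] at this

/-- Plan (`q = p^n`, `Q = p^h`, `wt = -log ‖·‖`).  `g l e = coeff (p^e) (β l)` (`0` for `e < 0`) satisfies
`g l (e+m)^Q ≡ g l e mod ε` (`hper`); `γ l e = lim_k g l (e + m k)^(Q^k)`, `γ ≡ g mod ε`.
If all `g l e ≡ 0 mod ε` then `β l ≡ 0 mod ε` (induction below), so `γ ≠ 0`.
`LeadCancel`: the shift `(R, e) ↦ (R - n k, e + m k)` takes `Q^k`-th roots of all terms, so assume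
`ε < ν` and `θ ν ≥ ν²`.  Put `w = wt ν`, `δ = wt θ ≤ w`, `P = p^(n-1)`,
`Φ(N) = (w + δ) N / P - δ ⌊N / P⌋` (subadditive), fix `c` = a power of `p` with `c p^(e₀ mod n) ≡ P mod (q-1)`,
and say that `x` is `N`-bounded if `‖x‖ ≤ ε` or `wt x ≥ Φ(N')` for some `N' ≥ 1`, `N' ≡ c N mod (q-1)`.
With `z_l = y_l^(p^R)`, the terms `coeff N (β l) z_l^N` are `N`-bounded: for `N = p^e` by hypothesis,
otherwise compare coefficients of `X^i Y^(N-i)`, `p ∤ choose N i`, in `hhom` (monomials of `Γ` have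
degree `≡ 1 mod (q-1)` by `hsmul`); for `c N ≡ P` not a power of `p` they have norm `≤ ν' < ν`, and so
do the nonlinear terms of the `Γh`-sum.  Expand the `Γh`-sum of the `β l (a z_l)` in powers of `a`
(write `a z_l = (z_l / ϖ) (a ϖ)` and use `hasSum_ev1`) and sum against `a^(-p^e₀)` over `a ∈ kˣ`
(`FiniteField.sum_pow_units`). -/
theorem exists_leadCancel {h : ℕ} (hh : 1 ≤ h) (hm : 1 ≤ m) (hn : n = h + m)
    (Γ : FormalGroup (kk p n))
    (hsmul : ∀ a : kk p n, IsFGHom Γ Γ (PowerSeries.C a * PowerSeries.X))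
    (j : kk p n →+* OO K) (Γh : FormalGroup (OO K)) [Γh.IsComm] {ε : ℝ} (hε0 : 0 ≤ ε) (hε : ε < 1)
    (β : Fin m → PowerSeries (OO K)) (hβ0 : ∀ l, PowerSeries.constantCoeff (β l) = 0)
    (hhom : ∀ l d, ‖coeff d (PowerSeries.subst (Γ.map j).toPowerSeries (β l) -
      fadd Γh (in0 (β l)) (in1 (β l)))‖ ≤ ε)
    (hper : ∀ l e, ‖PowerSeries.coeff e ((PowerSeries.subst
      (PowerSeries.X ^ p ^ n : PowerSeries (OO K)) (β l) : PowerSeries (OO K)) - β l ^ p ^ h)‖ ≤ ε)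
    (hne : ∃ l e, ε < ‖PowerSeries.coeff e (β l)‖)
    (y : Fin m → OO K) (hy : ∀ l, ‖y l‖ < 1)
    (hrel : ∀ (a : kk p n) (R : ℤ) (x : Fin m → Pt (IO K) Γh),
      (∀ l, (x l).1 = ev1 (IO K) (j a * frz p R (y l)) (β l)) → ‖(∑ l, x l).1‖ ≤ ε) :
    ∃ γ : Fin m → ℤ → OO K, (∀ l e, γ l (e - m) = γ l e ^ p ^ h) ∧ (∀ l e, ‖γ l e‖ < 1) ∧
      (∃ l e, γ l e ≠ 0) ∧ LeadCancel p n γ y := by
  classical
  have hp : 2 ≤ p := (Fact.out : p.Prime).two_le
  have hp0 : p ≠ 0 := by omega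
  set g : Fin m → ℤ → OO K := fun l e =>
    if 0 ≤ e then PowerSeries.coeff (p ^ e.toNat) (β l) else 0 with hg
  have hg1 : ∀ l (e : ℕ), g l e = PowerSeries.coeff (p ^ e) (β l) := by
    intro l e
    simp [hg]
  have hg2 : ∀ l e, e < 0 → g l e = 0 := fun l e he => if_neg he.not_ge
  have hfr : ∀ l N, PowerSeries.coeff (p ^ h * N) (β l ^ p ^ h) =
      PowerSeries.coeff N (β l) ^ p ^ h := by
    intro l N
    have h1 : β l ^ p ^ h = PowerSeries.map (iterateFrobenius (OO K) p h)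
        (PowerSeries.expand (p ^ h) (pow_ne_zero h hp0) (β l)) :=
      (MvPowerSeries.map_iterateFrobenius_expand p hp0 (β l) h).symm
    rw [h1, PowerSeries.coeff_map, PowerSeries.coeff_expand_mul, iterateFrobenius_def]
  have hgp : ∀ l e, ‖g l (e + m) ^ p ^ h - g l e‖ ≤ ε := by
    intro l e
    rcases lt_or_ge (e + m) 0 with h1 | h1
    · rw [hg2 l _ h1, hg2 l e (by omega), zero_pow (pow_ne_zero _ hp0), sub_zero, norm_zero]
      exact hε0
    obtain ⟨a, ha⟩ := Int.eq_ofNat_of_zero_le h1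
    have h2 := hper l (p ^ h * p ^ a)
    rw [map_sub, hfr, PowerSeries.coeff_subst_X_pow (pow_ne_zero _ hp0), norm_sub_rev, ← pow_add] at h2
    rw [ha, hg1]
    refine le_of_eq_of_le ?_ h2
    congr 2
    rcases lt_or_ge e 0 with h3 | h3
    · rw [hg2 l e h3, if_neg]
      rw [Nat.pow_dvd_pow_iff_le_right (by omega)]
      omega
    · obtain ⟨b, rfl⟩ := Int.eq_ofNat_of_zero_le h3
      have h4 : h + a = n + b := by omega
      rw [hg1, h4, if_pos (Nat.pow_dvd_pow _ (by omega)), pow_add,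
        Nat.mul_div_cancel_left _ (by positivity)]
      rfl
  choose γ hγ1 hγ2 using fun l => na_gamma hh hε0 hε (g l) (hgp l)
  have hγ3 : ∀ l e (k : ℕ), γ l (e - m * k) = γ l e ^ p ^ (h * k) := by
    intro l e k
    induction k with
    | zero => simp
    | succ k ih =>
      rw [show e - m * ((k + 1 : ℕ) : ℤ) = e - m * k - m by push_cast; ring, hγ1, ih, ← pow_mul,
        ← pow_add, mul_add, mul_one]
  have hγ4 : ∀ l e, e < 0 → ‖γ l e‖ ≤ ε := by
    intro l e he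
    simpa [hg2 l e he] using hγ2 l e
  have hγ5 : ∀ l e, ‖γ l e‖ < 1 := by
    intro l e
    have h1 := hγ4 l (e - m * ((e.toNat + 1 : ℕ) : ℤ)) (by
      have : (1 : ℤ) * ((e.toNat + 1 : ℕ) : ℤ) ≤ m * ((e.toNat + 1 : ℕ) : ℤ) :=
        mul_le_mul_of_nonneg_right (by exact_mod_cast hm) (by positivity)
      omega)
    rw [hγ3, norm_pow] at h1
    by_contra h2
    exact absurd (h1.trans_lt hε) (one_le_pow₀ (not_lt.1 h2)).not_gt
  refine ⟨γ, hγ1, hγ5, ?_, ?_⟩
  · by_contra h0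
    push Not at h0
    obtain ⟨l, N, hN⟩ := hne
    have hJ : NAFam fun N : ℕ => if N = 0 then (⊤ : Ideal (OO K)) else ball K ε := by
      refine ⟨fun x => by simp, fun a b x y hx hy => ?_⟩
      by_cases ha : a = 0
      · by_cases hb : b = 0
        · simp [ha, hb]
        · simp only [ha, hb, zero_add, if_false] at hy ⊢
          exact Ideal.mul_mem_left _ _ hy
      · simp only [ha, Nat.add_eq_zero_iff, false_and, if_false] at hx ⊢
        exact Ideal.mul_mem_right _ _ hx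
    have h1 := na_ind (z := 1) p hJ (na_deg_map (by omega) Γ hsmul j) (hβ0 l) (F := Γh)
      (fun M N hM _ => by
        rw [if_neg (by omega)]
        split_ifs
        · exact le_top
        · exact le_rfl)
      (fun N d => by
        split_ifs
        · trivial
        · exact (mem_ball K hε0 _).2 (hhom l d))
      (fun e => by
        have h2 := hγ2 l e
        rw [h0, zero_sub, norm_neg, hg1] at h2
        rw [if_neg (pow_ne_zero _ hp0), one_pow, mul_one]
        exact (mem_ball K hε0 _).2 h2) N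
    split_ifs at h1 with h2
    · rw [h2, PowerSeries.coeff_zero_eq_constantCoeff_apply, hβ0, norm_zero] at hN
      exact hN.not_ge hε0
    · rw [one_pow, mul_one, mem_ball K hε0] at h1
      exact hN.not_ge h1
  intro R e₀ ν θ 𝒢 hν0 hθ h1 h2 h𝒢
  rcases 𝒢.eq_empty_or_nonempty with rfl | ⟨x₀, hx₀⟩
  · simpa using hν0
  have hν : ν < 1 := by
    rw [← ((h𝒢 x₀.1 x₀.2).1 hx₀).2]
    exact OO_norm_mul_lt_left K (hγ5 _ _) _
  obtain ⟨k, hk⟩ : ∃ k : ℕ, ε ^ p ^ (h * k) < ν := by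
    obtain ⟨k, hk⟩ := exists_pow_lt_of_lt_one hν0 hε
    exact ⟨k, (pow_le_pow_of_le_one hε0 hε.le
      ((Nat.le_mul_of_pos_left k hh).trans (Nat.lt_pow_self hp).le)).trans_lt hk⟩
  set Q : ℕ := p ^ (h * k) with hQ
  have hQ0 : Q ≠ 0 := pow_ne_zero _ hp0
  have hθν : 0 ≤ max θ 0 * ν := mul_nonneg (le_max_right _ _) hν0.le
  obtain ⟨ν', hν'0, hν'⟩ : ∃ ν' : ℝ, 0 ≤ ν' ∧ ν' ^ Q = ν :=
    ⟨_, by positivity, Real.rpow_inv_natCast_pow hν0.le hQ0⟩
  obtain ⟨lam, hl0, hl⟩ : ∃ lam : ℝ, 0 ≤ lam ∧ lam ^ (p ^ (n - 1) * Q) = max θ 0 * ν :=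
    ⟨_, by positivity, Real.rpow_inv_natCast_pow hθν (mul_ne_zero (pow_ne_zero _ hp0) hQ0)⟩
  set T : Fin m → ℕ → OO K := fun l e => γ l e * frz p (R - n * k) (y l) ^ p ^ e with hT
  have hTQ : ∀ l (e : ℕ), γ l (e - m * k) * frz p (e - m * k + R) (y l) = T l e ^ Q := by
    intro l e
    simp only [hT]
    rw [mul_pow, hγ3, hQ, ← frz_natCast p e, ← frz_natCast p (h * k) (frz p e _), ← frz_add, ← frz_add]
    congr 2
    rw [hn]
    push_cast
    ring
  have hn0 : (0 : ℤ) < n := by exact_mod_cast (by omega : 0 < n)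
  obtain ⟨e₁, he₁⟩ := Int.eq_ofNat_of_zero_le (Int.emod_nonneg (e₀ + m * k) hn0.ne')
  have he₁n : e₁ < n := by
    have := Int.emod_lt_of_pos (e₀ + m * k) hn0
    omega
  have hmod : ∀ e : ℕ, e ≡ e₁ [MOD n] ↔ (e : ℤ) - m * k ≡ e₀ [ZMOD n] := by
    intro e
    have h3 : (e₁ : ℤ) ≡ e₀ + m * k [ZMOD n] := he₁ ▸ Int.mod_modEq _ _
    rw [← Int.natCast_modEq_iff]
    constructor
    · intro h4
      simpa using (h4.trans h3).sub_right (m * k)
    · intro h4
      simpa using (by simpa using h4.add_right (m * k) : (e : ℤ) ≡ e₀ + m * k [ZMOD n]).trans h3.symm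
  have hinj : Function.Injective fun x : Fin m × ℕ => (x.1, (x.2 : ℤ) - m * k) := by
    rintro ⟨a, b⟩ ⟨a', b'⟩ hab
    simp only [Prod.mk.injEq, sub_left_inj, Nat.cast_inj] at hab
    rw [hab.1, hab.2]
  have key := na_core (by omega) Γ hsmul j Γh hε0 β hβ0 hhom (fun l => frz p (R - n * k) (y l))
    (fun l => norm_frz_lt p _ (hy l)) (fun a => hrel a _) T (fun l e => by
      simp only [hT]
      rw [← sub_mul, norm_mul, ← hg1]
      exact (mul_le_of_le_one_right (norm_nonneg _) (OO.norm_le_one K _)).trans (hγ2 l e))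
    he₁n (ν := ν') (lam := lam) (lt_of_pow_lt_pow_left₀ Q hν'0 (by rwa [hν']))
    (lt_of_pow_lt_pow_left₀ Q zero_le_one (by rwa [hν', one_pow])) hl0
    (lt_of_pow_lt_pow_left₀ Q hν'0 (by
      rw [hν', ← pow_mul, hl]
      exact mul_lt_of_lt_one_left hν0 (max_lt hθ one_pos)))
    (fun l e he => le_of_pow_le_pow_left₀ hQ0 hν'0 (by
      rw [hν', ← norm_pow, ← hTQ]
      exact h1 l _ ((hmod e).1 he)))
    (fun l e u hu hun he => le_of_pow_le_pow_left₀ (mul_ne_zero hQ0 (pow_ne_zero u hp0))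
      (by positivity) (by
        have h3 := h2 l (e - m * k) u hu (by
          have := (hmod _).1 he
          push_cast at this
          rwa [add_sub_right_comm] at this)
        have h4 : p ^ (n - 1 - u) * (Q * p ^ u) = p ^ (n - 1) * Q := by
          rw [mul_comm Q, ← mul_assoc, ← pow_add]
          congr 2
          omega
        rw [← pow_mul, h4, hl, pow_mul, ← norm_pow, ← hTQ]
        exact h3.trans (mul_le_mul_of_nonneg_right (le_max_left _ _) hν0.le)))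
    (𝒢.preimage _ hinj.injOn) (fun l e => by
      rw [Finset.mem_preimage, h𝒢, hmod, hTQ, norm_pow, ← hν',
        pow_left_inj₀ (norm_nonneg _) hν'0 hQ0])
  have hsum : ∑ x ∈ 𝒢, γ x.1 x.2 * frz p (x.2 + R) (y x.1) =
      (∑ x ∈ 𝒢.preimage _ hinj.injOn, T x.1 x.2) ^ Q := by
    rw [hQ, sum_pow_char_pow, ← Finset.sum_preimage _ 𝒢 hinj.injOn]
    · exact Finset.sum_congr rfl fun x _ => hTQ x.1 x.2
    · rintro ⟨l, e⟩ hx hx'
      exfalso
      rcases lt_or_ge (e + m * k) 0 with h3 | h3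
      · have h4 := hγ3 l (e + m * k) k
        rw [add_sub_cancel_right] at h4
        have h5 := ((h𝒢 l e).1 hx).2
        rw [norm_mul, h4, norm_pow] at h5
        have h6 := (mul_le_of_le_one_right (by positivity) (OO.norm_le_one K _)).trans
          (pow_le_pow_left₀ (norm_nonneg _) (hγ4 l _ h3) Q) |>.trans_lt hk
          (a := ‖γ l (e + m * k)‖ ^ Q * ‖frz p (e + R) (y l)‖)
        exact h6.ne h5
      · obtain ⟨a, ha⟩ := Int.eq_ofNat_of_zero_le h3
        exact hx' ⟨(l, a), by simp [← ha]⟩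
  rw [hsum, norm_pow, ← hν']
  exact pow_lt_pow_left₀ key (norm_nonneg _) hQ0

end Crest.Agent.R227
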