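import Mathlib

/-! # Row 227: auxiliary lemmas for the Newton polygon count (Moore determinant, lines). -/

set_option autoImplicit false

namespace Crest.Agent.R227

open Finset

/-- Moore's determinant, in inductive form. -/
theorem nb_moore {F ι : Type*} [Field F] [DecidableEq ι] (p : ℕ) [Fact p.Prime] [CharP F p]
    (a : ι → F) (s : Finset ι) : ∀ ζ : ι → F,
    (∀ c : ι → ℕ, ∑ x ∈ s, (c x : F) * ζ x = 0 → ∀ x ∈ s, p ∣ c x) →
    (∀ u < s.card, ∑ x ∈ s, a x * ζ x ^ p ^ u = 0) → ∀ x ∈ s, a x = 0 := by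
  have hp : p.Prime := Fact.out
  induction s using Finset.induction_on with
  | empty => intro ζ _ _ x hx; simp at hx
  | insert x₀ s hx₀ ih =>
    intro ζ hind hrel
    have hζ : ζ x₀ ≠ 0 := by
      intro h0
      have := hind (fun x => if x = x₀ then 1 else 0) (by
        rw [sum_insert hx₀, h0, mul_zero, zero_add]
        refine sum_eq_zero fun x hx => ?_
        rw [if_neg (fun h : x = x₀ => hx₀ (h ▸ hx))]
        simp) x₀ (mem_insert_self _ _)
      simp only [if_true] at this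
      exact hp.one_lt.ne' (Nat.dvd_one.1 this)
    have hpp : ζ x₀ ^ (p - 1) * ζ x₀ = ζ x₀ ^ p := by
      rw [← pow_succ, Nat.sub_add_cancel hp.one_le]
    have h1 := ih (fun x => ζ x ^ p - ζ x₀ ^ (p - 1) * ζ x) ?_ ?_
    · intro x hx
      rcases mem_insert.1 hx with rfl | hx
      · have h2 := hrel 0 (by rw [card_insert_of_notMem hx₀]; omega)
        rw [sum_insert hx₀, sum_eq_zero (fun y hy => by rw [h1 y hy, zero_mul]), add_zero] at h2
        exact (mul_eq_zero.1 h2).resolve_right (pow_ne_zero _ hζ)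
      · exact h1 x hx
    · intro c hc
      set w : F := ∑ x ∈ s, (c x : F) * ζ x with hw
      have hwp : w ^ p = ∑ x ∈ s, (c x : F) * ζ x ^ p := by
        rw [hw, sum_pow_char]
        refine sum_congr rfl fun x _ => ?_
        rw [mul_pow]
        congr 1
        exact map_natCast (frobenius F p) (c x)
      have hw2 : w ^ p = ζ x₀ ^ (p - 1) * w := by
        rw [hwp, hw, mul_sum, ← sub_eq_zero, ← sum_sub_distrib, ← hc]
        refine sum_congr rfl fun x _ => ?_
        ring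
      have hw3 : (w / ζ x₀) ^ p = w / ζ x₀ := by
        rw [div_pow, hw2, ← hpp]
        field_simp
      obtain ⟨k, hk⟩ := (mem_bot_iff_intCast p F).1 ((Subfield.mem_bot_iff_pow_eq_self F p).2 hw3)
      obtain ⟨k', hk'⟩ : ∃ k' : ℕ, (k' : F) = -(k : F) := by
        refine ⟨((-k) % p).toNat, ?_⟩
        have h0 : 0 ≤ (-k) % p := Int.emod_nonneg _ (by exact_mod_cast hp.ne_zero)
        rw [← Int.cast_natCast, Int.toNat_of_nonneg h0, ← Int.cast_neg]
        exact (CharP.intCast_eq_intCast F p).2 (Int.mod_modEq _ _)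
      have h3 := hind (fun x => if x = x₀ then k' else c x) (by
        rw [sum_insert hx₀, if_pos rfl, hk', hk]
        have : ∑ x ∈ s, ((if x = x₀ then k' else c x : ℕ) : F) * ζ x = w := by
          refine sum_congr rfl fun x hx => ?_
          rw [if_neg (fun h : x = x₀ => hx₀ (h ▸ hx))]
        rw [this]
        field_simp
        ring)
      intro x hx
      have h4 := h3 x (mem_insert_of_mem hx)
      rwa [if_neg (fun h : x = x₀ => hx₀ (h ▸ hx))] at h4
    · intro u hu
      have e : ∀ x, (ζ x ^ p - ζ x₀ ^ (p - 1) * ζ x) ^ p ^ u =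
          ζ x ^ p ^ (u + 1) - (ζ x₀ ^ (p - 1)) ^ p ^ u * ζ x ^ p ^ u := by
        intro x
        rw [sub_pow_char_pow, mul_pow, ← pow_mul, pow_succ']
      have h2 := hrel u (by rw [card_insert_of_notMem hx₀]; omega)
      have h3 := hrel (u + 1) (by rw [card_insert_of_notMem hx₀]; omega)
      have h4 : ∑ x ∈ insert x₀ s, a x * (ζ x ^ p - ζ x₀ ^ (p - 1) * ζ x) ^ p ^ u = 0 := by
        have : ∀ x, a x * (ζ x ^ p - ζ x₀ ^ (p - 1) * ζ x) ^ p ^ u =
            a x * ζ x ^ p ^ (u + 1) - (ζ x₀ ^ (p - 1)) ^ p ^ u * (a x * ζ x ^ p ^ u) := by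
          intro x; rw [e]; ring
        simp only [this]
        rw [sum_sub_distrib, ← mul_sum, h2, h3, mul_zero, sub_zero]
      rw [sum_insert hx₀, hpp, sub_self, zero_pow (pow_ne_zero _ hp.ne_zero), mul_zero, zero_add] at h4
      exact h4

/-- `A P^t - j t` is coercive on the integers -/
theorem nb_coercive {A P j : ℝ} (hA : 0 < A) (hP : 1 < P) (hj : 0 < j) :
    ∃ D : ℝ, ∀ t : ℤ, j * |(t : ℝ)| - D ≤ A * P ^ t - j * t := by
  obtain ⟨N, hN⟩ := pow_unbounded_of_one_lt (2 * j / (A * (P - 1))) hP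
  have hP1 : 0 < P - 1 := sub_pos.2 hP
  rw [div_lt_iff₀ (by positivity)] at hN
  refine ⟨2 * j * N, fun t => ?_⟩
  have hP0 : 0 < P := by linarith
  have hpos : 0 < A * P ^ t := by positivity
  rcases le_total t N with ht | ht
  · have h1 : (t : ℝ) ≤ N := by exact_mod_cast ht
    have h2 : |(t : ℝ)| ≤ 2 * N - t := by
      rw [abs_le]
      have : (0 : ℝ) ≤ N := Nat.cast_nonneg N
      constructor <;> linarith
    nlinarith
  · obtain ⟨k, rfl⟩ : ∃ k : ℕ, t = N + k := ⟨(t - N).toNat, by omega⟩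
    have h1 : 1 + k * (P - 1) ≤ P ^ k := one_add_mul_sub_le_pow (by linarith) k
    have h2 : P ^ ((N : ℤ) + k) = P ^ N * P ^ k := by
      rw [zpow_add₀ hP0.ne', zpow_natCast, zpow_natCast]
    rw [h2]
    push_cast
    have hk : (0 : ℝ) ≤ k := Nat.cast_nonneg k
    have hN0 : (0 : ℝ) ≤ N := Nat.cast_nonneg N
    rw [abs_of_nonneg (by positivity)]
    have h3 : A * P ^ N * (k * (P - 1)) ≤ A * (P ^ N * P ^ k) := by
      rw [← mul_assoc A]
      exact mul_le_mul_of_nonneg_left (by linarith) (by positivity)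
    have h4 : 2 * j * k ≤ A * P ^ N * (k * (P - 1)) := by
      have := mul_le_mul_of_nonneg_right hN.le hk
      linarith
    linarith

theorem nb_finite_abs (M : ℝ) : {t : ℤ | |(t : ℝ)| ≤ M}.Finite := by
  refine (Set.finite_Icc (-⌈M⌉) ⌈M⌉).subset fun t ht => ?_
  have h1 : |(t : ℝ)| ≤ (⌈M⌉ : ℝ) := le_trans ht (Int.le_ceil M)
  have h2 : |t| ≤ ⌈M⌉ := by exact_mod_cast h1
  exact abs_le.1 h2

/-- sublevel sets are finite -/
theorem nb_finite {m h : ℕ} (hm : 1 ≤ m) (hh : 1 ≤ h) {P s : ℝ} (hP : 1 < P) (hs : 0 < s)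
    (N : ℤ → Prop) (g : ℤ → ℝ) (hN : ∀ e, N (e - m) ↔ N e) (hg : ∀ e, g (e - m) = P ^ h * g e)
    (hpos : ∀ e, N e → 0 < g e) (C : ℝ) :
    {z : ℤ × ℤ | N z.1 ∧ P ^ z.2 * g z.1 - z.2 + P ^ (z.1 + z.2) * s ≤ C}.Finite := by
  have hP0 : 0 < P := by linarith
  have hk : ∀ (k : ℤ) e, (N (e + m * k) ↔ N e) ∧ g e = P ^ (h * k) * g (e + m * k) := by
    intro k
    induction k using Int.induction_on with
    | zero => intro e; simp
    | succ k ih =>
      intro e
      have e1 : e + m * k = e + m * (k + 1) - m := by ring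
      obtain ⟨a, b⟩ := ih e
      rw [e1, hN] at a
      rw [e1, hg] at b
      refine ⟨a, ?_⟩
      rw [b, mul_add (h : ℤ), mul_one, zpow_add₀ hP0.ne', zpow_natCast, mul_assoc]
    | pred k ih =>
      intro e
      have e1 : e + m * (-(k : ℤ) - 1) = e + m * (-(k : ℤ)) - m := by ring
      obtain ⟨a, b⟩ := ih e
      rw [e1, hN, hg]
      refine ⟨a, ?_⟩
      rw [b, mul_sub (h : ℤ), mul_one, zpow_sub₀ hP0.ne', zpow_natCast]
      field_simp
  have hm0 : (0 : ℝ) < m := by exact_mod_cast hm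
  have hh0 : (0 : ℝ) < h := by exact_mod_cast hh
  have hmz : (m : ℤ) ≠ 0 := by omega
  obtain ⟨D₂, hD₂⟩ := nb_coercive (j := h / (h + m)) hs hP (by positivity)
  have key : ∀ e₀ : ℤ, 0 ≤ e₀ →
      {z : ℤ × ℤ | z.1 % m = e₀ ∧ N z.1 ∧ P ^ z.2 * g z.1 - z.2 + P ^ (z.1 + z.2) * s ≤ C}.Finite := by
    intro e₀ he₀
    by_cases hN0 : N e₀
    swap
    · convert Set.finite_empty
      ext z
      simp only [Set.mem_ofPred_eq, Set.mem_empty_iff_false, iff_false]
      rintro ⟨h1, h2, -⟩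
      apply hN0
      rw [← (hk (z.1 / m) e₀).1, ← h1, Int.emod_add_mul_ediv]
      exact h2
    obtain ⟨D₁, hD₁⟩ := nb_coercive (j := m / (h + m)) (hpos e₀ hN0) hP (by positivity)
    refine Set.Finite.of_injOn (f := fun z : ℤ × ℤ => (z.2 - h * (z.1 / m), z.1 + z.2))
      (t := {t : ℤ | |(t : ℝ)| ≤ (C + D₁ + D₂) / (m / (h + m))} ×ˢ
        {t : ℤ | |(t : ℝ)| ≤ (C + D₁ + D₂) / (h / (h + m))}) ?_ ?_
      ((nb_finite_abs _).prod (nb_finite_abs _))
    · rintro ⟨e, t⟩ ⟨h1, -, h3⟩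
      simp only [Set.mem_prod, Set.mem_ofPred_eq] at h1 h3 ⊢
      have h4 : e = e₀ + m * (e / m) := by rw [← h1, Int.emod_add_mul_ediv]
      generalize e / m = k at *
      subst h4
      have a1 := hD₁ (t - h * k)
      have a2 := hD₂ (e₀ + m * k + t)
      have a3 : g e₀ * P ^ (t - h * k) = P ^ t * g (e₀ + m * k) := by
        rw [(hk k e₀).2, zpow_sub₀ hP0.ne']
        field_simp
      have a4 : (m : ℝ) / (h + m) * ((t - h * k : ℤ) : ℝ) + h / (h + m) * ((e₀ + m * k + t : ℤ) : ℝ) =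
          t + h / (h + m) * e₀ := by
        push_cast
        field_simp
        ring
      have a5 : (0 : ℝ) ≤ h / (h + m) * e₀ := by
        have : (0 : ℝ) ≤ e₀ := by exact_mod_cast he₀
        positivity
      have a6 : 0 ≤ (m : ℝ) / (h + m) * |((t - h * k : ℤ) : ℝ)| := by positivity
      have a7 : 0 ≤ (h : ℝ) / (h + m) * |((e₀ + m * k + t : ℤ) : ℝ)| := by positivity
      rw [a3] at a1
      constructor
      · rw [le_div_iff₀ (by positivity)]
        linarith
      · rw [le_div_iff₀ (by positivity)]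
        linarith
    · rintro ⟨e, t⟩ ⟨h1, -⟩ ⟨e', t'⟩ ⟨h1', -⟩ heq
      simp only [Prod.mk.injEq] at h1 h1' heq ⊢
      have h4 : e = e₀ + m * (e / m) := by rw [← h1, Int.emod_add_mul_ediv]
      have h4' : e' = e₀ + m * (e' / m) := by rw [← h1', Int.emod_add_mul_ediv]
      generalize e / m = k at *
      generalize e' / m = k' at *
      subst h4 h4'
      have h5 : ((h : ℤ) + m) * (k - k') = 0 := by linear_combination heq.2 - heq.1
      have h6 : k = k' := by
        rcases mul_eq_zero.1 h5 with h7 | h7 <;> omega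
      subst h6
      exact ⟨rfl, by linarith [heq.1]⟩
  refine ((Set.finite_Ico (0 : ℤ) m).biUnion fun e₀ he₀ => key e₀ he₀.1).subset ?_
  rintro z hz
  simp only [Set.mem_iUnion]
  exact ⟨z.1 % m, ⟨Int.emod_nonneg _ hmz, Int.emod_lt_of_pos _ (by omega)⟩, rfl, hz⟩

/-- the counting argument for lower envelopes of lines -/
theorem nb_lines {Λ : Type*} [Nonempty Λ] {m n : ℕ} (hmn : m < n) {P : ℝ} (hP : 1 < P)
    (c σ : Λ → ℝ) (lab : Λ → Fin m) (T : Λ ≃ Λ) (h : ℝ)
    (hfin : ∀ (R : ℤ) (C : ℝ), {x | c x + σ x * P ^ R ≤ C}.Finite) (hσ : ∀ x, 0 < σ x)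
    (hc : ∀ x, c (T x) = c x + h) (hT : ∀ x, σ (T x) * P ^ n = σ x)
    (hlab : ∀ x x', lab x = lab x' → ∃ k : ℤ, σ x = σ x' * P ^ (n * k)) :
    ∃ (R₁ : ℤ) (x₁ : Λ) (B : Finset (Fin m)), (∀ x, σ x = σ x₁ → lab x ∈ B) ∧
      ∀ u : ℕ, u < B.card → (∀ x, c x₁ + σ x₁ * P ^ (R₁ + u) ≤ c x + σ x * P ^ (R₁ + u)) ∧
        ∀ x, c x + σ x * P ^ (R₁ + u) = c x₁ + σ x₁ * P ^ (R₁ + u) → σ x = σ x₁ := by
  classical
  have hP0 : 0 < P := by linarith
  set V : Λ → ℤ → ℝ := fun x R => c x + σ x * P ^ R with hV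
  have hex : ∀ R : ℤ, ∃ x, (∀ x', V x R ≤ V x' R) ∧ ∀ y, (∀ x', V y R ≤ V x' R) → σ y ≤ σ x := by
    intro R
    obtain ⟨x₀⟩ := ‹Nonempty Λ›
    obtain ⟨x₁, h1, h2⟩ := Set.exists_min_image _ (fun x => V x R) (hfin R (V x₀ R)) ⟨x₀, (le_rfl : V x₀ R ≤ V x₀ R)⟩
    have h3 : ∀ x', V x₁ R ≤ V x' R := by
      intro x'
      by_cases h4 : V x' R ≤ V x₀ R
      · exact h2 x' h4
      · exact le_trans h1 (not_le.1 h4).le
    obtain ⟨x₂, h4, h5⟩ := Set.exists_max_image _ σ (hfin R (V x₁ R)) ⟨x₁, (le_rfl : V x₁ R ≤ V x₁ R)⟩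
    exact ⟨x₂, fun x' => le_trans h4 (h3 x'), fun y hy => h5 y (hy x₁)⟩
  choose top htop hmax using hex
  have hmono : ∀ {R R' : ℤ} {x x' : Λ}, R < R' → (∀ y, V x R ≤ V y R) → (∀ y, V x' R' ≤ V y R') →
      σ x' ≤ σ x := by
    intro R R' x x' hR h1 h2
    have h3 := h1 x'
    have h4 := h2 x
    have h5 : P ^ R < P ^ R' := zpow_lt_zpow_right₀ hP hR
    simp only [hV] at h3 h4
    by_contra h6
    push Not at h6
    nlinarith [mul_pos (sub_pos.2 h6) (sub_pos.2 h5)]
  have hanti : ∀ {R R' : ℤ}, R ≤ R' → σ (top R') ≤ σ (top R) := by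
    intro R R' hR
    rcases hR.eq_or_lt with rfl | hR
    · exact le_rfl
    · exact hmono hR (htop R) (htop R')
  have hVT : ∀ x R, V (T x) (R + n) = V x R + h := by
    intro x R
    simp only [hV]
    rw [hc, zpow_add₀ hP0.ne', zpow_natCast, ← hT x]
    ring
  have hq : 1 < P ^ n := one_lt_pow₀ hP (by omega)
  have hper : ∀ R, σ (top (R + n)) * P ^ n = σ (top R) := by
    intro R
    apply le_antisymm
    · have h1 : ∀ y, V (T.symm (top (R + n))) R ≤ V y R := by
        intro y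
        have h2 := htop (R + n) (T y)
        have h3 := hVT (T.symm (top (R + n))) R
        rw [T.apply_symm_apply] at h3
        rw [h3, hVT] at h2
        linarith
      have h4 := hmax R _ h1
      rw [← hT, T.apply_symm_apply] at h4
      exact h4
    · have h1 : ∀ y, V (T (top R)) (R + n) ≤ V y (R + n) := by
        intro y
        have h3 := hVT (T.symm y) R
        rw [T.apply_symm_apply] at h3
        rw [h3, hVT]
        linarith [htop R (T.symm y)]
      have h4 := hmax (R + n) _ h1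
      rw [← hT (top R)]
      gcongr
  obtain ⟨R₀, hR₀⟩ : ∃ R₀ : ℤ, σ (top R₀) < σ (top (R₀ - 1)) := by
    by_contra hno
    push Not at hno
    have h1 : ∀ k : ℕ, σ (top 0) ≤ σ (top k) := by
      intro k
      induction k with
      | zero => exact le_rfl
      | succ k ih =>
        have := hno ((k + 1 : ℕ) : ℤ)
        rw [show ((k + 1 : ℕ) : ℤ) - 1 = k by push_cast; ring] at this
        exact ih.trans this
    have h2 := hper 0
    rw [zero_add] at h2
    have h3 := h1 n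
    have h4 := hσ (top n)
    nlinarith
  set B : ℝ → Finset (Fin m) := fun r => univ.filter fun l => ∃ x, lab x = l ∧ σ x = r with hB
  set I : Finset ℤ := Ico R₀ (R₀ + n) with hI
  have hwin : ∀ R ∈ I, σ (top R) ≤ σ (top R₀) ∧ σ (top R₀) < σ (top R) * P ^ n := by
    intro R hR
    rw [hI, mem_Ico] at hR
    refine ⟨hanti hR.1, hR₀.trans_le ?_⟩
    rw [← hper (R₀ - 1)]
    have := hanti (R := R) (R' := R₀ - 1 + n) (by omega)
    gcongr
  have hdisj : ((I.image fun R => σ (top R) : Finset ℝ) : Set ℝ).PairwiseDisjoint B := by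
    intro r hr r' hr' hne
    rw [Function.onFun, disjoint_left]
    intro l hl hl'
    obtain ⟨R, hR, rfl⟩ := mem_image.1 hr
    obtain ⟨R', hR', rfl⟩ := mem_image.1 hr'
    obtain ⟨x, h1, h2⟩ := (mem_filter.1 hl).2
    obtain ⟨x', h1', h2'⟩ := (mem_filter.1 hl').2
    obtain ⟨k, hk⟩ := hlab x x' (h1.trans h1'.symm)
    rw [h2, h2'] at hk
    obtain ⟨a1, a2⟩ := hwin R hR
    obtain ⟨b1, b2⟩ := hwin R' hR'
    have hk1 : k < 1 := by
      by_contra hk1
      push Not at hk1
      have : P ^ n ≤ P ^ (n * k) := by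
        rw [← zpow_natCast]
        exact zpow_le_zpow_right₀ hP.le (by nlinarith)
      have := mul_le_mul_of_nonneg_left this (hσ (top R')).le
      linarith
    have hk2 : -1 < k := by
      by_contra hk2
      push Not at hk2
      have h3 : P ^ (n * k) * P ^ n ≤ 1 := by
        rw [← zpow_natCast, ← zpow_add₀ hP0.ne']
        exact zpow_le_one_of_nonpos₀ hP.le (by nlinarith)
      have := mul_le_mul_of_nonneg_left h3 (hσ (top R')).le
      rw [hk, mul_assoc] at a2
      linarith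
    have : k = 0 := by omega
    subst this
    apply hne
    simpa using hk
  obtain ⟨r, hr, hlt⟩ : ∃ r ∈ I.image fun R => σ (top R),
      (B r).card < (I.filter fun R => σ (top R) = r).card := by
    by_contra hno
    push Not at hno
    have h1 := card_eq_sum_card_image (fun R => σ (top R)) I
    have h2 := sum_le_sum hno
    rw [← h1, ← card_biUnion hdisj] at h2
    have h3 := card_le_univ ((I.image fun R => σ (top R)).biUnion B)
    rw [Fintype.card_fin] at h3
    have h4 : I.card = n := by simp [hI]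
    omega
  set J := I.filter fun R => σ (top R) = r with hJ
  have hJne : J.Nonempty := card_pos.1 (by omega)
  have hsub : J ⊆ Icc (J.min' hJne) (J.max' hJne) := fun R hR =>
    mem_Icc.2 ⟨J.min'_le R hR, J.le_max' R hR⟩
  have hcard := card_le_card hsub
  rw [Int.card_Icc] at hcard
  have e1 : σ (top (J.min' hJne)) = r := (mem_filter.1 (J.min'_mem hJne)).2
  have e2 : σ (top (J.max' hJne)) = r := (mem_filter.1 (J.max'_mem hJne)).2
  generalize J.min' hJne = R₁ at *
  generalize J.max' hJne = R₂ at *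
  have hall : ∀ R, R₁ ≤ R → R < R₂ → ∀ x, (∀ y, V x R ≤ V y R) → σ x = r := by
    intro R h1 h2 x hx
    apply le_antisymm
    · exact (hmax R x hx).trans ((hanti h1).trans e1.le)
    · rw [← e2]
      exact hmono h2 hx (htop R₂)
  refine ⟨R₁, top R₁, B r, fun x hx => mem_filter.2 ⟨mem_univ _, x, rfl, hx.trans e1⟩, fun u hu => ?_⟩
  have hu1 : R₁ ≤ R₁ + u := by omega
  have hu2 : R₁ + u < R₂ := by omega
  have hmin : ∀ x, V (top R₁) (R₁ + u) ≤ V x (R₁ + u) := by
    intro x
    have h1 := hall _ hu1 hu2 _ (htop (R₁ + u))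
    have h2 := htop R₁ (top (R₁ + u))
    have h3 := htop (R₁ + u) x
    simp only [hV] at h2 h3 ⊢
    rw [e1, h1] at *
    linarith
  refine ⟨hmin, fun x hx => ?_⟩
  rw [e1]
  exact hall _ hu1 hu2 x fun y => hx.le.trans (hmin y)

end Crest.Agent.R227
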