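import Crest.Agent.R227.Perf
import Crest.Agent.R227.NewtonBAux

/-! # Row 227: the Newton polygon count. -/

set_option autoImplicit false
set_option linter.unusedSectionVars false

open MvPowerSeries Filter Topology

noncomputable section
namespace Crest.Agent.R227

open Crest.LubinTate

variable {K : Type} [NontriviallyNormedField K] [IsUltrametricDist K] [CompleteSpace K]
  [IsAlgClosed K] {p : ℕ} [Fact p.Prime] [CharP K p] {n m : ℕ}

/-- Moore's determinant on leading terms -/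
theorem nb_moore_norm {ι : Type} [DecidableEq ι] (s : Finset ι) (γ z : ι → OO K) {G ρ : ℝ}
    (hG : 0 < G) (hρ : 0 < ρ) (hs : s.Nonempty) (hγ : ∀ x ∈ s, ‖γ x‖ = G) (hz : ∀ x ∈ s, ‖z x‖ = ρ)
    (hrel : ∀ u < s.card, ‖∑ x ∈ s, γ x * z x ^ p ^ u‖ < G * ρ ^ p ^ u) :
    ∃ c : ι → ℕ, ‖∑ x ∈ s, (c x : OO K) * z x‖ < ρ ∧ ¬ ∀ x ∈ s, p ∣ c x := by
  obtain ⟨x₁, hx₁⟩ := hs
  have ha : ∀ x, ∃ a : OO K, x ∈ s → a * γ x₁ = γ x := by
    intro x
    by_cases hx : x ∈ s
    · obtain ⟨a, ha⟩ := Ideal.mem_span_singleton'.1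
        ((OO_mem_span_iff K (γ x₁) (γ x)).2 (by rw [hγ x hx, hγ x₁ hx₁]))
      exact ⟨a, fun _ => ha⟩
    · exact ⟨0, fun h => absurd h hx⟩
  have hζ : ∀ x, ∃ a : OO K, x ∈ s → a * z x₁ = z x := by
    intro x
    by_cases hx : x ∈ s
    · obtain ⟨a, ha⟩ := Ideal.mem_span_singleton'.1
        ((OO_mem_span_iff K (z x₁) (z x)).2 (by rw [hz x hx, hz x₁ hx₁]))
      exact ⟨a, fun _ => ha⟩
    · exact ⟨0, fun h => absurd h hx⟩
  choose a ha using ha
  choose ζ hζ using hζ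
  set 𝔪 : Ideal (OO K) := (IO K).radical with h𝔪
  have hmem : ∀ x, x ∈ 𝔪 ↔ ‖x‖ < 1 := mem_IO_radical K
  have hmax : 𝔪.IsMaximal := by
    rw [Ideal.isMaximal_iff]
    refine ⟨by rw [hmem, norm_one]; exact lt_irrefl _, fun J x _ hx hxJ => ?_⟩
    rw [hmem, ← OO_norm_eq_one_iff, ← isUnit_iff_norm] at hx
    exact (Ideal.eq_top_iff_one J).1 (J.eq_top_of_isUnit_mem hxJ hx)
  letI : Field (OO K ⧸ 𝔪) := Ideal.Quotient.field 𝔪
  haveI : CharP (OO K ⧸ 𝔪) p := by
    refine (CharP.charP_iff_prime_eq_zero Fact.out).2 ?_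
    rw [← map_natCast (Ideal.Quotient.mk 𝔪), CharP.cast_eq_zero, map_zero]
  by_contra hno
  push Not at hno
  have h := nb_moore p (fun x => Ideal.Quotient.mk 𝔪 (a x)) s (fun x => Ideal.Quotient.mk 𝔪 (ζ x))
    ?_ ?_ x₁ hx₁
  · rw [Ideal.Quotient.eq_zero_iff_mem, hmem] at h
    have h2 := congrArg norm (ha x₁ hx₁)
    rw [norm_mul, hγ x₁ hx₁] at h2
    nlinarith
  · intro c hc
    apply hno c
    have h1 : Ideal.Quotient.mk 𝔪 (∑ x ∈ s, (c x : OO K) * ζ x) = 0 := by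
      rw [map_sum, ← hc]
      simp only [map_mul, map_natCast]
    rw [Ideal.Quotient.eq_zero_iff_mem, hmem] at h1
    have h2 : ∑ x ∈ s, (c x : OO K) * z x = (∑ x ∈ s, (c x : OO K) * ζ x) * z x₁ := by
      rw [Finset.sum_mul]
      exact Finset.sum_congr rfl fun x hx => by rw [mul_assoc, hζ x hx]
    rw [h2, norm_mul, hz x₁ hx₁]
    exact mul_lt_of_lt_one_left hρ h1
  · intro u hu
    have h1 := hrel u hu
    have h2 : ∑ x ∈ s, γ x * z x ^ p ^ u =
        (∑ x ∈ s, a x * ζ x ^ p ^ u) * (γ x₁ * z x₁ ^ p ^ u) := by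
      rw [Finset.sum_mul]
      refine Finset.sum_congr rfl fun x hx => ?_
      rw [← ha x hx, ← hζ x hx, mul_pow]
      ring
    rw [h2, norm_mul, norm_mul, norm_pow, hγ x₁ hx₁, hz x₁ hx₁,
      mul_lt_iff_lt_one_left (by positivity), ← hmem, ← Ideal.Quotient.eq_zero_iff_mem, map_sum] at h1
    rw [← h1]
    simp only [map_mul, map_pow]

/-- Plan.  `s_l = -log ‖y l‖ > 0`, `g l e = -log ‖γ l e‖ > 0`.  Lines: triples `(l, e, t)` with
`γ l e ≠ 0`, `n ∣ e + t`; value at `R ∈ ℤ`: `p^t g l e - t + (p^(e+t) s_l) p^R`, slope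
`p^(e+t) s_l ∈ q^ℤ s_l`.  Sublevel sets are finite [`e = e₀ + m k`, `0 ≤ e₀ < m`, `t = n κ - e₀ + h k`,
`k' = k + κ`: value `= (q^κ p^(-e₀) g l e₀ - m κ + e₀) + (p^R s_l q^k' - h k')`].  Let `hi R` be the
largest slope of a minimiser at `R`.  Any minimiser at `R + 1` has slope `≤` any minimiser at `R`;
`(l,e,t) ↦ (l, e - m, t - h)` gives `hi (R + n) = hi R / q`.  Choose `R₀` with `hi (R₀ - 1) > hi R₀`; on
`[R₀, R₀ + n)` the values lie in `(hi R₀ / q, hi R₀]`, which contains one element of each `q^ℤ s_l`;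
as `m < n` some `σ` is attained at `b + 1` consecutive `R`, `b = #{l | σ ∈ q^ℤ s_l}`.  At the first `b`
of them all minimisers have slope `σ`, and the set of minimisers is the same.  Fix one, `(l₁,e₁,t)`;
`𝒢 = {(l,e) | (l,e,t) minimiser}`; `LeadCancel` (with `θ = exp (-p^(-t))`, compare with the lines
`(l, e, t + u)`) gives `b ≥ #𝒢` relations `∑ γ̄_l ζ_l^(p^u) = 0`, `u < b`, in the residue field.  Moore:
a dependency of the rows is an additive polynomial of degree `≤ p^(#𝒢-1)` vanishing on the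
`𝔽_p`-span of the `ζ_l`, so these are dependent, against `Adapted`. -/
theorem not_leadCancel {h : ℕ} (hh : 1 ≤ h) (hm : 1 ≤ m) (hn : n = h + m)
    (γ : Fin m → ℤ → OO K) (hper : ∀ l e, γ l (e - m) = γ l e ^ p ^ h)
    (hγ : ∀ l e, ‖γ l e‖ < 1) (hne : ∃ l e, γ l e ≠ 0) (y : Fin m → OO K)
    (hy : ∀ l, ‖y l‖ < 1) (hy0 : ∀ l, y l ≠ 0) (had : Adapted p n y) : ¬ LeadCancel p n γ y := by
  classical
  intro hlc
  have hP : (1 : ℝ) < p := by exact_mod_cast (Fact.out : p.Prime).one_lt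
  have hP0 : (0 : ℝ) < p := by linarith
  set g : Fin m → ℤ → ℝ := fun l e => -Real.log ‖γ l e‖ with hg
  set s : Fin m → ℝ := fun l => -Real.log ‖y l‖ with hs
  have hs0 : ∀ l, 0 < s l := fun l =>
    neg_pos.2 (Real.log_neg (norm_pos_iff.2 (hy0 l)) (hy l))
  have hg0 : ∀ l e, γ l e ≠ 0 → 0 < g l e := fun l e h0 =>
    neg_pos.2 (Real.log_neg (norm_pos_iff.2 h0) (hγ l e))
  have hN : ∀ l e, γ l (e - m) ≠ 0 ↔ γ l e ≠ 0 := fun l e => by
    rw [hper, pow_ne_zero_iff (pow_ne_zero _ (Fact.out : p.Prime).ne_zero)]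
  have hgp : ∀ l e, g l (e - m) = (p : ℝ) ^ h * g l e := fun l e => by
    simp only [hg]
    rw [hper, norm_pow, Real.log_pow]
    push_cast
    ring
  have hny : ∀ l (R : ℤ), ‖frz p R (y l)‖ = Real.exp (-((p : ℝ) ^ R * s l)) := fun l R => by
    rw [norm_frz, Real.rpow_def_of_pos (norm_pos_iff.2 (hy0 l))]
    congr 1
    simp only [hs]
    ring
  have hnγ : ∀ l e, γ l e ≠ 0 → ‖γ l e‖ = Real.exp (-g l e) := fun l e h0 => by
    simp only [hg]
    rw [neg_neg, Real.exp_log (norm_pos_iff.2 h0)]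
  have hnorm : ∀ l e (R : ℤ), γ l e ≠ 0 → ‖γ l e * frz p (e + R) (y l)‖ =
      Real.exp (-(g l e + (p : ℝ) ^ (e + R) * s l)) := fun l e R h0 => by
    rw [norm_mul, hnγ l e h0, hny, ← Real.exp_add, neg_add]
  let Λ := {x : Fin m × ℤ × ℤ // γ x.1 x.2.1 ≠ 0 ∧ (n : ℤ) ∣ x.2.1 + x.2.2}
  have : Nonempty Λ := by
    obtain ⟨l, e, h0⟩ := hne
    exact ⟨⟨(l, e, -e), h0, by simp⟩⟩
  have hn' : (n : ℤ) = h + m := by exact_mod_cast hn
  let T : Λ ≃ Λ :=
    { toFun := fun x => ⟨(x.1.1, x.1.2.1 - m, x.1.2.2 - h), (hN _ _).2 x.2.1, by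
        have e : x.1.2.1 - m + (x.1.2.2 - h) = x.1.2.1 + x.1.2.2 - n := by omega
        show (n : ℤ) ∣ x.1.2.1 - m + (x.1.2.2 - h)
        rw [e]
        exact dvd_sub x.2.2 dvd_rfl⟩
      invFun := fun x => ⟨(x.1.1, x.1.2.1 + m, x.1.2.2 + h), (hN _ _).1 (by
        show γ x.1.1 (x.1.2.1 + m - m) ≠ 0
        rw [add_sub_cancel_right]; exact x.2.1), by
        have e : x.1.2.1 + m + (x.1.2.2 + h) = x.1.2.1 + x.1.2.2 + n := by omega
        show (n : ℤ) ∣ x.1.2.1 + m + (x.1.2.2 + h)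
        rw [e]
        exact dvd_add x.2.2 dvd_rfl⟩
      left_inv := fun x => Subtype.ext (by simp)
      right_inv := fun x => Subtype.ext (by simp) }
  obtain ⟨R₁, ⟨⟨l₁, e₁, t⟩, hx₁, hd₁⟩, B, hB, hmin⟩ := nb_lines (m := m) (n := n) (by omega) hP
    (fun x : Λ => (p : ℝ) ^ x.1.2.2 * g x.1.1 x.1.2.1 - x.1.2.2)
    (fun x : Λ => (p : ℝ) ^ (x.1.2.1 + x.1.2.2) * s x.1.1) (fun x => x.1.1) T h
    (fun R C => by
      have hf : ∀ l, _ := fun l => nb_finite hm hh hP (s := s l * (p : ℝ) ^ R)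
        (mul_pos (hs0 l) (zpow_pos hP0 R)) (fun e => γ l e ≠ 0) (g l) (hN l) (hgp l) (hg0 l) C
      refine ((Set.finite_iUnion fun l => (hf l).image (Prod.mk l)).preimage
        Subtype.val_injective.injOn).subset ?_
      rintro ⟨⟨l, z⟩, h1, h2⟩ hx
      refine Set.mem_iUnion.2 ⟨l, z, ⟨h1, ?_⟩, rfl⟩
      rw [← mul_assoc]
      exact hx)
    (fun x => mul_pos (zpow_pos hP0 _) (hs0 _))
    (fun x => by
      show (p : ℝ) ^ (x.1.2.2 - h) * g x.1.1 (x.1.2.1 - m) - ((x.1.2.2 - h : ℤ) : ℝ) = _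
      rw [hgp, zpow_sub₀ hP0.ne', zpow_natCast]
      push_cast
      field_simp
      ring)
    (fun x => by
      show (p : ℝ) ^ (x.1.2.1 - m + (x.1.2.2 - h)) * s x.1.1 * (p : ℝ) ^ n = _
      have e : x.1.2.1 - m + (x.1.2.2 - h) = x.1.2.1 + x.1.2.2 - n := by omega
      rw [e, zpow_sub₀ hP0.ne', zpow_natCast]
      field_simp)
    (fun x x' hl => by
      obtain ⟨k, hk⟩ := x.2.2
      obtain ⟨k', hk'⟩ := x'.2.2
      refine ⟨k - k', ?_⟩
      rw [hk, hk', hl, mul_sub, zpow_sub₀ hP0.ne']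
      field_simp)
  simp only at hx₁ hd₁ hB hmin
  let good : Fin m → ℤ → Prop := fun l e => γ l e ≠ 0 ∧ (n : ℤ) ∣ e + t ∧ g l e = g l₁ e₁ ∧
    (p : ℝ) ^ e * s l = (p : ℝ) ^ e₁ * s l₁
  have huniq : ∀ l e e', good l e → good l e' → e = e' := by
    intro l e e' h1 h2
    have h3 := h1.2.2.2.trans h2.2.2.2.symm
    exact zpow_right_injective₀ hP0 hP.ne' (mul_right_cancel₀ (hs0 l).ne' h3)
  have hE : ∀ l, ∃ e, (∃ e', good l e') → good l e := fun l => by
    by_cases hl : ∃ e', good l e'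
    · exact ⟨hl.choose, fun _ => hl.choose_spec⟩
    · exact ⟨0, fun h => absurd h hl⟩
  choose E hE using hE
  set S : Finset (Fin m) := Finset.univ.filter fun l => ∃ e', good l e' with hS
  have hSg : ∀ l ∈ S, good l (E l) := fun l hl => hE l (Finset.mem_filter.1 hl).2
  have hl₁ : l₁ ∈ S := Finset.mem_filter.2 ⟨Finset.mem_univ _, e₁, hx₁, hd₁, rfl, rfl⟩
  have hSB : S ⊆ B := by
    intro l hl
    obtain ⟨a1, a2, -, a4⟩ := hSg l hl
    refine hB ⟨(l, E l, t), a1, a2⟩ ?_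
    simp only
    rw [zpow_add₀ hP0.ne', zpow_add₀ hP0.ne', mul_right_comm, a4, mul_right_comm]
  have hpt : (0 : ℝ) < (p : ℝ) ^ t := zpow_pos hP0 t
  have hval : ∀ (l : Fin m) (e t' R : ℤ), (p : ℝ) ^ t' * g l e - t' + (p : ℝ) ^ (e + t') * s l * (p : ℝ) ^ R =
      (p : ℝ) ^ t' * (g l e + (p : ℝ) ^ (e + R) * s l) - t' := by
    intro l e t' R
    rw [zpow_add₀ hP0.ne', zpow_add₀ hP0.ne']
    ring
  have hdvd : ∀ e, e ≡ e₁ [ZMOD n] ↔ (n : ℤ) ∣ e + t := by
    intro e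
    rw [Int.modEq_iff_dvd]
    constructor
    · intro h1
      have := dvd_sub hd₁ h1
      rwa [show e₁ + t - (e₁ - e) = e + t by ring] at this
    · intro h1
      have := dvd_sub hd₁ h1
      rwa [show e₁ + t - (e + t) = e₁ - e by ring] at this
  obtain ⟨c, hc, hc'⟩ := nb_moore_norm (p := p) S (fun l => γ l (E l))
    (fun l => frz p (E l + R₁) (y l)) (G := Real.exp (-g l₁ e₁))
    (ρ := Real.exp (-((p : ℝ) ^ (e₁ + R₁) * s l₁))) (Real.exp_pos _) (Real.exp_pos _) ⟨l₁, hl₁⟩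
    (fun l hl => by rw [hnγ _ _ (hSg l hl).1, (hSg l hl).2.2.1])
    (fun l hl => by
      rw [hny, zpow_add₀ hP0.ne', zpow_add₀ hP0.ne', mul_right_comm, (hSg l hl).2.2.2,
        mul_right_comm])
    (fun u hu => by
      obtain ⟨m1, m2⟩ := hmin u (hu.trans_le (Finset.card_le_card hSB))
      have hν : Real.exp (-g l₁ e₁) * Real.exp (-((p : ℝ) ^ (e₁ + R₁) * s l₁)) ^ p ^ u =
          Real.exp (-(g l₁ e₁ + (p : ℝ) ^ (e₁ + (R₁ + u)) * s l₁)) := by
        rw [← Real.exp_nat_mul, ← Real.exp_add, ← add_assoc, zpow_add₀ hP0.ne' (e₁ + R₁),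
          zpow_natCast]
        congr 1
        push_cast
        ring
      rw [hν]
      have key := hlc (R₁ + u) e₁ (Real.exp (-(g l₁ e₁ + (p : ℝ) ^ (e₁ + (R₁ + u)) * s l₁)))
        (Real.exp (-((p : ℝ) ^ t)⁻¹))
        (S.map ⟨fun l => (l, E l), fun a b hab => (Prod.mk.inj hab).1⟩) (Real.exp_pos _)
        (Real.exp_lt_one_iff.2 (neg_neg_iff_pos.2 (inv_pos.2 hpt))) ?_ ?_ ?_
      · rw [Finset.sum_map] at key
        refine lt_of_eq_of_lt ?_ key
        congr 1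
        refine Finset.sum_congr rfl fun l _ => ?_
        simp only [Function.Embedding.coeFn_mk]
        rw [← frz_natCast, ← frz_add, show (u : ℤ) + (E l + R₁) = E l + (R₁ + u) by ring]
      · intro j e he
        by_cases h0 : γ j e = 0
        · rw [h0, zero_mul, norm_zero]
          exact (Real.exp_pos _).le
        · have h1 := m1 ⟨(j, e, t), h0, (hdvd e).1 he⟩
          simp only at h1
          rw [hval, hval, sub_le_sub_iff_right] at h1
          rw [hnorm _ _ _ h0]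
          exact Real.exp_le_exp.2 (neg_le_neg (le_of_mul_le_mul_left h1 hpt))
      · intro j e u' hu' he
        by_cases h0 : γ j e = 0
        · rw [h0, zero_mul, norm_zero, zero_pow (pow_ne_zero _ (Fact.out : p.Prime).ne_zero)]
          positivity
        · have h1 := m1 ⟨(j, e, t + u'), h0, by
            have := (hdvd _).1 he
            rwa [show e + u' + t = e + (t + u') by ring] at this⟩
          simp only at h1
          rw [hval, hval, zpow_add₀ hP0.ne' t, zpow_natCast] at h1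
          rw [hnorm _ _ _ h0, ← Real.exp_nat_mul, ← Real.exp_add]
          refine Real.exp_le_exp.2 (le_of_mul_le_mul_left ?_ hpt)
          have h2 : (1 : ℝ) ≤ u' := by exact_mod_cast hu'
          rw [mul_add, mul_neg _ ((p : ℝ) ^ t)⁻¹, mul_inv_cancel₀ hpt.ne']
          push_cast at h1 ⊢
          linarith
      · intro j e
        rw [Finset.mem_map]
        constructor
        · rintro ⟨l, hl, hle⟩
          obtain ⟨rfl, rfl⟩ := Prod.mk.inj hle
          obtain ⟨a1, a2, a3, a4⟩ := hSg l hl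
          refine ⟨(hdvd _).2 a2, ?_⟩
          rw [hnorm _ _ _ a1, a3, zpow_add₀ hP0.ne', zpow_add₀ hP0.ne' e₁, mul_right_comm, a4,
            mul_right_comm]
        · rintro ⟨he, hnrm⟩
          have h0 : γ j e ≠ 0 := by
            intro h0
            rw [h0, zero_mul, norm_zero] at hnrm
            exact (Real.exp_pos _).ne hnrm
          rw [hnorm _ _ _ h0, Real.exp_eq_exp, neg_inj] at hnrm
          have h1 := m2 ⟨(j, e, t), h0, (hdvd e).1 he⟩ (by
            simp only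
            rw [hval, hval, hnrm])
          simp only at h1
          have h2 : (p : ℝ) ^ e * s j = (p : ℝ) ^ e₁ * s l₁ := by
            rw [zpow_add₀ hP0.ne', zpow_add₀ hP0.ne', mul_right_comm, mul_right_comm _ _ (s l₁)] at h1
            exact mul_right_cancel₀ hpt.ne' h1
          have h3 : g j e = g l₁ e₁ := by
            rw [zpow_add₀ hP0.ne', zpow_add₀ hP0.ne' e₁, mul_right_comm, h2, mul_right_comm] at hnrm
            exact add_right_cancel hnrm
          have h4 : good j e := ⟨h0, (hdvd e).1 he, h3, h2⟩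
          have h5 : j ∈ S := Finset.mem_filter.2 ⟨Finset.mem_univ _, e, h4⟩
          exact ⟨j, h5, Prod.ext rfl (huniq j _ _ (hSg j h5) h4)⟩)
  have hk : ∀ l, ∃ k : ℤ, l ∈ S → E l + t = n * k := fun l => by
    by_cases hl : l ∈ S
    · obtain ⟨k, hk⟩ := (hSg l hl).2.1
      exact ⟨k, fun _ => hk⟩
    · exact ⟨0, fun h => absurd h hl⟩
  choose k hk using hk
  refine hc' (had S k c (Real.exp (-((p : ℝ) ^ (e₁ + t) * s l₁))) ?_ ?_)
  · intro l hl
    rw [← hk l hl, hny, zpow_add₀ hP0.ne', zpow_add₀ hP0.ne', mul_right_comm, (hSg l hl).2.2.2,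
      mul_right_comm]
  · have e1 : ∑ j ∈ S, (c j : OO K) * frz p (n * k j) (y j) =
        frz p (t - R₁) (∑ j ∈ S, (c j : OO K) * frz p (E j + R₁) (y j)) := by
      rw [map_sum]
      refine Finset.sum_congr rfl fun l hl => ?_
      rw [map_mul, map_natCast, ← frz_add, ← hk l hl]
      congr 2
      ring
    have e2 : Real.exp (-((p : ℝ) ^ (e₁ + t) * s l₁)) =
        Real.exp (-((p : ℝ) ^ (e₁ + R₁) * s l₁)) ^ ((p : ℝ) ^ (t - R₁)) := by
      rw [← Real.exp_mul, show e₁ + t = e₁ + R₁ + (t - R₁) by ring, zpow_add₀ hP0.ne' (e₁ + R₁)]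
      congr 1
      ring
    rw [e1, norm_frz, e2]
    exact Real.rpow_lt_rpow (norm_nonneg _) hc (zpow_pos hP0 _)

end Crest.Agent.R227
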