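import Crest.Agent.R227.ZarB

/-! # Row 227: a subgroup of points in a hypersurface satisfies a linear relation. -/

set_option autoImplicit false
set_option linter.unusedSectionVars false

open MvPowerSeries Filter Topology

noncomputable section
namespace Crest.Agent.R227

open Crest.LubinTate

variable {K : Type} [NontriviallyNormedField K] [IsUltrametricDist K] [CompleteSpace K]
  [IsAlgClosed K] {p : ℕ} [Fact p.Prime] [CharP K p] {m : ℕ}

section Aux
variable {Γ : FormalGroup (OO K)} [Γ.IsComm]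

/-- the map `T` on points is induced by the endomorphism `α` -/
def ZRep (T : Pt (IO K) Γ → Pt (IO K) Γ) (α : PowerSeries (OO K)) : Prop :=
  IsFGHom Γ Γ α ∧ ∀ y, (T y).1 = ev1 (IO K) y.1 α

theorem zar_rep {T : Pt (IO K) Γ → Pt (IO K) Γ}
    (hT : ZAna fun y : Unit → Pt (IO K) Γ => (T (y ())).1) (hadd : ∀ x y, T (x + y) = T x + T y) :
    ∃ α, ZRep T α := by
  obtain ⟨α, hα⟩ := hT
  have h1 : ∀ y : Pt (IO K) Γ, (T y).1 = ev1 (IO K) y.1 α := fun y => hα fun _ => y
  have h0 : T 0 = 0 := by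
    have := hadd 0 0
    rw [add_zero] at this
    exact left_eq_add.1 this
  have hc : PowerSeries.constantCoeff α = 0 := by
    have := h1 0
    rw [h0, Pt.zero_val, ev1_zero] at this
    exact this.symm
  refine ⟨α, (isFGHom_iff _ _ _).2 ⟨hc, ?_⟩, h1⟩
  rw [← sub_eq_zero]
  refine eq_zero_of_ev fun a ha => ?_
  have hm : ∀ i, a i ∈ (IO K).radical := fun i => (mem_IO_radical K _).2 (ha i)
  have e : a = ![a 0, a 1] := by
    funext i
    fin_cases i <;> rfl
  have e1 : ev (IO K) (RingHom.id _) a Γ.toPowerSeries = ev2 (IO K) Γ (a 0) (a 1) := by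
    rw [ev2, ← e]
  rw [map_sub, ev_psubst _ hm Γ.zero_constantCoeff,
    ev_fadd _ hm Γ (fg_cc (constantCoeff_X _) hc) (fg_cc (constantCoeff_X _) hc),
    ev_psubst _ hm (constantCoeff_X _), ev_psubst _ hm (constantCoeff_X _), ev_X _ _ hm,
    ev_X _ _ hm, e1, sub_eq_zero]
  have key : ∀ x y : Pt (IO K) Γ, ev1 (IO K) (ev2 (IO K) Γ x.1 y.1) α =
      ev2 (IO K) Γ (ev1 (IO K) x.1 α) (ev1 (IO K) y.1 α) := by
    intro x y
    rw [← h1 x, ← h1 y, ← Pt.add_val, ← Pt.add_val, ← hadd, h1]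
  exact key ⟨a 0, hm 0⟩ ⟨a 1, hm 1⟩

theorem zar_rep_zero : ZRep (Γ := Γ) (fun _ => 0) 0 := ⟨hom_zero _ _, fun _ => (map_zero _).symm⟩

theorem zar_rep_neg : ∃ α, ZRep (Γ := Γ) (fun y => -y) α ∧ IsUnit (PowerSeries.coeff 1 α) :=
  ⟨(exists_neg Γ).choose, ⟨(exists_neg Γ).choose_spec.1, fun _ => rfl⟩, by
    rw [(exists_neg Γ).choose_spec.2.1]; exact isUnit_one.neg⟩

/-- solving a relation with a linear term for one coordinate -/
theorem zar_solve {Λ : AddSubmonoid (Fin m → Pt (IO K) Γ)} {f : MvPowerSeries (Fin m) (zarK K p)}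
    (hf : ZVan Λ f) {j : Fin m} (hj : coeff (Finsupp.single j 1) f ≠ 0) :
    ∃ H : MvPowerSeries (Fin m) (zarK K p), constantCoeff H = 0 ∧ ∀ x ∈ Λ,
      (x j).1 = ev (IO K) (zarJ K p) (fun i => (Function.update x j 0 i).1) H := by
  classical
  have hb : ∀ i, constantCoeff (Function.update X j f i) = 0 := by
    intro i
    by_cases h : i = j
    · subst h; rw [Function.update_self]; exact hf.const
    · rw [Function.update_of_ne h]; exact constantCoeff_X i
  obtain ⟨H, hH⟩ := subst_surjective hb (span_X_le_of_jacobian hb fun a ha => by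
    have h1 : ∀ i, i ≠ j → a i = 0 := by
      intro i hi
      have := ha i
      rw [Function.update_of_ne hi, Finset.sum_eq_single i] at this
      · simpa using this
      · intro l _ hl
        rw [coeff_X, if_neg (by simpa [Finsupp.single_left_inj] using hl), zero_mul]
      · simp
    have h2 := ha j
    rw [Function.update_self, Finset.sum_eq_single j (fun l _ hl => by rw [h1 l hl, mul_zero])
      (by simp)] at h2
    funext i
    by_cases hi : i = j
    · subst hi; exact (mul_eq_zero.1 h2).resolve_left hj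
    · exact h1 i hi) (X j)
  have key : ∀ x ∈ Λ,
      (x j).1 = ev (IO K) (zarJ K p) (fun i => (Function.update x j 0 i).1) H := by
    intro x hx
    have h1 := ev_subst (IO K) (zarJ K p) (fun i => (x i).2) hb H
    have hH' : H.subst (Function.update X j f) = (X j : MvPowerSeries (Fin m) (zarK K p)) := hH
    rw [hH', ev_X _ _ (fun i => (x i).2)] at h1
    rw [h1]
    congr 2
    funext i
    by_cases h : i = j
    · subst h
      rw [Function.update_self, Function.update_self]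
      exact hf x hx
    · rw [Function.update_of_ne h, Function.update_of_ne h, ev_X _ _ (fun i => (x i).2)]
  refine ⟨H, ?_, key⟩
  have h1 := key 0 Λ.zero_mem
  rw [show Function.update (0 : Fin m → Pt (IO K) Γ) j 0 = 0 from Function.update_eq_self j _,
    show (fun i => ((0 : Fin m → Pt (IO K) Γ) i).1) = fun _ => 0 from rfl, zar_ev_zero] at h1
  exact zarJ_injective (by rw [← h1, map_zero]; rfl)

theorem zar_main (hK : ResAlg p K) {h : ℕ} (hh : 1 ≤ h)
    (hΓ : mulSeries Γ p = PowerSeries.X ^ p ^ h) (m : ℕ) :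
    ∀ (Λ : AddSubmonoid (Fin m → Pt (IO K) Γ)) (f : MvPowerSeries (Fin m) (zarK K p)),
      ZVan Λ f → f ≠ 0 → ∃ (α : Fin m → PowerSeries (OO K)) (T : Fin m → Pt (IO K) Γ → Pt (IO K) Γ),
        (∀ l, ZRep (T l) (α l)) ∧ (∃ l, IsUnit (PowerSeries.coeff 1 (α l))) ∧
          ∀ x ∈ Λ, ∑ l, T l (x l) = 0 := by
  induction m with
  | zero =>
    intro Λ f hf hf0
    exact absurd (zar_linear hK hh hΓ (fun _ _ l => l.elim0) hf) hf0
  | succ m ih =>
    intro Λ f hf hf0
    obtain ⟨f', hf', j, hj⟩ : ∃ f' : MvPowerSeries (Fin (m + 1)) (zarK K p), ZVan Λ f' ∧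
        ∃ j, coeff (Finsupp.single j 1) f' ≠ 0 := by
      by_contra hcon
      push Not at hcon
      exact hf0 (zar_linear hK hh hΓ hcon hf)
    let ρ : (Fin (m + 1) → Pt (IO K) Γ) →+ (Fin m → Pt (IO K) Γ) :=
      AddMonoidHom.mk' (fun x i => x (j.succAbove i)) fun _ _ => rfl
    by_cases hI : ∀ g : MvPowerSeries (Fin m) (zarK K p), ZVan (Λ.map ρ) g → g = 0
    · obtain ⟨H, hH0, hH⟩ := zar_solve hf' hj
      let ins : (Fin m → Pt (IO K) Γ) → Fin (m + 1) → Pt (IO K) Γ := fun y => j.insertNth 0 y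
      let Ψ : (Fin m → Pt (IO K) Γ) → Pt (IO K) Γ := fun y =>
        ⟨ev (IO K) (zarJ K p) (fun i => (ins y i).1) H,
          ev_mem_radical _ _ (fun i => (ins y i).2) (by rw [hH0, map_zero]; exact zero_mem _)⟩
      have hΨ : ∀ x ∈ Λ, Ψ (ρ x) = x j := by
        intro x hx
        refine Pt.ext ?_
        have : ins (ρ x) = Function.update x j 0 := Fin.insertNth_removeNth j 0 x
        change ev (IO K) (zarJ K p) (fun i => (ins (ρ x) i).1) H = _
        rw [this]
        exact (hH x hx).symm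
      have hA : ∀ {σ : Type} [Finite σ] {Φ : (σ → Pt (IO K) Γ) → Fin m → Pt (IO K) Γ},
          (∀ i, ZAna fun y => (Φ y i).1) → ZAna fun y => (Ψ (Φ y)).1 := by
        intro σ _ Φ hΦ
        refine ZAna.comp _ H (Φ := fun y i => (ins (Φ y) i).1) ?_ fun y i => (ins (Φ y) i).2
        refine (Fin.forall_iff_succAbove j).2 ⟨?_, fun i => ?_⟩
        · simp only [ins, Fin.insertNth_apply_same]
          exact ZAna.const _
        · simp only [ins, Fin.insertNth_apply_succAbove]
          exact hΦ i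
      have a1 : ∀ x ∈ Λ.map ρ, ∀ y ∈ Λ.map ρ, Ψ (x + y) = Ψ x + Ψ y := by
        rintro _ ⟨x, hx, rfl⟩ _ ⟨y, hy, rfl⟩
        rw [← map_add, hΨ x hx, hΨ y hy, hΨ _ (Λ.add_mem hx hy)]
        rfl
      have a2 : ∀ x ∈ Λ.map ρ, ∀ y, Ψ (x + y) = Ψ x + Ψ y := fun x hx =>
        zar_dense hK hh hΓ hI (Φ := fun y => Ψ (x + y)) (Ψ := fun y => Ψ x + Ψ y)
          (hA fun i => ZAna.add (ZAna.const _) (ZAna.coord i))
          (ZAna.add (ZAna.const _) (hA (Φ := fun y => y) fun i => ZAna.coord i)) (a1 x hx)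
      have a3 : ∀ x y, Ψ (x + y) = Ψ x + Ψ y := fun x y =>
        zar_dense hK hh hΓ hI (Φ := fun x => Ψ (x + y)) (Ψ := fun x => Ψ x + Ψ y)
          (hA fun i => ZAna.add (ZAna.coord i) (ZAna.const _))
          (ZAna.add (hA (Φ := fun y => y) fun i => ZAna.coord i) (ZAna.const _))
          (fun x hx => a2 x hx y) x
      have a4 : ∀ i : Fin m, ∃ α, ZRep (fun y => Ψ (Pi.single i y)) α := by
        intro i
        refine zar_rep (hA (Φ := fun y : Unit → Pt (IO K) Γ => Pi.single i (y ())) fun l => ?_)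
          fun x y => by rw [Pi.single_add, a3]
        by_cases hl : l = i
        · subst hl
          simp only [Pi.single_eq_same]
          exact ZAna.coord ()
        · simp only [Pi.single_eq_of_ne hl]
          exact ZAna.const _
      choose α hα using a4
      obtain ⟨ι, hι, hι'⟩ := zar_rep_neg (Γ := Γ)
      refine ⟨j.insertNth ι α, j.insertNth (fun y => -y) fun i y => Ψ (Pi.single i y),
        (Fin.forall_iff_succAbove j).2 ⟨?_, fun i => ?_⟩, ⟨j, ?_⟩, fun x hx => ?_⟩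
      · simpa only [Fin.insertNth_apply_same] using hι
      · simpa only [Fin.insertNth_apply_succAbove] using hα i
      · simpa only [Fin.insertNth_apply_same] using hι'
      · rw [Fin.sum_univ_succAbove _ j]
        simp only [Fin.insertNth_apply_same, Fin.insertNth_apply_succAbove]
        have e1 := map_sum (AddMonoidHom.mk' Ψ a3) (fun i => Pi.single i (ρ x i)) Finset.univ
        rw [Finset.univ_sum_single] at e1
        have e2 : x j = ∑ i, Ψ (Pi.single i (x (j.succAbove i))) := (hΨ x hx).symm.trans e1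
        rw [← e2, neg_add_cancel]
    · push Not at hI
      obtain ⟨g, hg, hg0⟩ := hI
      obtain ⟨α, T, h1, ⟨l, h2⟩, h3⟩ := ih _ g hg hg0
      refine ⟨j.insertNth 0 α, j.insertNth (fun _ => 0) T,
        (Fin.forall_iff_succAbove j).2 ⟨?_, fun i => ?_⟩, ⟨j.succAbove l, ?_⟩, fun x hx => ?_⟩
      · simpa only [Fin.insertNth_apply_same] using zar_rep_zero
      · simpa only [Fin.insertNth_apply_succAbove] using h1 i
      · simpa only [Fin.insertNth_apply_succAbove] using h2
      · rw [Fin.sum_univ_succAbove _ j]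
        simp only [Fin.insertNth_apply_same, Fin.insertNth_apply_succAbove, zero_add]
        exact h3 _ ⟨x, hx, rfl⟩

end Aux

/-- Plan.  `κ ⊆ K` = elements fixed by a power of Frobenius (a perfect subfield inside `O_K`).
*Decoupling*: if `‖∑ c_α z_α^(Q^i)‖ ≤ M ρ^(Q^i)` for large `i` (finite sum, `c_α ∈ K`, `z_α ∈ O_K`) then
`‖∑ φ(c_α) z_α‖ ≤ ρ` for every `κ`-linear `φ : K → κ`.  [Write `c_α = ∑ a_{αβ} e_β` in a `κ`-basis; for
`i` in an arithmetic progression the sum is `∑ e_β w_β^(Q^i)`, `w_β = ∑ a_{αβ} z_α`; divide by the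
largest `w_β` and use `ResAlg`.]  So `AsympVanish F π r` gives `(φ_* F)(π) = 0`; the same for
`g ∈ O⟦Y⟧` vanishing at all `π^(Q^i)`.  For `J ⊆ Fin m` let `I_J ⊆ κ⟦S_J⟧` be the ideal of series
vanishing on `Λ` (e.g. series supported on `J`).  Take `J'` minimal with `I_J' ≠ 0`.
*Some `f ∈ I_J'` has a nonzero linear term*: otherwise, `g(Y) = f(λ + Y)` vanishes at all
`λ'^(Q^i)` (`p^i • λ' ∈ Λ`), so its linear terms `∂_l f(λ) u(λ_l)` vanish and `I_J'` is stable under
all `∂_l`; an `f ≠ 0` of minimal order, projected by `∏ (1 - (S_l ∂_l)^(p-1))`, is a `p`-th power.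
Then `S_{j₀} = ψ(S_J)` on `Λ`, `J = J' \ j₀` (`subst_surjective`), `I_J = 0`, and decoupling twice plus
`eq_zero_of_ev` show that `ψ` is additive.  `α_j = ψ(X e_j)` (`j ∈ J`), `α_{j₀}` the inverse series
(`exists_neg`), `α_j = 0` otherwise. -/
theorem exists_relation (hK : ResAlg p K) {h : ℕ} (hh : 1 ≤ h) (Γh : FormalGroup (OO K))
    [Γh.IsComm] (hΓ : mulSeries Γh p = PowerSeries.X ^ p ^ h)
    (Λ : AddSubmonoid (Fin m → Pt (IO K) Γh)) (F : MvPowerSeries (Fin m) K) (hF : F ≠ 0)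
    (hΛ : ∀ x ∈ Λ, ∃ r : ℝ, 0 < r ∧ r < 1 ∧ AsympVanish (p ^ h) F (fun l => (x l).1) r) :
    ∃ (α : Fin m → PowerSeries (OO K)) (hα : ∀ l, IsFGHom Γh Γh (α l)),
      (∃ l, IsUnit (PowerSeries.coeff 1 (α l))) ∧ ∀ x ∈ Λ, ∑ l, Pt.map (hα l) (x l) = 0 := by
  obtain ⟨φ, hφ⟩ : ∃ φ : K →ₗ[zarK K p] zarK K p, zarMap φ F ≠ 0 := by
    by_contra hcon
    push Not at hcon
    refine hF (MvPowerSeries.ext fun d => ?_)
    exact (Module.forall_dual_apply_eq_zero_iff (zarK K p) _).1 fun φ => by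
      rw [← coeff_zarMap, hcon φ, map_zero]
  obtain ⟨α, T, h1, h2, h3⟩ := zar_main hK hh hΓ m Λ (zarMap φ F) (fun x hx => by
    obtain ⟨r, hr0, hr, H⟩ := hΛ x hx
    exact zar_asymp_ev hK hh (fun l => zar_pt_lt (x l)) hr0.le hr H φ) hφ
  refine ⟨α, fun l => (h1 l).1, h2, fun x hx => ?_⟩
  rw [← h3 x hx]
  exact Finset.sum_congr rfl fun l _ => Pt.ext ((h1 l).2 _).symm

end Crest.Agent.R227
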