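import Crest.Agent.R227.DensAux
import Crest.Agent.R227.Eta
import Crest.Agent.R227.Jac
import Crest.Agent.R227.Asym
import Crest.Agent.R227.Zar
import Crest.Agent.R227.NewtonA
import Crest.Agent.R227.NewtonB

/-! # Row 227: orbits are Zariski dense in the height strata of positive height. -/

set_option autoImplicit false
set_option linter.unusedSectionVars false

open MvPowerSeries Filter Topology

noncomputable section
namespace Crest.Agent.R227

open Crest.LubinTate

variable {K : Type} [NontriviallyNormedField K] [IsUltrametricDist K] [CompleteSpace K]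
  [IsAlgClosed K] {p : ℕ} [Fact p.Prime] [CharP K p] {n m : ℕ}
  {Γ : FormalGroup (kk p n)} {j : kk p n →+* OO K} {ε : ℝ}

/-- the subgroup `Λ = {(η ρ (ξ y_l))_l}` -/
def lam [Γ.IsComm] {G Γh : FormalGroup (OO K)} [G.IsComm] [Γh.IsComm] (hG : IsDef Γ j ε G)
    {η : PowerSeries (OO K)} (hη : IsFGHom G Γh η) {y : Fin m → OO K} (hy : ∀ l, ‖y l‖ < 1) :
    AddSubmonoid (Fin m → Pt (IO K) Γh) where
  carrier := {x | ∃ ξ, IsFGHom Γ Γ ξ ∧
    ∀ l, (x l).1 = ev1 (IO K) (rho p n G (ev1 (IO K) (y l) (PowerSeries.map j ξ))) η}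
  zero_mem' := ⟨0, hom_zero Γ Γ, fun l => by
    rw [map_zero, map_zero, hG.rho_zero, ev1_zero, hη.1]; rfl⟩
  add_mem' := by
    rintro x x' ⟨ξ, hξ, hx⟩ ⟨ξ', hξ', hx'⟩
    refine ⟨fadd Γ ξ ξ', hom_add hξ hξ', fun l => ?_⟩
    have h1 : ‖ev1 (IO K) (y l) (PowerSeries.map j ξ)‖ < 1 :=
      unrad (ev1_mem _ (rad (hy l)) (transfer_cc_map j hξ.1))
    have h2 : ‖ev1 (IO K) (y l) (PowerSeries.map j ξ')‖ < 1 :=
      unrad (ev1_mem _ (rad (hy l)) (transfer_cc_map j hξ'.1))
    have h3 : PowerSeries.map j (fadd Γ ξ ξ') =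
        fadd (Γ.map j) (PowerSeries.map j ξ) (PowerSeries.map j ξ') := map_fadd Γ j hξ.1 hξ'.1
    have h4 : ev1 (IO K) (y l) (fadd (Γ.map j) (PowerSeries.map j ξ) (PowerSeries.map j ξ')) =
        ev2 (IO K) (Γ.map j) (ev1 (IO K) (y l) (PowerSeries.map j ξ))
          (ev1 (IO K) (y l) (PowerSeries.map j ξ')) :=
      ev_fadd (IO K) (fun _ => rad (hy l)) (Γ.map j) (transfer_cc_map j hξ.1)
        (transfer_cc_map j hξ'.1)
    rw [Pi.add_apply, Pt.add_val, hx, hx', h3, h4, hG.rho_add h1 h2,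
      ev1_hom _ hη (rad (hG.norm_rho_lt h1)) (rad (hG.norm_rho_lt h2))]

theorem no_relation [Γ.IsComm] (hΓ : Nice p n Γ) {h : ℕ} (hh : 1 ≤ h) (hm : 1 ≤ m)
    (hn : n = h + m) {G Γh : FormalGroup (OO K)} [G.IsComm] [Γh.IsComm] (hG : IsDef Γ j ε G)
    {η : PowerSeries (OO K)} (hη : IsFGHom G Γh η) (hη1 : PowerSeries.coeff 1 η ≠ 0)
    (hΓh : mulSeries Γh p = PowerSeries.X ^ p ^ h) {y : Fin m → OO K} (hy : ∀ l, ‖y l‖ < 1)
    (hy0 : ∀ l, y l ≠ 0) (had : Adapted p n y) (α : Fin m → PowerSeries (OO K))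
    (hα : ∀ l, IsFGHom Γh Γh (α l)) (hu : ∃ l, IsUnit (PowerSeries.coeff 1 (α l)))
    (hrel : ∀ x ∈ lam hG hη hy, ∑ l, Pt.map (hα l) (x l) = 0) : False := by
  have hp : p ≠ 0 := (Fact.out : p.Prime).ne_zero
  have hQ : p ^ h ≠ 0 := pow_ne_zero _ hp
  have hq : p ^ n ≠ 0 := pow_ne_zero _ hp
  set β : Fin m → PowerSeries (OO K) := fun l => PowerSeries.subst η (α l) with hβdef
  have hβ : ∀ l, IsFGHom G Γh (β l) := fun l => hom_comp hη (hα l)
  have hβp : ∀ l, (PowerSeries.subst (mulSeries G p) (β l) : PowerSeries (OO K)) = β l ^ p ^ h := by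
    intro l
    have hs := PowerSeries.HasSubst.of_constantCoeff_zero' (hβ l).1
    rw [hom_comm_mulSeries (hβ l), hΓh, PowerSeries.subst_pow hs, PowerSeries.subst_X hs]
  obtain ⟨γ, hper, hγ, hne, hLC⟩ := exists_leadCancel hh hm hn Γ hΓ.smul j Γh hG.nonneg hG.lt_one β
    (fun l => (hβ l).1)
    (fun l d => by
      rw [← ((isFGHom_iff _ _ _).1 (hβ l)).2]
      exact norm_coeff_subst_sub hG.nonneg (Γ.map j).zero_constantCoeff G.zero_constantCoeff
        (fun d => by rw [norm_sub_rev]; exact hG.close d) _ d)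
    (fun l e => by
      rw [← hβp l]
      refine norm_coeff_subst_sub (τ := Unit) hG.nonneg ?_ (constantCoeff_mulSeries G p)
        (fun d => ?_) _ _
      · change PowerSeries.constantCoeff _ = 0
        rw [map_pow, PowerSeries.constantCoeff_X, zero_pow hq]
      · rw [norm_sub_rev, ← map_sub]
        have := hG.coeff_mulSeries (d ())
        rwa [PowerSeries.coeff_def (s := d) rfl] at this)
    (by
      obtain ⟨l, hl⟩ := hu
      refine ⟨l, exists_big_coeff ?_ (constantCoeff_mulSeries G p) hq ?_ hG.lt_one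
        hG.coeff_mulSeries (hβp l)⟩
      · intro h0
        have := coeff_one_subst (g := α l) hη.1
        change PowerSeries.coeff 1 (β l) = _ at this
        rw [h0, map_zero] at this
        exact mul_ne_zero hl.ne_zero hη1 this.symm
      · calc 2 ≤ p := (Fact.out : p.Prime).two_le
          _ = p ^ 1 := (pow_one p).symm
          _ ≤ p ^ h := Nat.pow_le_pow_right (Fact.out : p.Prime).pos hh)
    y hy
    (by
      intro a R x hx
      obtain ⟨k, r, hr⟩ : ∃ k r : ℕ, R + n * k = r := by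
        refine ⟨R.natAbs, (R + n * R.natAbs).toNat, (Int.toNat_of_nonneg ?_).symm⟩
        have h1 : (1 : ℤ) ≤ n := by exact_mod_cast hG.one_le
        have h2 : -R ≤ (R.natAbs : ℤ) := by omega
        nlinarith [Int.natCast_nonneg R.natAbs]
      have hz : ∀ l, ‖j a * frz p R (y l)‖ < 1 := fun l => by
        rw [norm_mul]
        exact (mul_le_of_le_one_left (norm_nonneg _) (OO.norm_le_one K _)).trans_lt
          (norm_frz_lt p R (hy l))
      have hξ := hΓ.hom_monomial a r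
      have hzq : ∀ l, (j a * frz p R (y l)) ^ p ^ (n * k) =
          ev1 (IO K) (y l) (PowerSeries.map j (PowerSeries.C a * PowerSeries.X ^ p ^ r)) := by
        intro l
        rw [← frz_natCast, map_mul, Nat.cast_mul, frz_galois p hG.one_le, ← frz_add, add_comm, hr,
          frz_natCast]
        simp only [map_mul, map_pow, PowerSeries.map_C, PowerSeries.map_X, ev1_C,
          ev1_X _ (rad (hy l))]
      let lam0 : Fin m → Pt (IO K) G := fun l =>
        ⟨rho p n G (j a * frz p R (y l)), rad (hG.norm_rho_lt (hz l))⟩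
      have h1 : (fun l => Pt.map hη (p ^ k • lam0 l)) ∈ lam hG hη hy := by
        refine ⟨_, hξ, fun l => ?_⟩
        rw [Pt.map_val, Pt.nsmul_val, ← hzq, hG.rho_pow (hz l)]
      have h2 := hrel _ h1
      simp only [map_nsmul, ← Finset.smul_sum] at h2
      have h3 : ∑ l, Pt.map (hα l) (Pt.map hη (lam0 l)) = 0 := by
        set w := ∑ l, Pt.map (hα l) (Pt.map hη (lam0 l))
        have h4 := congrArg Subtype.val h2
        rw [Pt.nsmul_val, mulSeries_pow' hQ hΓh, ev1_X_pow (unrad w.2), Pt.zero_val] at h4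
        exact Pt.ext (pow_eq_zero_iff (pow_ne_zero _ hQ) |>.1 h4)
      have h5 := norm_sum_sub_le hG.nonneg Finset.univ x
        (fun l => Pt.map (hα l) (Pt.map hη (lam0 l))) (fun l => by
          rw [hx, Pt.map_val, Pt.map_val, ← ev1_subst _ (lam0 l).2 hη.1]
          refine (norm_ev1_sub_le (hz l) (unrad (lam0 l).2) _).trans ?_
          rw [norm_sub_rev]
          exact hG.norm_rho_sub (hz l))
      rwa [h3, Pt.zero_val, sub_zero] at h5)
  exact not_leadCancel hh hm hn γ hper hγ hne y hy hy0 had hLC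

instance charP_mv {σ : Type} : CharP (MvPowerSeries σ (kk p n)) p :=
  charP_of_injective_algebraMap (algebraMap (kk p n) (MvPowerSeries σ (kk p n))).injective p

theorem density_U (hK : ResAlg p K) [Γ.IsComm] (hΓ : Nice p n Γ) {h : ℕ} (hh : 1 ≤ h) (hm : 1 ≤ m)
    (hn : n = h + m) (hε0 : 0 ≤ ε) (hε : ε < 1)
    {HU : FormalGroup (MvPowerSeries (Fin m) (kk p n))} [HU.IsComm]
    (hred : HU.map constantCoeff = Γ)
    (hlow : ∀ l, l < h → PowerSeries.coeff (p ^ l) (mulSeries HU p) = 0)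
    (hcoef : ∀ l : Fin m, PowerSeries.coeff (p ^ (h + l)) (mulSeries HU p) = X l)
    {t : MvPowerSeries (Fin m) (kk p n) →+* OO K} (ht : IsPoint j ε t) (ht0 : t (X ⟨0, hm⟩) ≠ 0)
    (f : MvPowerSeries (Fin m) (kk p n))
    (horb : ∀ ξ, IsFGHom Γ Γ ξ →
      ∃ (t' : ℕ → (MvPowerSeries (Fin m) (kk p n) →+* OO K)) (θ : ℕ → PowerSeries (OO K)),
        (∀ l, Tendsto (fun i => t' i (X l) - t (X l)) atTop (𝓝 0)) ∧
        (∀ e (δ : ℝ), 0 < δ → ∀ᶠ i in atTop, ∀ e', e' < e →
          ‖PowerSeries.coeff e' (θ i - PowerSeries.X)‖ ≤ δ) ∧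
        ∀ᶠ i in atTop, IsPoint j ε (t' i) ∧ IsFGHom (HU.map (t' i)) (HU.map t) (θ i) ∧
          (∀ e, ‖PowerSeries.coeff e (θ i) - j (PowerSeries.coeff e (gser Γ ξ i))‖ ≤ ε) ∧
          t' i f = 0) :
    f = 0 := by
  by_contra hf
  have hp : p ≠ 0 := (Fact.out : p.Prime).ne_zero
  have hQ : p ^ h ≠ 0 := pow_ne_zero _ hp
  have hn1 : 1 ≤ n := by omega
  obtain ⟨VU, hVU, hVU'⟩ := exists_versch p HU h hlow
  have hcoef' : ∀ l : Fin m, PowerSeries.coeff (p ^ (l : ℕ)) VU = X l := by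
    intro l
    rw [← hcoef l, hVU', PowerSeries.coeff_subst_X_pow hQ, pow_add, if_pos (Dvd.intro _ rfl),
      Nat.mul_div_cancel_left _ (Nat.pos_of_ne_zero hQ)]
    rfl
  have hG : IsDef Γ j ε (HU.map t) := ht.isDef hε0 hε hn1 hΓ.hp hred
  have hV : IsFGHom ((HU.map t).map (iterateFrobenius (OO K) p h)) (HU.map t)
      (PowerSeries.map t VU) := by
    rw [← map_frob_comm]; exact hom_map hVU t
  have hV1 : PowerSeries.coeff 1 (PowerSeries.map t VU) ≠ 0 := by
    have := hcoef' ⟨0, hm⟩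
    rw [pow_zero] at this
    rwa [PowerSeries.coeff_map, this]
  obtain ⟨η, Γh, hcomm, hη, hΓh, hη1⟩ := exists_eta (HU.map t) hh hV (map_versch t hVU') hV1
  obtain ⟨y, x, hy, hy0, hρ, hx, hinj, had⟩ := hG.exists_basis hh hn hV (map_versch t hVU') hV1
  obtain ⟨S, hS0, hJ, hS⟩ := exists_S hh hn ht hε0 hε hΓ.hp hred hVU' hcoef' hy hρ hx hinj
  have hcc : PowerSeries.map (constantCoeff : MvPowerSeries (Fin m) (OO K) →+* OO K)
      (PowerSeries.map (tT j t) VU) = PowerSeries.map t VU := by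
    rw [transfer_map_map, constantCoeff_comp_tT ht hε]
  obtain ⟨F, hF, hFv⟩ := exists_hypersurface (p := p) hh (PowerSeries.map (tT j t) VU)
    (transfer_cc_map _ hVU.1) (by rwa [← PowerSeries.coeff_map, hcc]) η hη.1 hη1
    (by rw [hcc]; exact subst_versch hV.1 (map_versch t hVU') hΓh hη) S hS0 hJ (tT j t f)
    (fun h0 => hf (tT_injective ht hε (by rw [h0, map_zero])))
  obtain ⟨α, hα, hu, hrel⟩ := exists_relation hK hh Γh hΓh (lam hG hη hy) F hF (by
    rintro z ⟨ξ, hξ, hz⟩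
    obtain ⟨t', θ, hT, hθ, hev⟩ := horb ξ hξ
    have hξy : ∀ l, ‖ev1 (IO K) (y l) (PowerSeries.map j ξ)‖ < 1 := fun l =>
      unrad (ev1_mem _ (rad (hy l)) (transfer_cc_map j hξ.1))
    set lm : Fin m → OO K := fun l => rho p n (HU.map t) (ev1 (IO K) (y l) (PowerSeries.map j ξ))
      with hlm
    have hlm1 : ∀ l, ‖lm l‖ < 1 := fun l => hG.norm_rho_lt (hξy l)
    obtain ⟨r, hr0, hr1, hr⟩ : ∃ r : ℝ, 0 < r ∧ r < 1 ∧ ∀ l, ‖lm l‖ ≤ r := by
      refine ⟨max (1 / 2) ‖lm‖, lt_max_of_lt_left (by norm_num), max_lt (by norm_num) ?_,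
        fun l => (norm_le_pi_norm lm l).trans (le_max_right _ _)⟩
      exact (pi_norm_lt_iff one_pos).2 hlm1
    refine ⟨r, hr0, hr1, hFv (fun i l => t' i (X l) - t (X l))
      (fun i => PowerSeries.subst (θ i) η) _ r hr0 hr1 hT ?_ ?_⟩
    · intro e
      rw [Metric.tendsto_nhds]
      intro δ hδ
      filter_upwards [hθ (e + 1) (δ / 2) (by positivity), hev] with i h1 h2
      rw [dist_eq_norm]
      exact (norm_coeff_subst_sub_self (by positivity) h2.2.1.1 h1 η).trans_lt (by linarith)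
    · filter_upwards [hev, hθ 2 (1 / 2) (by norm_num)] with i ⟨hp', hθi, hcl, hf'⟩ hθ1
      have hG' : IsDef Γ j ε (HU.map (t' i)) := hp'.isDef hε0 hε hn1 hΓ.hp hred
      have hη' : IsFGHom (HU.map (t' i)) Γh (PowerSeries.subst (θ i) η) := hom_comp hθi hη
      have hevT : ev (IO K) (RingHom.id _) (fun l => t' i (X l) - t (X l)) = evT t (t' i) := rfl
      have hunit : IsUnit (PowerSeries.coeff 1 (θ i)) := by
        rw [isUnit_iff_norm]
        have h1 := hθ1 1 (by norm_num)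
        rw [map_sub, PowerSeries.coeff_one_X] at h1
        refine le_antisymm (OO.norm_le_one K _) ?_
        by_contra h2
        have h3 := OO_norm_add_le K (PowerSeries.coeff 1 (θ i)) (-(PowerSeries.coeff 1 (θ i) - 1))
        rw [norm_neg, neg_sub, add_sub_cancel, norm_one] at h3
        rcases le_max_iff.1 h3 with h4 | h4
        · exact h2 h4
        · linarith
      have hθS : ∀ l, ev1 (IO K) (rho p n (HU.map (t' i)) (y l)) (θ i) =
          ev1 (IO K) (lm l) (mulSeries (HU.map t) (p ^ i)) := by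
        intro l
        have hc : PowerSeries.constantCoeff (ξ ^ p ^ (n * i)) = 0 := by
          rw [map_pow, hξ.1, zero_pow (pow_ne_zero _ hp)]
        have h3 : PowerSeries.map j (fadd Γ PowerSeries.X (ξ ^ p ^ (n * i))) =
            fadd (Γ.map j) (PowerSeries.map j PowerSeries.X)
              (PowerSeries.map j (ξ ^ p ^ (n * i))) :=
          map_fadd Γ j PowerSeries.constantCoeff_X hc
        have h4 : ev1 (IO K) (y l) (fadd (Γ.map j) (PowerSeries.map j PowerSeries.X)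
            (PowerSeries.map j (ξ ^ p ^ (n * i)))) =
            ev2 (IO K) (Γ.map j) (ev1 (IO K) (y l) (PowerSeries.map j PowerSeries.X))
              (ev1 (IO K) (y l) (PowerSeries.map j (ξ ^ p ^ (n * i)))) :=
          ev_fadd (IO K) (fun _ => rad (hy l)) (Γ.map j)
            (transfer_cc_map j PowerSeries.constantCoeff_X) (transfer_cc_map j hc)
        have hg0 : PowerSeries.constantCoeff (gser Γ ξ i) = 0 := by
          rw [gser_eq hΓ.hp hξ]
          exact constantCoeff_fadd Γ PowerSeries.constantCoeff_X hc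
        have h5 : ‖ev1 (IO K) (y l) (PowerSeries.map j ξ) ^ p ^ (n * i)‖ < 1 := by
          rw [norm_pow]
          exact pow_lt_one₀ (norm_nonneg _) (hξy l) (pow_ne_zero _ hp)
        rw [hG.rho_hom hG' hθi hg0 hcl (hy l), gser_eq hΓ.hp hξ, h3, h4, PowerSeries.map_X,
          ev1_X _ (rad (hy l)), map_pow, map_pow, hG.rho_add (hy l) h5, hρ, hG.rho_pow (hξy l)]
        let w : Pt (IO K) (HU.map t) := ⟨ev1 (IO K) (lm l) (mulSeries (HU.map t) (p ^ i)),
          ev1_mem _ (rad (hlm1 l)) (constantCoeff_mulSeries _ _)⟩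
        have h6 : (0 : Pt (IO K) (HU.map t)) + w = w := zero_add w
        have h7 : ((0 : Pt (IO K) (HU.map t)) + w).1 = w.1 := by rw [h6]
        exact h7
      refine ⟨hη'.1, ?_, fun l => ?_, fun l => ?_, ?_⟩
      · rw [hevT, transfer_map_map, evT_comp_tT ht hp' hε]
        exact subst_versch (transfer_cc_map _ hVU.1) (map_versch (t' i) hVU') hΓh hη'
      · rw [hevT, hS _ hp', ← norm_ev1_eq (hG'.norm_rho_lt (hy l)) hθi.1 hunit, hθS]
        refine (norm_ev1_mulSeries_le hQ hV.1 (map_versch t hVU') i (hlm1 l)).trans ?_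
        exact pow_le_pow_left₀ (norm_nonneg _) (hr l) _
      · rw [hevT, hS _ hp', ev1_subst _ (rad (hG'.norm_rho_lt (hy l))) hθi.1, hθS,
          ← ev1_subst _ (rad (hlm1 l)) (constantCoeff_mulSeries _ _), hom_comm_mulSeries hη,
          ev1_subst _ (rad (hlm1 l)) hη.1, mulSeries_pow' hQ hΓh, hz l,
          ev1_X_pow (unrad (ev1_mem _ (rad (hlm1 l)) hη.1))]
      · rw [hevT, ← RingHom.comp_apply, evT_comp_tT ht hp' hε, hf'])
  exact no_relation hΓ hh hm hn hG hη hη1 hΓh hy hy0 had α hα hu hrel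

end Crest.Agent.R227
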