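import Mathlib
import Crest.Prelude.Def_LubinTate

/-! # Row 227: algebra of formal group laws and their homomorphisms (any commutative ring). -/

set_option autoImplicit false

open MvPowerSeries

noncomputable section
namespace Crest.Agent.R227

open Crest.LubinTate

variable {R S : Type} [CommRing R] [CommRing S]

/-- `F(f, g)` -/
abbrev fadd {τ : Type} (F : FormalGroup R) (f g : MvPowerSeries τ R) : MvPowerSeries τ R :=
  F.toPowerSeries.subst ![f, g]

/-- `f(X₀)`, `f(X₁)` as series in two variables -/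
abbrev in0 (f : PowerSeries R) : MvPowerSeries (Fin 2) R :=
  PowerSeries.subst (X 0 : MvPowerSeries (Fin 2) R) f

abbrev in1 (f : PowerSeries R) : MvPowerSeries (Fin 2) R :=
  PowerSeries.subst (X 1 : MvPowerSeries (Fin 2) R) f

theorem isFGHom_iff (F G : FormalGroup R) (f : PowerSeries R) :
    IsFGHom F G f ↔ PowerSeries.constantCoeff f = 0 ∧
      PowerSeries.subst F.toPowerSeries f = fadd G (in0 f) (in1 f) := Iff.rfl

/-! ### substitution calculus -/

theorem fg_hs2 {τ : Type} {a b : MvPowerSeries τ R} (ha : constantCoeff a = 0)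
    (hb : constantCoeff b = 0) : HasSubst ![a, b] :=
  hasSubst_of_constantCoeff_zero fun s => by fin_cases s <;> simpa

theorem fg_hs {τ : Type} {a : MvPowerSeries τ R} (ha : constantCoeff a = 0) :
    PowerSeries.HasSubst a := PowerSeries.HasSubst.of_constantCoeff_zero ha

theorem fg_ccX : constantCoeff (PowerSeries.X : PowerSeries R) = 0 := PowerSeries.constantCoeff_X

theorem fg_cc2 {τ : Type} {P : MvPowerSeries (Fin 2) R} (hP : constantCoeff P = 0)
    {a b : MvPowerSeries τ R} (ha : constantCoeff a = 0) (hb : constantCoeff b = 0) :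
    constantCoeff (P.subst ![a, b]) = 0 :=
  constantCoeff_subst_eq_zero (fg_hs2 ha hb) (fun s => by fin_cases s <;> simpa) hP

theorem fg_cc {τ : Type} {a : MvPowerSeries τ R} (ha : constantCoeff a = 0) {f : PowerSeries R}
    (hf : PowerSeries.constantCoeff f = 0) : constantCoeff (PowerSeries.subst a f) = 0 :=
  PowerSeries.constantCoeff_subst_eq_zero ha f hf

theorem fg_subst2 {τ υ : Type} (P : MvPowerSeries (Fin 2) R) {a b : MvPowerSeries τ R}
    (ha : constantCoeff a = 0) (hb : constantCoeff b = 0) {c : τ → MvPowerSeries υ R}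
    (hc : HasSubst c) : subst c (P.subst ![a, b]) = P.subst ![subst c a, subst c b] := by
  rw [subst_comp_subst_apply (fg_hs2 ha hb) hc]
  congr 1
  funext s
  fin_cases s <;> rfl

theorem fg_subst1 {τ υ : Type} (f : PowerSeries R) {a : MvPowerSeries τ R}
    (ha : constantCoeff a = 0) {c : τ → MvPowerSeries υ R} (hc : HasSubst c) :
    subst c (PowerSeries.subst a f) = PowerSeries.subst (subst c a) f :=
  subst_comp_subst_apply (fg_hs ha).const hc f

theorem fg_ev2 {υ : Type} (P : MvPowerSeries (Fin 2) R) {a b : PowerSeries R}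
    (ha : PowerSeries.constantCoeff a = 0) (hb : PowerSeries.constantCoeff b = 0)
    {c : MvPowerSeries υ R} (hc : constantCoeff c = 0) :
    PowerSeries.subst c (P.subst ![a, b] : PowerSeries R)
      = P.subst ![PowerSeries.subst c a, PowerSeries.subst c b] :=
  fg_subst2 P ha hb (fg_hs hc).const

theorem fg_ev1 {υ : Type} (f : PowerSeries R) {a : PowerSeries R}
    (ha : PowerSeries.constantCoeff a = 0) {c : MvPowerSeries υ R} (hc : constantCoeff c = 0) :
    PowerSeries.subst c (PowerSeries.subst a f : PowerSeries R)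
      = PowerSeries.subst (PowerSeries.subst c a) f :=
  fg_subst1 f ha (fg_hs hc).const

theorem fg_ev_zero {υ : Type} {c : MvPowerSeries υ R} (hc : constantCoeff c = 0) :
    PowerSeries.subst c (0 : PowerSeries R) = 0 := by
  rw [← PowerSeries.coe_substAlgHom (fg_hs hc), map_zero]

theorem fg_self2 (P : MvPowerSeries (Fin 2) R) :
    P.subst ![(X 0 : MvPowerSeries (Fin 2) R), X 1] = P := by
  have : ![(X 0 : MvPowerSeries (Fin 2) R), X 1] = X := by
    funext s
    fin_cases s <;> rfl
  rw [this, subst_self, id]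

theorem fg_map2 (φ : R →+* S) {τ : Type} (P : MvPowerSeries (Fin 2) R) {a b : MvPowerSeries τ R}
    (ha : constantCoeff a = 0) (hb : constantCoeff b = 0) :
    MvPowerSeries.map φ (P.subst ![a, b])
      = (MvPowerSeries.map φ P).subst ![MvPowerSeries.map φ a, MvPowerSeries.map φ b] := by
  rw [map_subst (fg_hs2 ha hb)]
  congr 1
  funext s
  fin_cases s <;> rfl

theorem fg_map1 (φ : R →+* S) {τ : Type} (f : PowerSeries R) {a : MvPowerSeries τ R}
    (ha : constantCoeff a = 0) :
    MvPowerSeries.map φ (PowerSeries.subst a f)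
      = PowerSeries.subst (MvPowerSeries.map φ a) (PowerSeries.map φ f) :=
  PowerSeries.map_subst (fg_hs ha) f

theorem fg_map_injective (φ : R →+* S) (hφ : Function.Injective φ) {τ : Type} :
    Function.Injective (MvPowerSeries.map (σ := τ) φ) := by
  intro f g h
  ext d
  apply hφ
  rw [← coeff_map, ← coeff_map, h]

/-- the linear part of a substitution -/
theorem fg_lin {σ τ : Type} [Fintype σ] {a : σ → MvPowerSeries τ R}
    (ha : ∀ s, constantCoeff (a s) = 0) (f : MvPowerSeries σ R) (t : τ) :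
    coeff (Finsupp.single t 1) (subst a f)
      = ∑ s, coeff (Finsupp.single s 1) f * coeff (Finsupp.single t 1) (a s) := by
  classical
  have hs : HasSubst a := hasSubst_of_constantCoeff_zero ha
  set g : MvPowerSeries σ R :=
    f - C (constantCoeff f) - ∑ s, C (coeff (Finsupp.single s 1) f) * X s with hg
  have h2 : ((2 : ℕ) : ℕ∞) ≤ g.order := by
    refine nat_le_order fun d hd => ?_
    have hd' : d.degree = 0 ∨ d.degree = 1 := by omega
    rcases hd' with h | h
    · rw [Finsupp.degree_eq_zero_iff] at h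
      subst h
      simp [hg]
    · obtain ⟨s, rfl⟩ := (Finsupp.sum_eq_one_iff d).1 h
      have h0 : (Finsupp.single s 1 : σ →₀ ℕ) ≠ 0 := by simp
      simp only [hg, map_sub, map_sum, coeff_C, if_neg h0, coeff_C_mul, coeff_index_single_X,
        sub_zero, mul_ite, mul_one, mul_zero]
      simp
  have h1 : (1 : ℕ∞) ≤ ⨅ s, (a s).order :=
    le_iInf fun s => one_le_order_iff_constCoeff_eq_zero.2 (ha s)
  have h3 : ((2 : ℕ) : ℕ∞) ≤ (subst a g).order := by
    refine le_trans ?_ (le_order_subst hs g)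
    calc ((2 : ℕ) : ℕ∞) = 1 * ((2 : ℕ) : ℕ∞) := (one_mul _).symm
      _ ≤ _ := mul_le_mul' h1 h2
  have h4 : coeff (Finsupp.single t 1) (subst a g) = 0 := by
    refine coeff_of_lt_order (lt_of_lt_of_le ?_ h3)
    rw [Finsupp.degree_single]
    exact_mod_cast (by norm_num : 1 < 2)
  have h5 : subst a g = subst a f - C (constantCoeff f)
      - ∑ s, C (coeff (Finsupp.single s 1) f) * a s := by
    rw [hg, ← coe_substAlgHom hs]
    simp only [map_sub, map_sum, map_mul, coe_substAlgHom, subst_C, subst_X hs]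
  have h0 : (Finsupp.single t 1 : τ →₀ ℕ) ≠ 0 := by simp
  rw [h5] at h4
  simp only [map_sub, map_sum, coeff_C, if_neg h0, coeff_C_mul, sub_zero] at h4
  exact sub_eq_zero.1 h4

theorem fg_lin1 {τ : Type} {a : MvPowerSeries τ R} (ha : constantCoeff a = 0) (f : PowerSeries R)
    (t : τ) : coeff (Finsupp.single t 1) (PowerSeries.subst a f)
      = PowerSeries.coeff 1 f * coeff (Finsupp.single t 1) a := by
  rw [PowerSeries.subst_def, fg_lin fun _ => ha, Fintype.sum_unique]
  rfl

theorem fg_lin2 (F : FormalGroup R) {τ : Type} {a b : MvPowerSeries τ R}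
    (ha : constantCoeff a = 0) (hb : constantCoeff b = 0) (t : τ) :
    coeff (Finsupp.single t 1) (fadd F a b)
      = coeff (Finsupp.single t 1) a + coeff (Finsupp.single t 1) b := by
  rw [fg_lin (fun s => by fin_cases s <;> simpa), Fin.sum_univ_two, F.lin_coeff_X, F.lin_coeff_Y,
    one_mul, one_mul]
  rfl

theorem fg_add4 (F : FormalGroup R) [F.IsComm] {τ : Type} {a b c d : MvPowerSeries τ R}
    (ha : constantCoeff a = 0) (hb : constantCoeff b = 0) (hc : constantCoeff c = 0)
    (hd : constantCoeff d = 0) :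
    fadd F (fadd F a b) (fadd F c d) = fadd F (fadd F a c) (fadd F b d) :=
  congrArg Subtype.val (add_add_add_comm (G := F.Point τ) ⟨a, fg_hs ha⟩ ⟨b, fg_hs hb⟩
    ⟨c, fg_hs hc⟩ ⟨d, fg_hs hd⟩)

theorem fg_neg_unique (F : FormalGroup R) {τ : Type} {a b c : MvPowerSeries τ R}
    (ha : constantCoeff a = 0) (hb : constantCoeff b = 0) (hc : constantCoeff c = 0)
    (h1 : fadd F b a = 0) (h2 : fadd F a c = 0) : b = c :=
  congrArg Subtype.val (left_neg_eq_right_neg (M := F.Point τ) (a := ⟨a, fg_hs ha⟩)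
    (b := ⟨b, fg_hs hb⟩) (c := ⟨c, fg_hs hc⟩) (Subtype.ext h1) (Subtype.ext h2))

/-- substitution respects congruences modulo powers of `X` -/
theorem fg_congr (P : MvPowerSeries (Fin 2) R) {a b b' : PowerSeries R}
    (ha : PowerSeries.constantCoeff a = 0) (hb : PowerSeries.constantCoeff b = 0)
    (hb' : PowerSeries.constantCoeff b' = 0) {n : ℕ} (h : PowerSeries.X ^ n ∣ b - b') :
    PowerSeries.X ^ n ∣ (P.subst ![a, b] : PowerSeries R) - P.subst ![a, b'] := by
  rw [PowerSeries.X_pow_dvd_iff]
  intro m hm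
  rw [map_sub, sub_eq_zero, PowerSeries.coeff, coeff_subst (fg_hs2 ha hb),
    coeff_subst (fg_hs2 ha hb')]
  refine finsum_congr fun d => ?_
  congr 1
  rw [Finsupp.prod_fintype _ _ (fun _ => pow_zero _), Finsupp.prod_fintype _ _ (fun _ => pow_zero _),
    Fin.prod_univ_two, Fin.prod_univ_two]
  have h1 : PowerSeries.X ^ n ∣ a ^ d 0 * b ^ d 1 - a ^ d 0 * b' ^ d 1 := by
    rw [← mul_sub]
    exact (h.trans (sub_dvd_pow_sub_pow _ _ _)).mul_left _
  have h2 := PowerSeries.X_pow_dvd_iff.1 h1 m hm
  rw [map_sub, sub_eq_zero] at h2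
  exact h2

instance isComm_map (F : FormalGroup R) [F.IsComm] (φ : R →+* S) : (F.map φ).IsComm := by
  constructor
  have h := congrArg (MvPowerSeries.map φ) (FormalGroup.IsComm.comm (F := F))
  rw [fg_map2 φ _ (constantCoeff_X _) (constantCoeff_X _), map_X, map_X] at h
  exact h

theorem map_map {T : Type} [CommRing T] (F : FormalGroup R) (φ : R →+* S) (ψ : S →+* T) :
    (F.map φ).map ψ = F.map (ψ.comp φ) := by
  ext d
  simp

theorem map_id (F : FormalGroup R) : F.map (RingHom.id R) = F := by
  ext d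
  simp

theorem hom_X (F : FormalGroup R) : IsFGHom F F PowerSeries.X := by
  refine ⟨PowerSeries.constantCoeff_X, ?_⟩
  rw [PowerSeries.subst_X (fg_hs F.zero_constantCoeff), PowerSeries.subst_X (fg_hs (constantCoeff_X _)),
    PowerSeries.subst_X (fg_hs (constantCoeff_X _)), fg_self2]

theorem hom_zero (F G : FormalGroup R) : IsFGHom F G 0 := by
  refine ⟨map_zero _, ?_⟩
  rw [fg_ev_zero F.zero_constantCoeff, fg_ev_zero (constantCoeff_X _), fg_ev_zero (constantCoeff_X _),
    G.add_zero PowerSeries.HasSubst.zero]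

/-- a homomorphism is additive on series without constant term -/
theorem hom_fadd {F G : FormalGroup R} {f : PowerSeries R} (h : IsFGHom F G f) {τ : Type}
    {a b : MvPowerSeries τ R} (ha : constantCoeff a = 0) (hb : constantCoeff b = 0) :
    PowerSeries.subst (fadd F a b) f = fadd G (PowerSeries.subst a f) (PowerSeries.subst b f) := by
  have hc := fg_hs2 ha hb
  have h1 := congrArg (subst ![a, b]) h.2
  rw [fg_subst1 f F.zero_constantCoeff hc,
    fg_subst2 _ (fg_cc (constantCoeff_X _) h.1) (fg_cc (constantCoeff_X _) h.1) hc,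
    fg_subst1 f (constantCoeff_X _) hc, fg_subst1 f (constantCoeff_X _) hc, subst_X hc,
    subst_X hc] at h1
  exact h1

theorem hom_comp {F G K : FormalGroup R} {f g : PowerSeries R} (hf : IsFGHom F G f)
    (hg : IsFGHom G K g) : IsFGHom F K (PowerSeries.subst f g) := by
  refine ⟨fg_cc hf.1 hg.1, ?_⟩
  rw [fg_ev1 g hf.1 F.zero_constantCoeff, hf.2, fg_ev1 g hf.1 (constantCoeff_X _),
    fg_ev1 g hf.1 (constantCoeff_X _)]
  exact hom_fadd hg (fg_cc (constantCoeff_X _) hf.1) (fg_cc (constantCoeff_X _) hf.1)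

theorem fg_hom_map_eq (F G : FormalGroup R) {f : PowerSeries R}
    (hf : PowerSeries.constantCoeff f = 0) (φ : R →+* S) :
    MvPowerSeries.map φ (PowerSeries.subst F.toPowerSeries f)
        = PowerSeries.subst (F.map φ).toPowerSeries (PowerSeries.map φ f) ∧
      MvPowerSeries.map φ (fadd G (in0 f) (in1 f))
        = fadd (G.map φ) (in0 (PowerSeries.map φ f)) (in1 (PowerSeries.map φ f)) := by
  refine ⟨fg_map1 φ f F.zero_constantCoeff, ?_⟩
  rw [fg_map2 φ _ (fg_cc (constantCoeff_X _) hf) (fg_cc (constantCoeff_X _) hf),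
    fg_map1 φ f (constantCoeff_X _), fg_map1 φ f (constantCoeff_X _), map_X, map_X]
  rfl

theorem hom_map {F G : FormalGroup R} {f : PowerSeries R} (h : IsFGHom F G f) (φ : R →+* S) :
    IsFGHom (F.map φ) (G.map φ) (PowerSeries.map φ f) := by
  obtain ⟨h1, h2⟩ := fg_hom_map_eq F G h.1 φ
  refine ⟨?_, ?_⟩
  · rw [← PowerSeries.coeff_zero_eq_constantCoeff_apply, PowerSeries.coeff_map,
      PowerSeries.coeff_zero_eq_constantCoeff_apply, h.1, map_zero]
  · rw [← h1, h.2]
    exact h2

theorem hom_of_map {F G : FormalGroup R} {f : PowerSeries R} (φ : R →+* S)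
    (hφ : Function.Injective φ) (h : IsFGHom (F.map φ) (G.map φ) (PowerSeries.map φ f)) :
    IsFGHom F G f := by
  have h0 : PowerSeries.constantCoeff f = 0 := by
    have := h.1
    rw [← PowerSeries.coeff_zero_eq_constantCoeff_apply, PowerSeries.coeff_map,
      PowerSeries.coeff_zero_eq_constantCoeff_apply] at this
    exact hφ (this.trans (map_zero φ).symm)
  obtain ⟨h1, h2⟩ := fg_hom_map_eq F G h0 φ
  exact ⟨h0, fg_map_injective φ hφ (h1.trans (h.2.trans h2.symm))⟩

theorem fg_inv_left {f : PowerSeries R} (h0 : PowerSeries.constantCoeff f = 0)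
    (hu : IsUnit (PowerSeries.coeff 1 f)) {τ : Type} {a : MvPowerSeries τ R}
    (ha : constantCoeff a = 0) :
    PowerSeries.subst (PowerSeries.subst a f) (f.substInvOfIsUnit hu) = a := by
  rw [← fg_ev1 _ h0 ha, PowerSeries.subst_substInvOfIsUnit_left f h0 hu,
    PowerSeries.subst_X (fg_hs ha)]

theorem fg_inv_right {f : PowerSeries R} (h0 : PowerSeries.constantCoeff f = 0)
    (hu : IsUnit (PowerSeries.coeff 1 f)) {τ : Type} {a : MvPowerSeries τ R}
    (ha : constantCoeff a = 0) :
    PowerSeries.subst (PowerSeries.subst a (f.substInvOfIsUnit hu)) f = a := by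
  rw [← fg_ev1 _ (PowerSeries.constantCoeff_substInvOfIsUnit f hu) ha,
    PowerSeries.subst_substInvOfIsUnit_right f h0 hu, PowerSeries.subst_X (fg_hs ha)]

theorem hom_inv {F G : FormalGroup R} {f : PowerSeries R} (h : IsFGHom F G f)
    (hu : IsUnit (PowerSeries.coeff 1 f)) : IsFGHom G F (f.substInvOfIsUnit hu) := by
  have hg := PowerSeries.constantCoeff_substInvOfIsUnit f hu
  refine ⟨hg, ?_⟩
  have c0 := fg_cc (constantCoeff_X (R := R) (0 : Fin 2)) hg
  have c1 := fg_cc (constantCoeff_X (R := R) (1 : Fin 2)) hg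
  have h1 := hom_fadd h c0 c1
  rw [fg_inv_right h.1 hu (constantCoeff_X _), fg_inv_right h.1 hu (constantCoeff_X _), fadd,
    fadd, fg_self2] at h1
  rw [← h1, fg_inv_left h.1 hu (fg_cc2 F.zero_constantCoeff c0 c1)]

theorem hom_add {F G : FormalGroup R} [G.IsComm] {f g : PowerSeries R} (hf : IsFGHom F G f)
    (hg : IsFGHom F G g) : IsFGHom F G (fadd G f g) := by
  refine ⟨fg_cc2 G.zero_constantCoeff hf.1 hg.1, ?_⟩
  rw [fg_ev2 _ hf.1 hg.1 F.zero_constantCoeff, fg_ev2 _ hf.1 hg.1 (constantCoeff_X _),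
    fg_ev2 _ hf.1 hg.1 (constantCoeff_X _), hf.2, hg.2]
  exact fg_add4 G (fg_cc (constantCoeff_X _) hf.1) (fg_cc (constantCoeff_X _) hf.1)
    (fg_cc (constantCoeff_X _) hg.1) (fg_cc (constantCoeff_X _) hg.1)

theorem coeff_one_subst {f g : PowerSeries R} (hf : PowerSeries.constantCoeff f = 0) :
    PowerSeries.coeff 1 (PowerSeries.subst f g : PowerSeries R) =
      PowerSeries.coeff 1 g * PowerSeries.coeff 1 f :=
  fg_lin1 hf g ()

theorem coeff_one_fadd (F : FormalGroup R) {f g : PowerSeries R}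
    (hf : PowerSeries.constantCoeff f = 0) (hg : PowerSeries.constantCoeff g = 0) :
    PowerSeries.coeff 1 (fadd F f g : PowerSeries R) =
      PowerSeries.coeff 1 f + PowerSeries.coeff 1 g :=
  fg_lin2 F hf hg ()

theorem constantCoeff_fadd (F : FormalGroup R) {τ : Type} {f g : MvPowerSeries τ R}
    (hf : constantCoeff f = 0) (hg : constantCoeff g = 0) : constantCoeff (fadd F f g) = 0 :=
  fg_cc2 F.zero_constantCoeff hf hg

theorem map_fadd (F : FormalGroup R) (φ : R →+* S) {τ : Type} {f g : MvPowerSeries τ R}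
    (hf : constantCoeff f = 0) (hg : constantCoeff g = 0) :
    MvPowerSeries.map φ (fadd F f g) =
      fadd (F.map φ) (MvPowerSeries.map φ f) (MvPowerSeries.map φ g) :=
  fg_map2 φ _ hf hg

/-! ### multiplication series -/

theorem constantCoeff_mulSeries (F : FormalGroup R) (m : ℕ) :
    PowerSeries.constantCoeff (mulSeries F m) = 0 := by
  induction m with
  | zero => exact map_zero _
  | succ m ih => exact fg_cc2 F.zero_constantCoeff ih fg_ccX

theorem fg_mul_succ (F : FormalGroup R) (m : ℕ) :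
    mulSeries F (m + 1) = fadd F (mulSeries F m) PowerSeries.X := rfl

theorem fg_mul_zero (F : FormalGroup R) : mulSeries F 0 = 0 := rfl

theorem coeff_one_mulSeries (F : FormalGroup R) (m : ℕ) :
    PowerSeries.coeff 1 (mulSeries F m) = m := by
  induction m with
  | zero => rw [fg_mul_zero, map_zero, Nat.cast_zero]
  | succ m ih =>
    rw [fg_mul_succ, coeff_one_fadd F (constantCoeff_mulSeries F m) PowerSeries.constantCoeff_X, ih,
      PowerSeries.coeff_one_X, Nat.cast_succ]

theorem mulSeries_one (F : FormalGroup R) : mulSeries F 1 = PowerSeries.X :=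
  F.zero_add (fg_hs fg_ccX)

theorem map_mulSeries (F : FormalGroup R) (φ : R →+* S) (m : ℕ) :
    PowerSeries.map φ (mulSeries F m) = mulSeries (F.map φ) m := by
  induction m with
  | zero => exact map_zero _
  | succ m ih =>
    rw [fg_mul_succ, fg_mul_succ, ← ih, ← PowerSeries.map_X φ]
    exact map_fadd F φ (constantCoeff_mulSeries F m) fg_ccX

theorem hom_mulSeries (F : FormalGroup R) [F.IsComm] (m : ℕ) : IsFGHom F F (mulSeries F m) := by
  induction m with
  | zero => exact hom_zero F F
  | succ m ih => exact hom_add ih (hom_X F)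

/-- homomorphisms commute with multiplication: `f ∘ [m]_F = [m]_G ∘ f` -/
theorem hom_comm_mulSeries {F G : FormalGroup R} {f : PowerSeries R} (h : IsFGHom F G f) (m : ℕ) :
    (PowerSeries.subst (mulSeries F m) f : PowerSeries R) =
      PowerSeries.subst f (mulSeries G m) := by
  induction m with
  | zero =>
    rw [fg_mul_zero, fg_mul_zero, fg_ev_zero h.1]
    exact PowerSeries.subst_zero_of_constantCoeff_zero h.1
  | succ m ih =>
    rw [fg_mul_succ, fg_mul_succ, hom_fadd h (constantCoeff_mulSeries F m) fg_ccX, ih,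
      fg_ev2 _ (constantCoeff_mulSeries G m) PowerSeries.constantCoeff_X h.1,
      PowerSeries.subst_X (fg_hs h.1), PowerSeries.X_subst]

theorem fg_mul_add (F : FormalGroup R) (a b : ℕ) :
    mulSeries F (a + b) = fadd F (mulSeries F a) (mulSeries F b) := by
  induction b with
  | zero => exact (F.add_zero (fg_hs (constantCoeff_mulSeries F a))).symm
  | succ b ih =>
    rw [← add_assoc, fg_mul_succ, fg_mul_succ, ih]
    exact F.assoc' (fg_hs (constantCoeff_mulSeries F a)) (fg_hs (constantCoeff_mulSeries F b))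
      (fg_hs fg_ccX)

theorem mulSeries_mul (F : FormalGroup R) (a b : ℕ) :
    mulSeries F (a * b) = PowerSeries.subst (mulSeries F b) (mulSeries F a) := by
  have hb := constantCoeff_mulSeries F b
  induction a with
  | zero => rw [zero_mul, fg_mul_zero, fg_ev_zero hb]
  | succ a ih =>
    rw [add_mul, one_mul, fg_mul_add, fg_mul_succ, ih,
      fg_ev2 _ (constantCoeff_mulSeries F a) PowerSeries.constantCoeff_X hb,
      PowerSeries.subst_X (fg_hs hb)]

/-! ### the inverse series, transport of structure, descent -/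

/-- successive approximations to the inverse series -/
def fgApprox (F : FormalGroup R) : ℕ → PowerSeries R
  | 0 => 0
  | n + 1 => fadd F (fgApprox F n) (-fadd F PowerSeries.X (fgApprox F n))

theorem fgApprox_cc (F : FormalGroup R) (n : ℕ) : PowerSeries.constantCoeff (fgApprox F n) = 0 := by
  induction n with
  | zero => exact map_zero _
  | succ n ih =>
    refine fg_cc2 F.zero_constantCoeff ih ?_
    rw [map_neg, fg_cc2 F.zero_constantCoeff fg_ccX ih, neg_zero]

theorem fgApprox_err (F : FormalGroup R) (n : ℕ) :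
    PowerSeries.X ^ (n + 1) ∣ (fadd F PowerSeries.X (fgApprox F n) : PowerSeries R) := by
  induction n with
  | zero =>
    have : (fadd F PowerSeries.X (fgApprox F 0) : PowerSeries R) = PowerSeries.X :=
      F.add_zero (fg_hs fg_ccX)
    rw [this, zero_add, pow_one]
  | succ n ih =>
    have hj := fgApprox_cc F n
    obtain ⟨e, he⟩ : ∃ e : PowerSeries R, e = fadd F PowerSeries.X (fgApprox F n) := ⟨_, rfl⟩
    have he0 : PowerSeries.constantCoeff e = 0 := he ▸ fg_cc2 F.zero_constantCoeff fg_ccX hj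
    have hne : PowerSeries.constantCoeff (-e) = 0 := by rw [map_neg, he0, neg_zero]
    have hnX : PowerSeries.constantCoeff (-PowerSeries.X : PowerSeries R) = 0 := by simp
    have h1 : (fadd F PowerSeries.X (fgApprox F (n + 1)) : PowerSeries R) = fadd F e (-e) := by
      subst he
      exact (F.assoc' (fg_hs fg_ccX) (fg_hs hj) (fg_hs hne)).symm
    have h2 : PowerSeries.X ^ 2 ∣ (fadd F PowerSeries.X (-PowerSeries.X) : PowerSeries R) := by
      rw [PowerSeries.X_pow_dvd_iff]
      intro m hm
      interval_cases m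
      · rw [PowerSeries.coeff_zero_eq_constantCoeff_apply]
        exact fg_cc2 F.zero_constantCoeff fg_ccX hnX
      · rw [coeff_one_fadd F PowerSeries.constantCoeff_X hnX, map_neg, add_neg_cancel]
    obtain ⟨D, hD⟩ := h2
    have h3 := congrArg (fun x : PowerSeries R => (PowerSeries.subst e x : PowerSeries R)) hD
    rw [fg_ev2 _ PowerSeries.constantCoeff_X hnX he0, ← PowerSeries.coe_substAlgHom (fg_hs he0),
      map_neg, map_mul, map_pow, PowerSeries.substAlgHom_X] at h3
    rw [h1, fadd, h3]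
    refine Dvd.dvd.mul_right ?_ _
    rw [← he] at ih
    rw [pow_succ, sq]
    exact mul_dvd_mul ih (PowerSeries.X_dvd_iff.2 he0)

theorem fgApprox_step (F : FormalGroup R) (n : ℕ) :
    PowerSeries.X ^ (n + 1) ∣ fgApprox F (n + 1) - fgApprox F n := by
  have hj := fgApprox_cc F n
  have h1 := fg_congr F.toPowerSeries hj (b := -fadd F PowerSeries.X (fgApprox F n)) (b' := 0)
    (by rw [map_neg, show PowerSeries.constantCoeff (fadd F PowerSeries.X (fgApprox F n)) = 0 from
      fg_cc2 F.zero_constantCoeff fg_ccX hj, neg_zero]) (map_zero _) (n := n + 1)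
    (by rw [sub_zero]; exact (fgApprox_err F n).neg_right)
  rwa [F.add_zero (fg_hs hj)] at h1

theorem fg_exists_right_neg (F : FormalGroup R) :
    ∃ i : PowerSeries R, PowerSeries.constantCoeff i = 0 ∧
      (fadd F PowerSeries.X i : PowerSeries R) = 0 := by
  have hst : ∀ k n, k ≤ n → PowerSeries.coeff k (fgApprox F n) = PowerSeries.coeff k (fgApprox F k) := by
    intro k n hkn
    induction n, hkn using Nat.le_induction with
    | base => rfl
    | succ n hkn ih =>
      have := PowerSeries.X_pow_dvd_iff.1 (fgApprox_step F n) k (by omega)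
      rw [map_sub, sub_eq_zero] at this
      rw [this, ih]
  let i : PowerSeries R := PowerSeries.mk fun k => PowerSeries.coeff k (fgApprox F k)
  have hi : PowerSeries.constantCoeff i = 0 := by
    rw [← PowerSeries.coeff_zero_eq_constantCoeff_apply, PowerSeries.coeff_mk,
      PowerSeries.coeff_zero_eq_constantCoeff_apply, fgApprox_cc]
  refine ⟨i, hi, PowerSeries.ext fun n => ?_⟩
  have h1 : PowerSeries.X ^ (n + 1) ∣ i - fgApprox F n := by
    rw [PowerSeries.X_pow_dvd_iff]
    intro k hk
    rw [map_sub, PowerSeries.coeff_mk, hst k n (by omega), sub_self]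
  have h2 := fg_congr F.toPowerSeries PowerSeries.constantCoeff_X hi (fgApprox_cc F n) h1
  have h3 := h2.add (fgApprox_err F n)
  rw [sub_add_cancel] at h3
  rw [map_zero]
  exact PowerSeries.X_pow_dvd_iff.1 h3 n (by omega)

theorem exists_neg (F : FormalGroup R) [F.IsComm] :
    ∃ i : PowerSeries R, IsFGHom F F i ∧ PowerSeries.coeff 1 i = -1 ∧
      (fadd F PowerSeries.X i : PowerSeries R) = 0 := by
  obtain ⟨i, hi, h⟩ := fg_exists_right_neg F
  have key : ∀ a : MvPowerSeries (Fin 2) R, constantCoeff a = 0 →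
      fadd F a (PowerSeries.subst a i) = 0 := by
    intro a ha
    have h1 := fg_ev2 F.toPowerSeries PowerSeries.constantCoeff_X hi ha
    rw [show (F.toPowerSeries.subst ![PowerSeries.X, i] : PowerSeries R) = 0 from h, fg_ev_zero ha,
      PowerSeries.subst_X (fg_hs ha)] at h1
    exact h1.symm
  refine ⟨i, ⟨hi, ?_⟩, ?_, h⟩
  · have x0 := constantCoeff_X (R := R) (0 : Fin 2)
    have x1 := constantCoeff_X (R := R) (1 : Fin 2)
    have c0 := fg_cc x0 hi
    have c1 := fg_cc x1 hi
    have c2 := fg_cc2 F.zero_constantCoeff c0 c1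
    refine (fg_neg_unique F F.zero_constantCoeff c2 (fg_cc F.zero_constantCoeff hi) ?_
      (key _ F.zero_constantCoeff)).symm
    have h2 := fg_add4 F x0 x1 c0 c1
    rw [key _ x0, key _ x1, show fadd F (X 0) (X 1) = F.toPowerSeries from fg_self2 _,
      show fadd F (0 : MvPowerSeries (Fin 2) R) 0 = 0 from F.add_zero PowerSeries.HasSubst.zero] at h2
    rw [← h2]
    exact F.comm' (fg_hs c2) (fg_hs F.zero_constantCoeff)
  · have h1 := coeff_one_fadd F PowerSeries.constantCoeff_X hi
    rw [h, map_zero, PowerSeries.coeff_one_X] at h1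
    exact eq_neg_of_add_eq_zero_right h1.symm

/-- transport of a law along an invertible series: `θ⁻¹ F(θ X, θ Y)` -/
theorem exists_conj (F : FormalGroup R) (θ : PowerSeries R) (h0 : PowerSeries.constantCoeff θ = 0)
    (hu : IsUnit (PowerSeries.coeff 1 θ)) :
    ∃ G : FormalGroup R, IsFGHom G F θ ∧ (F.IsComm → G.IsComm) := by
  have hη := PowerSeries.constantCoeff_substInvOfIsUnit θ hu
  have x0 := constantCoeff_X (R := R) (0 : Fin 2)
  have x1 := constantCoeff_X (R := R) (1 : Fin 2)
  have cA := fg_cc2 F.zero_constantCoeff (fg_cc x0 h0) (fg_cc x1 h0)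
  obtain ⟨P, hP⟩ : ∃ P : MvPowerSeries (Fin 2) R,
      P = PowerSeries.subst (fadd F (in0 θ) (in1 θ)) (θ.substInvOfIsUnit hu) := ⟨_, rfl⟩
  have hsub : ∀ {τ : Type} {a b : MvPowerSeries τ R}, constantCoeff a = 0 → constantCoeff b = 0 →
      P.subst ![a, b] = PowerSeries.subst
        (fadd F (PowerSeries.subst a θ) (PowerSeries.subst b θ)) (θ.substInvOfIsUnit hu) := by
    intro τ a b ha hb
    have hc := fg_hs2 ha hb
    rw [hP, fg_subst1 _ cA hc, fg_subst2 _ (fg_cc x0 h0) (fg_cc x1 h0) hc, fg_subst1 θ x0 hc,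
      fg_subst1 θ x1 hc, subst_X hc, subst_X hc]
    rfl
  have hP0 : constantCoeff P = 0 := hP ▸ fg_cc cA hη
  have hinv : PowerSeries.coeff 1 (θ.substInvOfIsUnit hu) * PowerSeries.coeff 1 θ = 1 := by
    rw [PowerSeries.coeff_one_substInvOfIsUnit]
    exact hu.val_inv_mul
  have hlin : ∀ t : Fin 2, coeff (Finsupp.single t 1) P = 1 := by
    intro t
    rw [hP, fg_lin1 cA, fg_lin2 F (fg_cc x0 h0) (fg_cc x1 h0), fg_lin1 x0, fg_lin1 x1, ← mul_add,
      ← mul_assoc, hinv, one_mul, coeff_index_single_X, coeff_index_single_X]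
    fin_cases t <;> simp
  refine ⟨⟨P, hP0, hlin 0, hlin 1, ?_⟩, ⟨h0, ?_⟩, fun hF => ⟨?_⟩⟩
  · have y0 := constantCoeff_X (R := R) (0 : Fin 3)
    have y1 := constantCoeff_X (R := R) (1 : Fin 3)
    have y2 := constantCoeff_X (R := R) (2 : Fin 3)
    have t0 := fg_cc y0 h0
    have t1 := fg_cc y1 h0
    have t2 := fg_cc y2 h0
    rw [hsub (fg_cc2 hP0 y0 y1) y2, hsub y0 (fg_cc2 hP0 y1 y2), hsub y0 y1, hsub y1 y2,
      fg_inv_right h0 hu (fg_cc2 F.zero_constantCoeff t0 t1),
      fg_inv_right h0 hu (fg_cc2 F.zero_constantCoeff t1 t2)]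
    exact congrArg (fun a => PowerSeries.subst a (θ.substInvOfIsUnit hu))
      (F.assoc' (fg_hs t0) (fg_hs t1) (fg_hs t2))
  · change PowerSeries.subst P θ = _
    rw [hP, fg_inv_right h0 hu cA]
  · change P = P.subst ![X 1, X 0]
    rw [hsub x1 x0, hP]
    exact congrArg (fun a => PowerSeries.subst a (θ.substInvOfIsUnit hu))
      (F.comm' (fg_hs (fg_cc x0 h0)) (fg_hs (fg_cc x1 h0)))

/-- the source of an invertible homomorphism is determined -/
theorem eq_of_hom {G G' F : FormalGroup R} {θ : PowerSeries R} (h : IsFGHom G F θ)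
    (h' : IsFGHom G' F θ) (hu : IsUnit (PowerSeries.coeff 1 θ)) : G = G' := by
  apply FormalGroup.ext
  rw [← fg_inv_left h.1 hu G.zero_constantCoeff, h.2, ← h'.2,
    fg_inv_left h.1 hu G'.zero_constantCoeff]

/-- a law whose coefficients lie in a subring descends -/
theorem exists_descent (φ : R →+* S) (hφ : Function.Injective φ) (G : FormalGroup S)
    (h : ∀ d, coeff d G.toPowerSeries ∈ φ.range) :
    ∃ F : FormalGroup R, F.map φ = G ∧ (G.IsComm → F.IsComm) := by
  choose c hc using h
  obtain ⟨P, hP⟩ : ∃ P : MvPowerSeries (Fin 2) R, MvPowerSeries.map φ P = G.toPowerSeries :=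
    ⟨c, MvPowerSeries.ext fun d => hc d⟩
  have hco : ∀ d, φ (coeff d P) = coeff d G.toPowerSeries := fun d => by rw [← hP, coeff_map]
  have hP0 : constantCoeff P = 0 := by
    apply hφ
    rw [← coeff_zero_eq_constantCoeff_apply, hco, coeff_zero_eq_constantCoeff_apply,
      G.zero_constantCoeff, map_zero]
  refine ⟨⟨P, hP0, hφ ?_, hφ ?_, fg_map_injective φ hφ ?_⟩, FormalGroup.ext hP,
    fun hG => ⟨fg_map_injective φ hφ ?_⟩⟩
  · rw [hco, G.lin_coeff_X, map_one]
  · rw [hco, G.lin_coeff_Y, map_one]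
  · have y0 := constantCoeff_X (R := R) (0 : Fin 3)
    have y1 := constantCoeff_X (R := R) (1 : Fin 3)
    have y2 := constantCoeff_X (R := R) (2 : Fin 3)
    rw [fg_map2 φ P (fg_cc2 hP0 y0 y1) y2, fg_map2 φ P y0 (fg_cc2 hP0 y1 y2), fg_map2 φ P y0 y1,
      fg_map2 φ P y1 y2, hP, map_X, map_X, map_X]
    exact G.assoc
  · change MvPowerSeries.map φ P = MvPowerSeries.map φ (P.subst ![X 1, X 0])
    rw [fg_map2 φ P (constantCoeff_X _) (constantCoeff_X _), hP, map_X, map_X]
    exact hG.comm

end Crest.Agent.R227
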