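import Crest.Agent.R227.Test
import Crest.Agent.R227.Frob

/-! # Row 227: consequences of the universal property. -/

set_option autoImplicit false
set_option linter.unusedSectionVars false

open MvPowerSeries IsLocalRing

noncomputable section
namespace Crest.Agent.R227

open Crest.LubinTate

variable {p : ℕ} [Fact p.Prime] {n : ℕ} {Γ : FormalGroup (kk p n)} {H : FormalGroup (LTRing p n)}

theorem lt_map_subst {R S : Type} [CommRing R] [CommRing S] (r : R →+* S) {a : PowerSeries R}
    (ha : PowerSeries.constantCoeff a = 0) (f : PowerSeries R) :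
    PowerSeries.map r (PowerSeries.subst a f : PowerSeries R) =
      PowerSeries.subst (PowerSeries.map r a) (PowerSeries.map r f) :=
  PowerSeries.map_subst (PowerSeries.HasSubst.of_constantCoeff_zero' ha) f

theorem lt_inj_of_surj {R : Type} [CommRing R] [IsNoetherianRing R] (f : R →+* R)
    (hf : Function.Surjective f) : Function.Injective f := by
  obtain ⟨N, hN⟩ := monotone_stabilizes_iff_noetherian.mpr (inferInstance : IsNoetherian R R)
    ⟨fun k => RingHom.ker (f ^ k), monotone_nat_of_le_succ fun k x hx => by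
      rw [RingHom.mem_ker] at hx ⊢
      rw [pow_succ', RingHom.mul_def, RingHom.comp_apply, hx, map_zero]⟩
  rw [injective_iff_map_eq_zero]
  intro x hx
  have hs : Function.Surjective (f ^ N) := by
    rw [RingHom.coe_pow]; exact hf.iterate N
  obtain ⟨y, rfl⟩ := hs x
  have h1 : y ∈ RingHom.ker (f ^ (N + 1)) := by
    rw [RingHom.mem_ker, pow_succ', RingHom.mul_def, RingHom.comp_apply, hx]
  have h2 : RingHom.ker (f ^ N) = RingHom.ker (f ^ (N + 1)) := hN (N + 1) (Nat.le_succ N)
  rw [← h2] at h1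
  exact h1

theorem lt_pow_card (hn : 1 ≤ n) (x : kk p n) : x ^ p ^ n = x := by
  have := Fintype.ofFinite (kk p n)
  rw [← GaloisField.card p n (by omega), Nat.card_eq_fintype_card, FiniteField.pow_card]

theorem lt_residue_coeff (hΓ : mulSeries Γ p = PowerSeries.X ^ (p ^ n))
    (hH : IsUniversalDeformation p n Γ H) (e : ℕ) :
    LTRing.residue p n (PowerSeries.coeff e (mulSeries H p)) = if e = p ^ n then 1 else 0 := by
  rw [← PowerSeries.coeff_map, map_mulSeries, hH.1, hΓ, PowerSeries.coeff_X_pow]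

theorem lt_heightIdeal_le (hΓ : mulSeries Γ p = PowerSeries.X ^ (p ^ n))
    (hH : IsUniversalDeformation p n Γ H) {h : ℕ} (hh : h ≤ n) :
    heightIdeal p n H h ≤ maximalIdeal (LTRing p n) := by
  rw [heightIdeal_eq, htIdeal_le_iff]
  intro l hl
  rw [← (isTest_LT p n).ker, RingHom.mem_ker, lt_residue_coeff hΓ hH, if_neg]
  exact (Nat.pow_lt_pow_right (Fact.out : p.Prime).one_lt (by omega)).ne

theorem lt_coeff_mem (H : FormalGroup (LTRing p n)) {l h : ℕ} (hl : l < h) :
    PowerSeries.coeff (p ^ l) (mulSeries H p) ∈ heightIdeal p n H h := by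
  rw [heightIdeal_eq]
  exact (htIdeal_le_iff p H h _).1 le_rfl l hl

theorem lt_p_mem (H : FormalGroup (LTRing p n)) {h : ℕ} (hh : 1 ≤ h) :
    (p : LTRing p n) ∈ heightIdeal p n H h := by
  have := lt_coeff_mem H (l := 0) hh
  rwa [pow_zero, coeff_one_mulSeries] at this

/-- a local endomorphism over `W` with `φ(𝔪) E₀ = 𝔪` is bijective -/
theorem lt_bijective (φ : LTRing p n →+* LTRing p n) (hC : ∀ w, φ (C w) = C w)
    (hm : (maximalIdeal (LTRing p n)).map φ = maximalIdeal (LTRing p n)) :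
    Function.Bijective φ := by
  have hT := isTest_LT p n
  have := hT.noeth
  have := hT.complete
  have hs : Function.Surjective φ := by
    have : IsHausdorff ((maximalIdeal (LTRing p n)).map φ) (LTRing p n) := by
      rw [hm]; infer_instance
    refine surjective_of_mk_map_comp_surjective (I := maximalIdeal (LTRing p n)) φ fun y => ?_
    obtain ⟨y, rfl⟩ := Ideal.Quotient.mk_surjective y
    refine ⟨C (constantCoeff y), ?_⟩
    rw [RingHom.comp_apply, hC, Ideal.Quotient.eq, hm, ← hT.ker, RingHom.mem_ker, map_sub]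
    simp [LTRing.residue]
  exact ⟨lt_inj_of_surj φ hs, hs⟩

/-- existence half of the universal property -/
theorem exists_classify (hH : IsUniversalDeformation p n Γ H) {B : Type} [CommRing B]
    [IsLocalRing B] [Algebra (WW p n) B] {r : B →+* kk p n} (hB : IsTest p n B r)
    (G : FormalGroup B) (hG : G.map r = Γ) :
    ∃ φ : LTRing p n →ₐ[WW p n] B, r.comp φ.toRingHom = LTRing.residue p n ∧
      ∃ θ : PowerSeries B, IsFGHom (H.map φ.toRingHom) G θ ∧
        PowerSeries.map r θ = PowerSeries.X := by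
  have := hB.noeth
  exact (hH.2 B hB.complete r hB.surj hB.ker hB.comp G hG).exists

/-- uniqueness half, marked form: apply uniqueness to `H.map φ₁` with `X` and `θ₁⁻¹ ∘ θ₂` -/
theorem classify_unique (hH : IsUniversalDeformation p n Γ H) {B : Type} [CommRing B]
    [IsLocalRing B] [Algebra (WW p n) B] {r : B →+* kk p n} (hB : IsTest p n B r)
    {φ₁ φ₂ : LTRing p n →ₐ[WW p n] B} (h₁ : r.comp φ₁.toRingHom = LTRing.residue p n)
    (h₂ : r.comp φ₂.toRingHom = LTRing.residue p n) {G : FormalGroup B} {θ₁ θ₂ : PowerSeries B}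
    (hθ₁ : IsFGHom (H.map φ₁.toRingHom) G θ₁) (hθ₂ : IsFGHom (H.map φ₂.toRingHom) G θ₂)
    (hu : IsUnit (PowerSeries.coeff 1 θ₁)) (h : PowerSeries.map r θ₁ = PowerSeries.map r θ₂) :
    φ₁ = φ₂ := by
  have := hB.noeth
  have hG : (H.map φ₁.toRingHom).map r = Γ := by rw [map_map, h₁, hH.1]
  refine (hH.2 B hB.complete r hB.surj hB.ker hB.comp _ hG).unique
    ⟨h₁, PowerSeries.X, hom_X _, PowerSeries.map_X _⟩
    ⟨h₂, _, hom_comp hθ₂ (hom_inv hθ₁ hu), ?_⟩
  rw [lt_map_subst r hθ₂.1, ← h, ← lt_map_subst r hθ₁.1,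
    PowerSeries.subst_substInvOfIsUnit_left _ hθ₁.1, PowerSeries.map_X]

/-- every automorphism of `Γ` acts: classify `g̃⁻¹ H(g̃ X, g̃ Y)` -/
theorem exists_stab (hH : IsUniversalDeformation p n Γ H) {g : PowerSeries (kk p n)}
    (hg : IsFGAut Γ g) : ∃ φ, IsStabilizerMap p n H g φ := by
  have hT := isTest_LT p n
  obtain ⟨g', h0, hg'⟩ := hT.exists_lift g hg.1.1
  have hu : IsUnit (PowerSeries.coeff 1 g') := by
    rw [hT.isUnit_iff, ← PowerSeries.coeff_map, hg']
    exact hg.2.ne_zero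
  obtain ⟨G, hG, -⟩ := exists_conj H g' h0 hu
  have h1 := hom_map hG (LTRing.residue p n)
  rw [hH.1, hg'] at h1
  obtain ⟨φ, h2, θ, h3, h4⟩ := exists_classify hH hT G (eq_of_hom h1 hg.1 hg.2)
  refine ⟨φ, h2, _, hom_comp h3 hG, ?_⟩
  rw [lt_map_subst _ h3.1, h4, hg', PowerSeries.X_subst]

/-- Over `B = E₀ ⧸ (I_n + 𝔪²)` the Frobenius twist `G^(q)` is the constant deformation and
`V : G^(q) → G` (`exists_versch`) is a ⋆-isomorphism, so `E₀ → B` factors through `k`; Nakayama. -/
theorem heightIdeal_n (hn : 1 ≤ n) [H.IsComm]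
    (hΓ : mulSeries Γ p = PowerSeries.X ^ (p ^ n)) (hH : IsUniversalDeformation p n Γ H) :
    heightIdeal p n H n = maximalIdeal (LTRing p n) := by
  have hp : p.Prime := Fact.out
  have hT := isTest_LT p n
  have := hT.noeth
  have hle := lt_heightIdeal_le hΓ hH le_rfl
  refine le_antisymm hle ?_
  set J : Ideal (LTRing p n) := heightIdeal p n H n ⊔
    maximalIdeal (LTRing p n) • maximalIdeal (LTRing p n) with hJ
  refine Submodule.le_of_le_smul_of_le_jacobson_bot (I := maximalIdeal (LTRing p n))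
    (IsNoetherian.noetherian _) (maximalIdeal_le_jacobson _) ?_
  have hJt : J ≠ ⊤ := fun h => (maximalIdeal.isMaximal (LTRing p n)).ne_top
    (top_le_iff.1 (h ▸ sup_le hle Ideal.mul_le_left))
  obtain ⟨_, r', hB, hr', -⟩ := hT.quot J hJt
  have hp0 : (p : LTRing p n ⧸ J) = 0 := by
    rw [← map_natCast (Ideal.Quotient.mk J), Ideal.Quotient.eq_zero_iff_mem]
    exact Ideal.mem_sup_left (lt_p_mem H hn)
  have : CharP (LTRing p n ⧸ J) p := (CharP.charP_iff_prime_eq_zero hp).2 hp0
  obtain ⟨V, hV, hV'⟩ := exists_versch p (H.map (Ideal.Quotient.mk J)) n fun l hl => by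
    rw [← map_mulSeries, PowerSeries.coeff_map, Ideal.Quotient.eq_zero_iff_mem]
    exact Ideal.mem_sup_left (lt_coeff_mem H hl)
  have hq : p ^ n ≠ 0 := pow_ne_zero _ hp.ne_zero
  have hVX : PowerSeries.map r' V = PowerSeries.X := by
    have h1 := congrArg (PowerSeries.map r') hV'
    rw [map_mulSeries, map_map, hr', hH.1, hΓ, lt_map_subst _ (by rw [map_pow, PowerSeries.constantCoeff_X, zero_pow hq]), map_pow,
      PowerSeries.map_X] at h1
    ext e
    have h2 := congrArg (PowerSeries.coeff (p ^ n * e)) h1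
    rw [PowerSeries.coeff_subst_X_pow hq, if_pos (dvd_mul_right _ _),
      Nat.mul_div_cancel_left _ (Nat.pos_of_ne_zero hq), PowerSeries.coeff_X_pow] at h2
    rw [PowerSeries.coeff_X]
    refine h2.symm.trans (if_congr ?_ rfl rfl)
    exact Nat.mul_eq_left hq
  let φ₁ : LTRing p n →ₐ[WW p n] LTRing p n ⧸ J :=
    { (iterateFrobenius (LTRing p n ⧸ J) p n).comp (Ideal.Quotient.mk J) with
      commutes' := fun w => by
        have h1 : w ^ p ^ n - w ∈ Ideal.span {(p : WW p n)} := by
          rw [← WittVector.ker_constantCoeff, RingHom.mem_ker, map_sub, map_pow, lt_pow_card hn,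
            sub_self]
        obtain ⟨c, hc⟩ := Ideal.mem_span_singleton'.1 h1
        have h2 := congrArg (algebraMap (WW p n) (LTRing p n ⧸ J)) hc
        rw [map_mul, map_natCast, hp0, mul_zero, map_sub, map_pow, eq_comm, sub_eq_zero] at h2
        exact h2 }
  have hφ₁ : ∀ x, φ₁ x = Ideal.Quotient.mk J x ^ p ^ n := fun x => rfl
  have key : φ₁ = Ideal.Quotient.mkₐ (WW p n) J := by
    refine classify_unique hH hB (G := H.map (Ideal.Quotient.mk J)) (θ₁ := V)
      (θ₂ := PowerSeries.X) ?_ hr' ?_ (hom_X _) ?_ ?_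
    · ext1 x
      show r' (φ₁ x) = _
      rw [hφ₁, map_pow, lt_pow_card hn, ← hr']
      rfl
    · rw [map_map] at hV
      exact hV
    · rw [hB.isUnit_iff, ← PowerSeries.coeff_map, hVX]
      simp
    · rw [hVX, PowerSeries.map_X]
  intro x hx
  have h1 : Ideal.Quotient.mk J x = Ideal.Quotient.mk J x ^ p ^ n := by
    rw [← hφ₁, key]; rfl
  rw [← hJ, ← Ideal.Quotient.eq_zero_iff_mem, h1, ← map_pow, Ideal.Quotient.eq_zero_iff_mem]
  refine Ideal.mem_sup_right ?_
  have h2 : 2 ≤ p ^ n := hp.two_le.trans (Nat.le_self_pow (by omega) p)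
  obtain ⟨k, hk⟩ := Nat.exists_eq_add_of_le h2
  rw [hk, pow_add, sq]
  exact Ideal.mul_mem_right _ _ (Ideal.mul_mem_mul hx hx)

theorem heightIdeal_succ_n (hΓ : mulSeries Γ p = PowerSeries.X ^ (p ^ n))
    (hH : IsUniversalDeformation p n Γ H) : heightIdeal p n H (n + 1) = ⊤ := by
  refine Ideal.eq_top_of_isUnit_mem _ (lt_coeff_mem H (Nat.lt_succ_self n)) ?_
  rw [(isTest_LT p n).isUnit_iff, lt_residue_coeff hΓ hH, if_pos rfl]
  exact one_ne_zero

theorem map_heightIdeal [H.IsComm] {g : PowerSeries (kk p n)} (hg : IsFGAut Γ g)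
    {φ : LTRing p n →ₐ[WW p n] LTRing p n} (hφ : IsStabilizerMap p n H g φ) (h : ℕ) :
    (heightIdeal p n H h).map φ.toRingHom = heightIdeal p n H h := by
  obtain ⟨-, θ, h1, h2⟩ := hφ
  rw [heightIdeal_eq, ← htIdeal_map]
  refine htIdeal_eq_of_hom p h1 ?_ h
  rw [(isTest_LT p n).isUnit_iff, ← PowerSeries.coeff_map, h2]
  exact hg.2.ne_zero

/-- `φ(𝔪) E₀ = 𝔪` gives surjectivity (`surjective_of_mk_map_comp_surjective`), and surjective
endomorphisms of Noetherian rings are injective -/
theorem stab_bijective (hn : 1 ≤ n) [H.IsComm]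
    (hΓ : mulSeries Γ p = PowerSeries.X ^ (p ^ n)) (hH : IsUniversalDeformation p n Γ H)
    {g : PowerSeries (kk p n)} (hg : IsFGAut Γ g) {φ : LTRing p n →ₐ[WW p n] LTRing p n}
    (hφ : IsStabilizerMap p n H g φ) : Function.Bijective φ := by
  refine lt_bijective φ.toRingHom (fun w => φ.commutes w) ?_
  rw [← heightIdeal_n hn hΓ hH]
  exact map_heightIdeal hg hφ n

theorem isStable_heightIdeal (hn : 1 ≤ n) [H.IsComm]
    (hΓ : mulSeries Γ p = PowerSeries.X ^ (p ^ n)) (hH : IsUniversalDeformation p n Γ H)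
    (M h : ℕ) : IsStableIdeal p n Γ H M (heightIdeal p n H h) := by
  intro g φ hg _ hφ
  conv_lhs => rw [← map_heightIdeal hg hφ h]
  exact Ideal.comap_map_of_bijective _ (stab_bijective hn hΓ hH hg hφ)

/-- the ideal `(p, u_1, …, u_{h-1})` -/
def ltK (p : ℕ) [Fact p.Prime] (n h : ℕ) : Ideal (LTRing p n) :=
  Ideal.span {(p : LTRing p n)} ⊔ Ideal.span (X '' {i : Fin (n - 1) | (i : ℕ) + 1 < h})

theorem lt_K_n : ltK p n n = maximalIdeal (LTRing p n) := by
  rw [maximalIdeal_LT, psIdeal, Ideal.map_span, Set.image_singleton, map_natCast, ltK]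
  congr 2
  ext f
  constructor
  · rintro ⟨i, -, rfl⟩; exact ⟨i, rfl⟩
  · rintro ⟨i, rfl⟩; exact ⟨i, by have := i.2; show (i : ℕ) + 1 < n; omega, rfl⟩

theorem lt_map_K {h : ℕ} (hh : 1 ≤ h) (hn : h ≤ n) (Ψ : LTRing p n →+* LTRing p n)
    (hX : ∀ i : Fin (n - 1), Ψ (X i) = PowerSeries.coeff (p ^ ((i : ℕ) + 1)) (mulSeries H p)) :
    (ltK p n h).map Ψ = heightIdeal p n H h := by
  apply le_antisymm
  · rw [ltK, Ideal.map_sup, Ideal.map_span, Ideal.map_span, sup_le_iff, Ideal.span_le,
      Ideal.span_le, Set.image_singleton, map_natCast]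
    refine ⟨Set.singleton_subset_iff.2 (lt_p_mem H hh), ?_⟩
    rintro _ ⟨_, ⟨i, hi, rfl⟩, rfl⟩
    rw [hX]
    exact lt_coeff_mem H hi
  · rw [heightIdeal_eq, htIdeal_le_iff]
    intro l hl
    rcases l with _ | l
    · rw [pow_zero, coeff_one_mulSeries, ← map_natCast Ψ]
      exact Ideal.mem_map_of_mem _ (Ideal.mem_sup_left (Ideal.mem_span_singleton_self _))
    · rw [← hX ⟨l, by omega⟩]
      exact Ideal.mem_map_of_mem _ (Ideal.mem_sup_right (Ideal.subset_span ⟨_, hl, rfl⟩))

/-- reduction modulo `(p, u_1, …, u_{h-1})` -/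
theorem lt_exists_red {h m : ℕ} (hh : 1 ≤ h) (hn : n = h + m) :
    ∃ ρ : LTRing p n →+* MvPowerSeries (Fin m) (kk p n), Function.Surjective ρ ∧
      RingHom.ker ρ = ltK p n h ∧ (∀ w, ρ (C w) = C (WittVector.constantCoeff w)) ∧
      (∀ i, constantCoeff (ρ (X i)) = 0) ∧
      ∀ l : Fin m, ρ (X ⟨h - 1 + l, by omega⟩) = X l := by
  have hT := isTest_LT p n
  have := hT.complete
  let a : Fin (n - 1) → MvPowerSeries (Fin m) (kk p n) := fun i =>
    if hi : (i : ℕ) + 1 < h then 0 else X ⟨i - (h - 1), by omega⟩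
  have ha0 : ∀ i, constantCoeff (a i) = 0 := fun i => by
    simp only [a]
    split_ifs <;> simp
  obtain ⟨ρ, hC, hX⟩ := exists_ev (psIdeal (Fin m) (⊥ : Ideal (kk p n)))
    ((C : kk p n →+* MvPowerSeries (Fin m) (kk p n)).comp
      (WittVector.constantCoeff : WW p n →+* kk p n)) a
    fun i => by rw [mem_psIdeal_radical, ha0]; exact zero_mem _
  have hXl : ∀ l : Fin m, ρ (X ⟨h - 1 + l, by omega⟩) = X l := fun l => by
    rw [hX]
    simp only [a]
    rw [dif_neg (by omega)]
    congr 1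
    ext
    simp
  have hKm : ltK p n h ≤ maximalIdeal (LTRing p n) := by
    rw [← lt_K_n]
    refine sup_le_sup_left (Ideal.span_mono (Set.image_mono fun i hi => ?_)) _
    have : (i : ℕ) + 1 < h := hi
    show (i : ℕ) + 1 < n
    omega
  have hp0 : (p : kk p n) = 0 := CharP.cast_eq_zero _ _
  refine ⟨ρ, ?_, le_antisymm ?_ ?_, hC, fun i => by rw [hX, ha0], hXl⟩
  · have hmap : (maximalIdeal (LTRing p n)).map ρ = psIdeal (Fin m) (⊥ : Ideal (kk p n)) := by
      rw [maximalIdeal_LT, psIdeal, psIdeal, Ideal.map_sup, Ideal.map_map, Ideal.map_span,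
        Ideal.map_span, Set.image_singleton, map_natCast, Ideal.map_bot,
        ← map_natCast (C : kk p n →+* MvPowerSeries (Fin m) (kk p n)), hp0, map_zero,
        Ideal.span_singleton_zero]
      congr 1
      apply le_antisymm
      · rw [Ideal.span_le]
        rintro _ ⟨_, ⟨i, rfl⟩, rfl⟩
        rw [hX]
        simp only [a]
        split_ifs
        · exact zero_mem _
        · exact Ideal.subset_span ⟨_, rfl⟩
      · refine Ideal.span_mono ?_
        rintro _ ⟨l, rfl⟩
        exact ⟨_, ⟨_, rfl⟩, hXl l⟩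
    have : IsHausdorff ((maximalIdeal (LTRing p n)).map ρ) (MvPowerSeries (Fin m) (kk p n)) := by
      rw [hmap]; infer_instance
    refine surjective_of_mk_map_comp_surjective (I := maximalIdeal (LTRing p n)) ρ fun y => ?_
    obtain ⟨y, rfl⟩ := Ideal.Quotient.mk_surjective y
    obtain ⟨w, hw⟩ := WittVector.constantCoeff_surjective p (constantCoeff y)
    refine ⟨C w, ?_⟩
    rw [RingHom.comp_apply, hC, Ideal.Quotient.eq, hmap, 
      ← pow_one (psIdeal (Fin m) (⊥ : Ideal (kk p n))), mem_psIdeal_pow]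
    intro d
    by_cases hd : d = 0
    · subst hd
      simp [hw]
    · have : 1 - d.degree = 0 := by
        have := (Finsupp.degree_eq_zero_iff d).not.2 hd
        omega
      rw [this, pow_zero, Ideal.one_eq_top]
      trivial
  · have hKt : ltK p n h ≠ ⊤ := fun e => (maximalIdeal.isMaximal (LTRing p n)).ne_top
      (top_le_iff.1 (e ▸ hKm))
    obtain ⟨_, r', hB, -, hmax⟩ := hT.quot _ hKt
    have := hB.complete
    have hXm : ∀ i, Ideal.Quotient.mk (ltK p n h) (X i) ∈
        (maximalIdeal (LTRing p n ⧸ ltK p n h)).radical := fun i => by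
      refine Ideal.le_radical ?_
      rw [hmax, maximalIdeal_LT]
      exact Ideal.mem_map_of_mem _ (Ideal.mem_sup_right (Ideal.subset_span ⟨i, rfl⟩))
    let ι : kk p n →+* LTRing p n ⧸ ltK p n h :=
      RingHom.liftOfSurjective WittVector.constantCoeff (WittVector.constantCoeff_surjective p)
        ⟨(Ideal.Quotient.mk (ltK p n h)).comp C, by
          rw [WittVector.ker_constantCoeff, Ideal.span_le, Set.singleton_subset_iff,
            SetLike.mem_coe, RingHom.mem_ker, RingHom.comp_apply, map_natCast,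
            Ideal.Quotient.eq_zero_iff_mem]
          exact Ideal.mem_sup_left (Ideal.mem_span_singleton_self _)⟩
    have hι : ∀ w, ι (WittVector.constantCoeff w) = Ideal.Quotient.mk (ltK p n h) (C w) :=
      fun w => RingHom.liftOfSurjective_comp_apply _ _ _ _
    obtain ⟨τ, hτC, hτX⟩ := exists_ev (maximalIdeal (LTRing p n ⧸ ltK p n h)) ι
      (fun l : Fin m => Ideal.Quotient.mk (ltK p n h) (X ⟨h - 1 + l, by omega⟩)) fun l => hXm _
    have key : Ideal.Quotient.mk (ltK p n h) = τ.comp ρ := by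
      refine hom_ext (maximalIdeal (LTRing p n ⧸ ltK p n h)) hXm (fun w => ?_) fun i => ?_
      · rw [RingHom.comp_apply, hC, RingHom.comp_apply, hτC, hι]
      · rw [RingHom.comp_apply, hX]
        simp only [a]
        split_ifs with hi
        · rw [map_zero, Ideal.Quotient.eq_zero_iff_mem]
          exact Ideal.mem_sup_right (Ideal.subset_span ⟨i, hi, rfl⟩)
        · rw [hτX]
          congr 2
          ext
          simp only
          omega
    intro f hf
    rw [← Ideal.Quotient.eq_zero_iff_mem, key, RingHom.comp_apply, (RingHom.mem_ker).1 hf,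
      map_zero]
  · rw [ltK, sup_le_iff, Ideal.span_le, Ideal.span_le]
    constructor
    · rw [Set.singleton_subset_iff, SetLike.mem_coe, RingHom.mem_ker, map_natCast,
        ← map_natCast (C : kk p n →+* MvPowerSeries (Fin m) (kk p n)), hp0, map_zero]
    · rintro _ ⟨i, hi, rfl⟩
      rw [SetLike.mem_coe, RingHom.mem_ker, hX]
      exact dif_pos hi

/-- Height parameters are coordinates: `u_l ↦ v_l` is an automorphism `Ψ` of `E₀` (surjective by
`heightIdeal_n`); compose `Ψ⁻¹` with reduction modulo `p` and `u_l ↦ 0` for `l < h`. -/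
theorem exists_coords {h m : ℕ} (hh : 1 ≤ h) (hn : n = h + m) [H.IsComm]
    (hΓ : mulSeries Γ p = PowerSeries.X ^ (p ^ n)) (hH : IsUniversalDeformation p n Γ H) :
    ∃ ϖ : LTRing p n →+* MvPowerSeries (Fin m) (kk p n), Function.Surjective ϖ ∧
      RingHom.ker ϖ = heightIdeal p n H h ∧
      (constantCoeff : MvPowerSeries (Fin m) (kk p n) →+* kk p n).comp ϖ = LTRing.residue p n ∧
      ϖ.comp (algebraMap (WW p n) (LTRing p n)) =
        (C : kk p n →+* MvPowerSeries (Fin m) (kk p n)).comp WittVector.constantCoeff ∧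
      ∀ l : Fin m, ϖ (PowerSeries.coeff (p ^ (h + l)) (mulSeries H p)) = X l := by
  have hT := isTest_LT p n
  have := hT.complete
  have hn1 : 1 ≤ n := by omega
  obtain ⟨Ψ, hΨC, hΨX⟩ := exists_ev (maximalIdeal (LTRing p n)) (C : WW p n →+* LTRing p n)
    (fun i : Fin (n - 1) => PowerSeries.coeff (p ^ ((i : ℕ) + 1)) (mulSeries H p)) fun i =>
      Ideal.le_radical (lt_heightIdeal_le hΓ hH le_rfl (lt_coeff_mem H (by have := i.2; omega)))
  have hm : (maximalIdeal (LTRing p n)).map Ψ = maximalIdeal (LTRing p n) := by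
    conv_lhs => rw [← lt_K_n]
    rw [lt_map_K hn1 le_rfl Ψ hΨX, heightIdeal_n hn1 hΓ hH]
  have hb := lt_bijective Ψ hΨC hm
  let e := RingEquiv.ofBijective Ψ hb
  have he : ∀ x, e.symm (Ψ x) = x := fun x => e.symm_apply_apply x
  obtain ⟨ρ, h1, h2, h3, h4, h5⟩ := lt_exists_red (p := p) hh hn
  have hres : ∀ x, constantCoeff (ρ x) = LTRing.residue p n (Ψ x) := by
    have : (constantCoeff : MvPowerSeries (Fin m) (kk p n) →+* kk p n).comp ρ =
        (LTRing.residue p n).comp Ψ := by
      refine hom_ext (⊥ : Ideal (kk p n)) (fun i => ?_) (fun w => ?_) fun i => ?_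
      · rw [RingHom.comp_apply, h4]; exact zero_mem _
      · simp [h3, hΨC, LTRing.residue]
      · rw [RingHom.comp_apply, h4, RingHom.comp_apply, hΨX, lt_residue_coeff hΓ hH, if_neg]
        exact (Nat.pow_lt_pow_right (Fact.out : p.Prime).one_lt (by have := i.2; omega)).ne
    exact fun x => congrFun (congrArg DFunLike.coe this) x
  refine ⟨ρ.comp e.symm.toRingHom, h1.comp e.symm.surjective, ?_, ?_, ?_, fun l => ?_⟩
  · rw [← lt_map_K hh (by omega) Ψ hΨX, ← h2]
    ext x
    obtain ⟨y, rfl⟩ := hb.2 x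
    rw [← Ideal.mem_comap, ← Ideal.mem_comap, Ideal.comap_map_of_bijective _ hb, Ideal.mem_comap,
      RingHom.mem_ker, RingHom.mem_ker]
    show ρ (e.symm (Ψ y)) = 0 ↔ _
    rw [he]
  · ext1 x
    obtain ⟨y, rfl⟩ := hb.2 x
    show constantCoeff (ρ (e.symm (Ψ y))) = _
    rw [he, hres]
  · ext1 w
    show ρ (e.symm (C w)) = _
    rw [← hΨC, he, h3]
    rfl
  · have := hΨX ⟨h - 1 + l, by omega⟩
    rw [show h - 1 + (l : ℕ) + 1 = h + l by omega] at this
    show ρ (e.symm _) = _
    rw [← this, he, h5]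

theorem isPrime_heightIdeal (hn : 1 ≤ n) [H.IsComm]
    (hΓ : mulSeries Γ p = PowerSeries.X ^ (p ^ n)) (hH : IsUniversalDeformation p n Γ H)
    {h : ℕ} (hh : h ≤ n) : (heightIdeal p n H h).IsPrime := by
  rcases Nat.eq_zero_or_pos h with rfl | h0
  · exact Ideal.isPrime_bot
  · obtain ⟨ϖ, -, h2, -⟩ := exists_coords (m := n - h) h0 (by omega) hΓ hH
    rw [← h2]
    have : IsDomain (MvPowerSeries (Fin (n - h)) (kk p n)) := NoZeroDivisors.to_isDomain _
    exact RingHom.ker_isPrime ϖ

end Crest.Agent.R227
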