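import Crest.Agent.R227.Ev

/-! # Row 227: the valuation ring of a complete ultrametric field. -/

set_option autoImplicit false
set_option linter.unusedSectionVars false

open MvPowerSeries

noncomputable section
namespace Crest.Agent.R227

open Crest.LubinTate

section Norm
variable (K : Type) [NontriviallyNormedField K] [IsUltrametricDist K]

/-- the closed unit ball -/
def OO : Subring K where
  carrier := {x | ‖x‖ ≤ 1}
  mul_mem' {a b} ha hb := by
    simp only [Set.mem_ofPred_eq, norm_mul] at *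
    exact mul_le_one₀ ha (norm_nonneg _) hb
  one_mem' := by simp
  add_mem' {a b} ha hb := (IsUltrametricDist.norm_add_le_max a b).trans (max_le ha hb)
  zero_mem' := by simp
  neg_mem' {a} ha := by simpa using ha

theorem OO.norm_le_one (x : OO K) : ‖x‖ ≤ 1 := x.2

/-- the ideal of elements of norm `≤ ε` -/
def ball (ε : ℝ) : Ideal (OO K) where
  carrier := {x | ‖x‖ ≤ max ε 0}
  add_mem' {a b} ha hb := (IsUltrametricDist.norm_add_le_max (a : K) b).trans (max_le ha hb)
  zero_mem' := by simp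
  smul_mem' c x hx := by
    simp only [Set.mem_ofPred_eq, smul_eq_mul, norm_mul] at *
    exact (mul_le_of_le_one_left (norm_nonneg _) (OO.norm_le_one K c)).trans hx

theorem mem_ball {ε : ℝ} (hε : 0 ≤ ε) (x : OO K) : x ∈ ball K ε ↔ ‖x‖ ≤ ε := by
  change ‖x‖ ≤ max ε 0 ↔ _
  rw [max_eq_left hε]

/-- an ideal of definition -/
def IO : Ideal (OO K) :=
  Ideal.span {⟨(NormedField.exists_norm_lt_one K).choose,
    (NormedField.exists_norm_lt_one K).choose_spec.2.le⟩}

theorem OO_norm_coe (x : OO K) : ‖(x : K)‖ = ‖x‖ := rfl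

theorem OO_norm_add_le (x y : OO K) : ‖x + y‖ ≤ max ‖x‖ ‖y‖ :=
  IsUltrametricDist.norm_add_le_max (x : K) y

theorem OO_norm_add_lt {x y : OO K} {r : ℝ} (hx : ‖x‖ < r) (hy : ‖y‖ < r) : ‖x + y‖ < r :=
  (OO_norm_add_le K x y).trans_lt (max_lt hx hy)

theorem OO_norm_mul_lt_left {x : OO K} (hx : ‖x‖ < 1) (y : OO K) : ‖x * y‖ < 1 := by
  rw [norm_mul]
  exact (mul_le_of_le_one_right (norm_nonneg _) (OO.norm_le_one K y)).trans_lt hx

theorem OO_mem_span_iff (c x : OO K) : x ∈ Ideal.span {c} ↔ ‖x‖ ≤ ‖c‖ := by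
  rw [Ideal.mem_span_singleton']
  constructor
  · rintro ⟨a, rfl⟩
    rw [norm_mul]
    exact mul_le_of_le_one_left (norm_nonneg _) (OO.norm_le_one K a)
  · intro h
    by_cases hc : c = 0
    · subst hc
      rw [norm_zero, norm_le_zero_iff] at h
      exact ⟨0, by rw [h, zero_mul]⟩
    · have hc' : (c : K) ≠ 0 := fun h0 => hc (Subtype.ext h0)
      refine ⟨⟨(x : K) / c, ?_⟩, Subtype.ext (div_mul_cancel₀ _ hc')⟩
      change ‖(x : K) / c‖ ≤ 1
      rw [norm_div]
      exact div_le_one_of_le₀ h (norm_nonneg _)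

theorem OO_mem_span_pow_iff (c x : OO K) (k : ℕ) : x ∈ Ideal.span {c} ^ k ↔ ‖x‖ ≤ ‖c‖ ^ k := by
  rw [Ideal.span_singleton_pow, OO_mem_span_iff, norm_pow]

theorem OO_exists_gen : ∃ c : OO K, 0 < ‖c‖ ∧ ‖c‖ < 1 ∧ IO K = Ideal.span {c} :=
  ⟨_, (NormedField.exists_norm_lt_one K).choose_spec.1,
    (NormedField.exists_norm_lt_one K).choose_spec.2, rfl⟩

theorem OO_le_of_le_add_pow {x y r : ℝ} (hr0 : 0 ≤ r) (hr : r < 1) (h : ∀ k : ℕ, x ≤ y + r ^ k) :
    x ≤ y := by
  have h1 := (tendsto_pow_atTop_nhds_zero_of_lt_one hr0 hr).const_add y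
  rw [add_zero] at h1
  exact ge_of_tendsto' h1 h

theorem mem_IO_radical (x : OO K) : x ∈ (IO K).radical ↔ ‖x‖ < 1 := by
  obtain ⟨c, h0, h1, hc⟩ := OO_exists_gen K
  rw [hc, Ideal.mem_radical_iff]
  simp only [OO_mem_span_iff, norm_pow]
  constructor
  · rintro ⟨n, hn⟩
    by_contra h
    exact absurd (hn.trans_lt h1) (one_le_pow₀ (not_lt.1 h)).not_gt
  · intro h
    obtain ⟨n, hn⟩ := exists_pow_lt_of_lt_one h0 h
    exact ⟨n, hn.le⟩

theorem ball_closed (ε : ℝ) (x : OO K) (h : ∀ k : ℕ, x ∈ ball K ε ⊔ IO K ^ k) : x ∈ ball K ε := by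
  obtain ⟨c, h0, h1, hc⟩ := OO_exists_gen K
  change ‖x‖ ≤ max ε 0
  refine OO_le_of_le_add_pow h0.le h1 fun k => ?_
  obtain ⟨y, hy, z, hz, rfl⟩ := Submodule.mem_sup.1 (h k)
  rw [hc, OO_mem_span_pow_iff] at hz
  exact (norm_add_le _ _).trans (add_le_add hy hz)

theorem isUnit_iff_norm (x : OO K) : IsUnit x ↔ ‖x‖ = 1 := by
  rw [← Ideal.span_singleton_eq_top, Ideal.eq_top_iff_one, OO_mem_span_iff, norm_one]
  exact ⟨fun h => le_antisymm (OO.norm_le_one K x) h, fun h => h.ge⟩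

instance [CompleteSpace K] : CompleteSpace (OO K) := by
  have h : IsClosed {x : K | ‖x‖ ≤ 1} := isClosed_le continuous_norm continuous_const
  exact h.completeSpace_coe

theorem OO_isAdicComplete [CompleteSpace K] {c : OO K} (hc : ‖c‖ < 1) :
    IsAdicComplete (Ideal.span {c}) (OO K) := by
  have key : ∀ (x y : OO K) (n : ℕ),
      x ≡ y [SMOD (Ideal.span {c} ^ n • ⊤ : Submodule (OO K) (OO K))] ↔ ‖x - y‖ ≤ ‖c‖ ^ n := by
    intro x y n
    rw [SModEq.sub_mem, smul_eq_mul, Ideal.mul_top, OO_mem_span_pow_iff]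
  have h1 : IsHausdorff (Ideal.span {c}) (OO K) := by
    refine ⟨fun x hx => ?_⟩
    rw [← norm_le_zero_iff]
    refine OO_le_of_le_add_pow (norm_nonneg c) hc fun k => ?_
    simpa using (key _ _ _).1 (hx k)
  have h2 : IsPrecomplete (Ideal.span {c}) (OO K) := by
    refine ⟨fun f hf => ?_⟩
    have h3 : CauchySeq f := by
      refine cauchySeq_of_le_geometric ‖c‖ 1 hc fun n => ?_
      rw [dist_eq_norm, one_mul]
      exact (key _ _ _).1 (hf (Nat.le_succ n))
    obtain ⟨L, hL⟩ := cauchySeq_tendsto_of_complete h3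
    refine ⟨L, fun n => (key _ _ _).2 ?_⟩
    refine le_of_tendsto (hL.const_sub (f n)).norm ?_
    filter_upwards [Filter.eventually_ge_atTop n] with m hm
    exact (key _ _ _).1 (hf hm)
  exact {}

instance [CompleteSpace K] : IsAdicComplete (IO K) (OO K) := by
  obtain ⟨c, -, h1, hc⟩ := OO_exists_gen K
  rw [hc]
  exact OO_isAdicComplete K h1

variable {K} [CompleteSpace K]

theorem OO_norm_ev_le_pow {σ R : Type} [Finite σ] [CommRing R] (φ : R →+* OO K) {a : σ → OO K}
    {r : ℝ} (hr0 : 0 ≤ r) (hr : r < 1) (ha : ∀ i, ‖a i‖ ≤ r) {f : MvPowerSeries σ R} {k : ℕ}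
    (hf : ∀ d : σ →₀ ℕ, d.degree < k → coeff d f = 0) : ‖ev (IO K) φ a f‖ ≤ r ^ k := by
  have h1 := ev_mem_pow (IO K) φ (fun i => (mem_IO_radical K _).2 ((ha i).trans_lt hr)) hf
  have h2 : Ideal.span (Set.range a) ≤ ball K r := by
    rw [Ideal.span_le]
    rintro _ ⟨i, rfl⟩
    exact (mem_ball K hr0 _).2 (ha i)
  have h3 : ∀ k : ℕ, ball K r ^ k ≤ ball K (r ^ k) := by
    intro k
    induction k with
    | zero =>
      intro x _
      rw [pow_zero, mem_ball K zero_le_one]
      exact OO.norm_le_one K x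
    | succ k ih =>
      rw [pow_succ, Ideal.mul_le]
      intro x hx y hy
      rw [mem_ball K (by positivity), norm_mul, pow_succ]
      exact mul_le_mul ((mem_ball K (by positivity) _).1 (ih hx)) ((mem_ball K hr0 _).1 hy)
        (norm_nonneg _) (by positivity)
  exact (mem_ball K (by positivity) _).1 (h3 k (Ideal.pow_right_mono h2 k h1))

/-- the value differs from a partial sum containing all nonzero terms of degree `< k` by at most
`r ^ k` -/
theorem OO_norm_ev_sub_sum {σ R : Type} [Finite σ] [CommRing R] (φ : R →+* OO K) {a : σ → OO K}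
    {r : ℝ} (hr0 : 0 ≤ r) (hr : r < 1) (ha : ∀ i, ‖a i‖ ≤ r) (f : MvPowerSeries σ R) {k : ℕ}
    {s : Finset (σ →₀ ℕ)} (hs : ∀ d : σ →₀ ℕ, d.degree < k → d ∉ s → coeff d f = 0) :
    ‖ev (IO K) φ a f - ∑ d ∈ s, φ (coeff d f) * d.prod fun i e => a i ^ e‖ ≤ r ^ k := by
  have ha' : ∀ i, a i ∈ (IO K).radical := fun i => (mem_IO_radical K _).2 ((ha i).trans_lt hr)
  have h1 : ev (IO K) φ a (truncFinset R s f : MvPolynomial σ R) =
      ∑ d ∈ s, φ (coeff d f) * d.prod fun i e => a i ^ e := by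
    rw [ev_coe _ _ ha', truncFinset_apply, MvPolynomial.eval₂_sum]
    exact Finset.sum_congr rfl fun d _ => MvPolynomial.eval₂_monomial _ _
  rw [← h1, ← map_sub]
  refine OO_norm_ev_le_pow φ hr0 hr ha fun d hd => ?_
  rw [map_sub, MvPolynomial.coeff_coe]
  by_cases h : d ∈ s
  · rw [coeff_truncFinset_of_mem _ h, sub_self]
  · rw [coeff_truncFinset_eq_zero _ h, hs d hd h, sub_self]

theorem OO_exists_radius {σ : Type} [Finite σ] {a : σ → OO K} (ha : ∀ i, ‖a i‖ < 1) :
    ∃ r : ℝ, 0 ≤ r ∧ r < 1 ∧ ∀ i, ‖a i‖ ≤ r := by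
  have := Fintype.ofFinite σ
  exact ⟨‖a‖, norm_nonneg _, (pi_norm_lt_iff one_pos).2 ha, norm_le_pi_norm a⟩

/-- the value of a series is the sum of its terms -/
theorem hasSum_ev {σ R : Type} [Finite σ] [CommRing R] (φ : R →+* OO K) {a : σ → OO K}
    (ha : ∀ i, ‖a i‖ < 1) (f : MvPowerSeries σ R) :
    HasSum (fun d : σ →₀ ℕ => φ (coeff d f) * d.prod fun i e => a i ^ e) (ev (IO K) φ a f) := by
  obtain ⟨r, hr0, hr, har⟩ := OO_exists_radius ha
  classical
  change Filter.Tendsto _ Filter.atTop _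
  refine Metric.tendsto_atTop.2 fun ε hε => ?_
  obtain ⟨k, hk⟩ := exists_pow_lt_of_lt_one hε hr
  refine ⟨(Finsupp.finite_of_degree_lt k).toFinset, fun s hs => ?_⟩
  rw [dist_comm, dist_eq_norm]
  refine (OO_norm_ev_sub_sum φ hr0 hr har f fun d hd hd' => ?_).trans_lt hk
  exact absurd (hs ((Set.Finite.mem_toFinset _).2 hd)) hd'

theorem hasSum_ev1 {x : OO K} (hx : ‖x‖ < 1) (f : PowerSeries (OO K)) :
    HasSum (fun e : ℕ => PowerSeries.coeff e f * x ^ e) (ev1 (IO K) x f) := by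
  have h := hasSum_ev (RingHom.id (OO K)) (a := fun _ : Unit => x) (fun _ => hx) f
  rw [← (Finsupp.uniqueEquiv () (M := ℕ)).symm.hasSum_iff] at h
  refine h.congr_fun fun e => ?_
  change _ = PowerSeries.coeff e f * (Finsupp.single () e).prod fun _ e => x ^ e
  rw [Finsupp.prod_single_index (h := fun _ e => x ^ e) (pow_zero x)]

theorem norm_ev_le_pow {σ R : Type} [Finite σ] [CommRing R] (φ : R →+* OO K) {a : σ → OO K}
    {r : ℝ} (hr0 : 0 ≤ r) (hr : r < 1) (ha : ∀ i, ‖a i‖ ≤ r) {f : MvPowerSeries σ R} {k : ℕ}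
    (hf : ∀ d : σ →₀ ℕ, d.degree < k → coeff d f = 0) : ‖ev (IO K) φ a f‖ ≤ r ^ k := by
  exact OO_norm_ev_le_pow φ hr0 hr ha hf

theorem norm_ev_sub_le {σ : Type} [Finite σ] {a a' : σ → OO K} (ha : ∀ i, ‖a i‖ < 1)
    (ha' : ∀ i, ‖a' i‖ < 1) {ε : ℝ} (hε : 0 ≤ ε) (h : ∀ i, ‖a i - a' i‖ ≤ ε)
    {f f' : MvPowerSeries σ (OO K)} (hf : ∀ d, ‖coeff d f - coeff d f'‖ ≤ ε) :
    ‖ev (IO K) (RingHom.id _) a f - ev (IO K) (RingHom.id _) a' f'‖ ≤ ε := by
  rw [← mem_ball K hε]
  exact ev_sub_ev_mem (IO K) (ball K ε) (ball_closed K ε) _ _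
    (fun i => (mem_IO_radical K _).2 (ha i)) (fun i => (mem_IO_radical K _).2 (ha' i))
    (fun i => (mem_ball K hε _).2 (h i)) fun d => (mem_ball K hε _).2 (hf d)

/-- identity theorem -/
theorem eq_zero_of_ev {σ : Type} [Finite σ] [IsAlgClosed K] {f : MvPowerSeries σ (OO K)}
    (h : ∀ a : σ → OO K, (∀ i, ‖a i‖ < 1) → ev (IO K) (RingHom.id _) a f = 0) : f = 0 := by
  obtain ⟨c, h0, h1, -⟩ := OO_exists_gen K
  have hinf : Infinite (OO K) := by
    refine Infinite.of_injective (fun n : ℕ => c ^ n) fun m n hmn => ?_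
    have h2 : ‖c‖ ^ m = ‖c‖ ^ n := by rw [← norm_pow, ← norm_pow]; exact congrArg _ hmn
    exact pow_right_injective₀ h0 h1.ne h2
  have key : ∀ k : ℕ, ∀ d : σ →₀ ℕ, d.degree = k → coeff d f = 0 := by
    intro k
    induction k using Nat.strong_induction_on with
    | _ k ih =>
    have hP : truncFinset (OO K) (Finsupp.finite_of_degree_eq (σ := σ) k).toFinset f = 0 := by
      refine MvPolynomial.funext fun b => ?_
      rw [map_zero, ← norm_le_zero_iff]
      refine OO_le_of_le_add_pow h0.le h1 fun n => ?_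
      have ht0 : 0 < ‖c ^ (n + 1)‖ := by rw [norm_pow]; positivity
      have ht1 : ‖c ^ (n + 1)‖ < 1 := by rw [norm_pow]; exact pow_lt_one₀ h0.le h1 (by omega)
      have htn : ‖c ^ (n + 1)‖ ≤ ‖c‖ ^ n := by
        rw [norm_pow]; exact pow_le_pow_of_le_one h0.le h1.le (by omega)
      generalize c ^ (n + 1) = t at ht0 ht1 htn
      have h2 := OO_norm_ev_sub_sum (RingHom.id (OO K)) (a := fun i => t * b i) ht0.le ht1
        (fun i => by
          rw [norm_mul]
          exact mul_le_of_le_one_right ht0.le (OO.norm_le_one K _)) f (k := k + 1)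
        (s := (Finsupp.finite_of_degree_eq (σ := σ) k).toFinset) (fun d hd hd' => by
          have h3 : d.degree ≠ k := fun h3 => hd' ((Set.Finite.mem_toFinset _).2 h3)
          exact ih _ (by omega) d rfl)
      have h3 : ∑ d ∈ (Finsupp.finite_of_degree_eq (σ := σ) k).toFinset,
          (RingHom.id (OO K)) (coeff d f) * (d.prod fun i e => (t * b i) ^ e) =
          t ^ k * MvPolynomial.eval b (truncFinset (OO K)
            (Finsupp.finite_of_degree_eq (σ := σ) k).toFinset f) := by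
        rw [truncFinset_apply, map_sum, Finset.mul_sum]
        refine Finset.sum_congr rfl fun d hd => ?_
        have h4 : d.degree = k := (Finsupp.finite_of_degree_eq (σ := σ) k).mem_toFinset.1 hd
        rw [MvPolynomial.eval_monomial, ← h4, Finsupp.degree_apply, RingHom.id_apply]
        simp only [Finsupp.prod, mul_pow, Finset.prod_mul_distrib, Finset.prod_pow_eq_pow_sum]
        ring
      rw [h _ fun i => OO_norm_mul_lt_left K ht1 _, h3, zero_sub, norm_neg, norm_mul, norm_pow,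
        pow_succ] at h2
      rw [zero_add]
      exact (le_of_mul_le_mul_left h2 (by positivity)).trans htn
    intro d hd
    rw [← coeff_truncFinset_of_mem (s := (Finsupp.finite_of_degree_eq (σ := σ) k).toFinset) f
      ((Set.Finite.mem_toFinset _).2 hd), hP, MvPolynomial.coeff_zero]
  ext d
  rw [key _ d rfl, map_zero]

/-- division by `X - x` at a zero `x` -/
theorem OO_exists_div {f : PowerSeries (OO K)} {x : OO K} (hx : ‖x‖ < 1)
    (h : ev1 (IO K) x f = 0) :
    ∃ g : PowerSeries (OO K), f = (PowerSeries.X - PowerSeries.C x) * g := by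
  have hx' := (mem_IO_radical K x).2 hx
  have key : ∀ e : ℕ, ev1 (IO K) x (PowerSeries.mk fun j => PowerSeries.coeff (j + e) f) =
      x * ev1 (IO K) x (PowerSeries.mk fun j => PowerSeries.coeff (j + (e + 1)) f) +
        PowerSeries.coeff e f := by
    intro e
    rw [PowerSeries.eq_X_mul_shift_add_const
      (PowerSeries.mk fun j => PowerSeries.coeff (j + e) f), map_add, map_mul, ev1_X _ hx', ev1_C]
    simp only [PowerSeries.coeff_mk, PowerSeries.constantCoeff_mk, zero_add, add_assoc,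
      add_comm 1 e]
  refine ⟨PowerSeries.mk fun e =>
    ev1 (IO K) x (PowerSeries.mk fun j => PowerSeries.coeff (j + (e + 1)) f), ?_⟩
  refine PowerSeries.ext fun e => ?_
  rw [sub_mul, map_sub, PowerSeries.coeff_C_mul, PowerSeries.coeff_mk]
  rcases e with _ | e
  · have h1 := key 0
    have h2 : (PowerSeries.mk fun j => PowerSeries.coeff (j + 0) f) = f := by
      ext j
      simp
    rw [h2, h] at h1
    rw [PowerSeries.coeff_zero_X_mul]
    linear_combination -h1
  · rw [PowerSeries.coeff_succ_X_mul, PowerSeries.coeff_mk, key (e + 1)]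
    ring

omit [CompleteSpace K] in
theorem OO_coeff_zero_lt {g : PowerSeries (OO K)} {x : OO K} (hx : ‖x‖ < 1) :
    ‖PowerSeries.coeff 0 ((PowerSeries.X - PowerSeries.C x) * g)‖ < 1 := by
  rw [sub_mul, map_sub, PowerSeries.coeff_C_mul, PowerSeries.coeff_zero_X_mul, zero_sub, norm_neg]
  exact OO_norm_mul_lt_left K hx _

omit [CompleteSpace K] in
theorem OO_coeff_succ_lt_iff {g : PowerSeries (OO K)} {x : OO K} (hx : ‖x‖ < 1) (e : ℕ) :
    ‖PowerSeries.coeff (e + 1) ((PowerSeries.X - PowerSeries.C x) * g)‖ < 1 ↔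
      ‖PowerSeries.coeff e g‖ < 1 := by
  rw [sub_mul, map_sub, PowerSeries.coeff_C_mul, PowerSeries.coeff_succ_X_mul]
  have h1 := OO_norm_mul_lt_left K hx (PowerSeries.coeff (e + 1) g)
  constructor
  · intro h
    simpa using OO_norm_add_lt K h h1
  · intro h
    rw [sub_eq_add_neg]
    exact OO_norm_add_lt K h (by rwa [norm_neg])

omit [CompleteSpace K] in
theorem OO_norm_eq_one_iff (x : OO K) : ‖x‖ = 1 ↔ ¬ ‖x‖ < 1 :=
  ⟨fun h => h.not_lt, fun h => le_antisymm (OO.norm_le_one K x) (not_lt.1 h)⟩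

/-- a series with a unit coefficient in degree `≤ d` has at most `d` zeros in the open disc -/
theorem card_roots_le {f : PowerSeries (OO K)} {d : ℕ}
    (hf : ∃ e, e ≤ d ∧ ‖PowerSeries.coeff e f‖ = 1) (s : Finset (OO K))
    (hs : ∀ x ∈ s, ‖x‖ < 1 ∧ ev1 (IO K) x f = 0) : s.card ≤ d := by
  classical
  induction d generalizing f s with
  | zero =>
    obtain ⟨e, he, h1⟩ := hf
    rw [Nat.le_zero, Finset.card_eq_zero, Finset.eq_empty_iff_forall_notMem]
    intro x hx
    obtain ⟨g, rfl⟩ := OO_exists_div (hs x hx).1 (hs x hx).2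
    rw [Nat.le_zero.1 he] at h1
    exact (OO_coeff_zero_lt (hs x hx).1).ne h1
  | succ d ih =>
    rcases s.eq_empty_or_nonempty with rfl | ⟨x, hx⟩
    · simp
    obtain ⟨e, he, h1⟩ := hf
    obtain ⟨g, rfl⟩ := OO_exists_div (hs x hx).1 (hs x hx).2
    rcases e with _ | e
    · exact absurd h1 (OO_coeff_zero_lt (hs x hx).1).ne
    rw [OO_norm_eq_one_iff, OO_coeff_succ_lt_iff (hs x hx).1, ← OO_norm_eq_one_iff] at h1
    have h2 := ih ⟨e, by omega, h1⟩ (s.erase x) fun y hy => by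
      obtain ⟨h3, h4⟩ := hs y (Finset.mem_of_mem_erase hy)
      refine ⟨h3, ?_⟩
      rw [map_mul, map_sub, ev1_X _ ((mem_IO_radical K y).2 h3), ev1_C] at h4
      exact (mul_eq_zero.1 h4).resolve_left (sub_ne_zero.2 (Finset.ne_of_mem_erase hy))
    rw [Finset.card_erase_of_mem hx] at h2
    omega

theorem OO_ev1_coe {x : OO K} (hx : ‖x‖ < 1) (P : Polynomial (OO K)) :
    ev1 (IO K) x (P : PowerSeries (OO K)) = P.eval x := by
  have h : (ev1 (IO K) x).comp Polynomial.coeToPowerSeries.ringHom = Polynomial.evalRingHom x := by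
    refine Polynomial.ringHom_ext (fun a => ?_) ?_
    · simp [ev1_C]
    · simp [ev1_X _ ((mem_IO_radical K x).2 hx)]
  exact DFunLike.congr_fun h P

omit [CompleteSpace K] in
/-- a distinguished polynomial of positive degree has a zero in the open disc -/
theorem OO_exists_root_poly [IsAlgClosed K] {r : Polynomial (OO K)} {d : ℕ} {ρ : ℝ} (hρ0 : 0 ≤ ρ)
    (hρ : ρ < 1) (hd : r.degree < (d + 1 : ℕ)) (hr : ∀ i < d + 1, ‖r.coeff i‖ ≤ ρ) :
    ∃ x : OO K, ‖x‖ < 1 ∧ x ^ (d + 1) = r.eval x := by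
  have h1 : (r.map (OO K).subtype).degree < (d + 1 : ℕ) := Polynomial.degree_map_le.trans_lt hd
  have h2 : (Polynomial.X ^ (d + 1) - r.map (OO K).subtype).degree =
      ((d + 1 : ℕ) : WithBot ℕ) := by
    rw [Polynomial.degree_sub_eq_left_of_degree_lt (by rwa [Polynomial.degree_X_pow]),
      Polynomial.degree_X_pow]
  obtain ⟨α, hα⟩ := IsAlgClosed.exists_root (Polynomial.X ^ (d + 1) - r.map (OO K).subtype)
    (by rw [h2]; exact_mod_cast Nat.succ_ne_zero d)
  rw [Polynomial.IsRoot, Polynomial.eval_sub, Polynomial.eval_pow, Polynomial.eval_X,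
    sub_eq_zero] at hα
  have h3 : ‖α‖ < 1 := by
    by_contra h4
    have h5 : 1 ≤ ‖α‖ := not_lt.1 h4
    have h6 : (r.map (OO K).subtype).natDegree < d + 1 := by
      by_cases h0 : r.map (OO K).subtype = 0
      · rw [h0]; simp
      · exact (Polynomial.natDegree_lt_iff_degree_lt h0).2 h1
    have h7 : ‖α‖ ^ (d + 1) ≤ ρ * ‖α‖ ^ (d + 1) := by
      conv_lhs => rw [← norm_pow, hα, Polynomial.eval_eq_sum_range' h6]
      refine IsUltrametricDist.norm_sum_le_of_forall_le_of_nonneg (by positivity) fun i hi => ?_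
      have h8 := Finset.mem_range.1 hi
      rw [norm_mul, norm_pow, Polynomial.coeff_map]
      exact mul_le_mul (hr i h8) (pow_le_pow_right₀ h5 h8.le) (by positivity) hρ0
    have h9 : 0 < ‖α‖ ^ (d + 1) := by positivity
    nlinarith
  refine ⟨⟨α, h3.le⟩, h3, Subtype.ext ?_⟩
  refine hα.trans ?_
  exact Polynomial.eval_map_apply (f := (OO K).subtype) (p := r) ⟨α, h3.le⟩

theorem OO_exists_root [IsAlgClosed K] {f : PowerSeries (OO K)} {d : ℕ}
    (hlt : ∀ e, e < d + 1 → ‖PowerSeries.coeff e f‖ < 1) (hd : ‖PowerSeries.coeff (d + 1) f‖ = 1) :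
    ∃ x : OO K, ‖x‖ < 1 ∧ ev1 (IO K) x f = 0 := by
  obtain ⟨e₀, he₀, hmax⟩ := Finset.exists_max_image (Finset.range (d + 1))
    (fun e => ‖PowerSeries.coeff e f‖) Finset.nonempty_range_add_one
  have hc := hlt e₀ (Finset.mem_range.1 he₀)
  generalize PowerSeries.coeff e₀ f = c at hmax hc
  have hI := OO_isAdicComplete K hc
  have hord : (f.map (Ideal.Quotient.mk (Ideal.span {c}))).order.toNat = d + 1 := by
    have h1 : (f.map (Ideal.Quotient.mk (Ideal.span {c}))).order = (d + 1 : ℕ) := by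
      rw [PowerSeries.order_eq_nat]
      simp only [PowerSeries.coeff_map, ne_eq, Ideal.Quotient.eq_zero_iff_mem, OO_mem_span_iff]
      exact ⟨by rw [hd]; exact hc.not_ge, fun i hi => hmax i (Finset.mem_range.2 hi)⟩
    rw [h1, ENat.toNat_natCast]
  have hW : f.IsWeierstrassDivisorAt (Ideal.span {c}) := by
    rw [PowerSeries.IsWeierstrassDivisorAt, hord, isUnit_iff_norm]
    exact hd
  have hdiv := hW.isWeierstrassDivisionAt_div_mod (PowerSeries.X ^ (d + 1))
  generalize hW.div (PowerSeries.X ^ (d + 1)) = q at hdiv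
  generalize hW.mod (PowerSeries.X ^ (d + 1)) = r at hdiv
  have hdeg := hdiv.degree_lt
  rw [hord] at hdeg
  obtain ⟨x, hx, hxr⟩ := OO_exists_root_poly (norm_nonneg c) hc hdeg fun i hi => by
    have h1 := hdiv.coeff_f_sub_r_mem (i := i) (by rwa [hord])
    rwa [map_sub, PowerSeries.coeff_X_pow, if_neg hi.ne, zero_sub, OO_mem_span_iff, norm_neg,
      Polynomial.coeff_coe] at h1
  have hq : IsUnit q := by
    rw [PowerSeries.isUnit_iff_constantCoeff, isUnit_iff_norm, OO_norm_eq_one_iff]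
    intro hq0
    have h1 := congrArg (PowerSeries.coeff (d + 1)) hdiv.eq_mul_add
    rw [PowerSeries.coeff_X_pow_self, map_add, Polynomial.coeff_coe,
      Polynomial.coeff_eq_zero_of_degree_lt hdeg, add_zero, PowerSeries.coeff_mul] at h1
    have h2 : (1 : OO K) ∈ (IO K).radical := by
      rw [h1]
      refine Ideal.sum_mem _ fun p hp => (mem_IO_radical K _).2 ?_
      have h3 := Finset.HasAntidiagonal.mem_antidiagonal.1 hp
      by_cases h4 : p.2 = 0
      · rw [mul_comm, h4, PowerSeries.coeff_zero_eq_constantCoeff_apply]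
        exact OO_norm_mul_lt_left K hq0 _
      · exact OO_norm_mul_lt_left K (hlt _ (by omega)) _
    rw [mem_IO_radical, norm_one] at h2
    exact lt_irrefl _ h2
  refine ⟨x, hx, ?_⟩
  have h1 := congrArg (ev1 (IO K) x) hdiv.eq_mul_add
  rw [map_pow, ev1_X _ ((mem_IO_radical K x).2 hx), map_add, map_mul, OO_ev1_coe hx, hxr,
    right_eq_add] at h1
  exact (hq.map (ev1 (IO K) x)).mul_left_eq_zero.1 h1

/-- Weierstrass: if the first unit coefficient is in degree `d`, then `f` is a unit times a product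
of `d` linear factors `X - a` with `‖a‖ < 1` -/
theorem exists_factor [IsAlgClosed K] {f : PowerSeries (OO K)} {d : ℕ}
    (hlt : ∀ e, e < d → ‖PowerSeries.coeff e f‖ < 1) (hd : ‖PowerSeries.coeff d f‖ = 1) :
    ∃ (a : Fin d → OO K) (u : PowerSeries (OO K)), (∀ i, ‖a i‖ < 1) ∧ IsUnit u ∧
      f = u * ∏ i, (PowerSeries.X - PowerSeries.C (a i)) := by
  induction d generalizing f with
  | zero =>
    refine ⟨Fin.elim0, f, fun i => i.elim0, ?_, by simp⟩
    rwa [PowerSeries.isUnit_iff_constantCoeff, isUnit_iff_norm,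
      ← PowerSeries.coeff_zero_eq_constantCoeff_apply]
  | succ d ih =>
    obtain ⟨x, hx, h0⟩ := OO_exists_root hlt hd
    obtain ⟨g, rfl⟩ := OO_exists_div hx h0
    rw [OO_norm_eq_one_iff, OO_coeff_succ_lt_iff hx, ← OO_norm_eq_one_iff] at hd
    obtain ⟨a, u, ha, hu, rfl⟩ := ih (f := g)
      (fun e he => (OO_coeff_succ_lt_iff hx e).1 (hlt _ (by omega))) hd
    refine ⟨Fin.cons x a, u, fun i => Fin.cases hx ha i, hu, ?_⟩
    rw [Fin.prod_univ_succ]
    simp only [Fin.cons_zero, Fin.cons_succ]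
    ring

end Norm

end Crest.Agent.R227
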