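import Crest.Agent.R227.Point
import Crest.Agent.R227.Frob

/-! # Row 227: Frobenius on the valuation ring; shared definitions for the analytic part. -/

set_option autoImplicit false
set_option linter.unusedSectionVars false

open MvPowerSeries Filter Topology

noncomputable section
namespace Crest.Agent.R227

open Crest.LubinTate

variable {K : Type} [NontriviallyNormedField K] [IsUltrametricDist K]
variable (p : ℕ) [Fact p.Prime] [CharP K p]

instance charP_OO : CharP (OO K) p := (OO K).subtype.charP Subtype.val_injective p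

instance perfectRing_OO [IsAlgClosed K] : PerfectRing (OO K) p := by
  refine ⟨⟨frobenius_inj (OO K) p, fun y => ?_⟩⟩
  · obtain ⟨x, hx⟩ := IsAlgClosed.exists_pow_nat_eq (y : K) (Fact.out : p.Prime).pos
    refine ⟨⟨x, ?_⟩, Subtype.ext hx⟩
    have h1 : ‖x‖ ^ p ≤ 1 := by rw [← norm_pow, hx]; exact y.2
    exact (pow_le_one_iff_of_nonneg (norm_nonneg x) (Fact.out : p.Prime).ne_zero).1 h1

variable [IsAlgClosed K]

/-- the `R`-th power of Frobenius, `R ∈ ℤ` -/
def frz (R : ℤ) : OO K ≃+* OO K := ((frobeniusEquiv (OO K) p : RingAut (OO K)) ^ R : RingAut (OO K))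

theorem frz_zero (x : OO K) : frz p 0 x = x := by
  simp [frz]

theorem frz_add (R R' : ℤ) (x : OO K) : frz p (R + R') x = frz p R (frz p R' x) := by
  simp only [frz, zpow_add]
  rfl

theorem frz_natCast (k : ℕ) (x : OO K) : frz p (k : ℤ) x = x ^ p ^ k := by
  induction k generalizing x with
  | zero => simp [frz]
  | succ k ih =>
    rw [Nat.cast_succ, frz_add, ih, pow_succ', pow_mul]
    simp [frz, frobenius_def]

theorem norm_frz (R : ℤ) (x : OO K) : ‖frz p R x‖ = ‖x‖ ^ ((p : ℝ) ^ R) := by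
  have hp : (0 : ℝ) < p := by exact_mod_cast (Fact.out : p.Prime).pos
  obtain ⟨k, rfl | rfl⟩ := R.eq_nat_or_neg
  · rw [frz_natCast, norm_pow, zpow_natCast, ← Real.rpow_natCast]
    push_cast
    rfl
  · have h : ‖x‖ = ‖frz p (-(k : ℤ)) x‖ ^ (p ^ k) := by
      rw [← norm_pow, ← frz_natCast, ← frz_add, add_neg_cancel, frz_zero]
    rw [h, ← Real.rpow_natCast, ← Real.rpow_mul (norm_nonneg _), zpow_neg, zpow_natCast]
    push_cast
    rw [mul_inv_cancel₀ (by positivity), Real.rpow_one]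

theorem norm_frz_lt (R : ℤ) {x : OO K} (hx : ‖x‖ < 1) : ‖frz p R x‖ < 1 := by
  have hp : (0 : ℝ) < p := by exact_mod_cast (Fact.out : p.Prime).pos
  rw [norm_frz]
  exact Real.rpow_lt_one (norm_nonneg _) hx (by positivity)

theorem frz_galois {n : ℕ} (hn : 1 ≤ n) (j : kk p n →+* OO K) (k : ℤ) (a : kk p n) :
    frz p (n * k) (j a) = j a := by
  have h1 : ∀ k : ℕ, frz p (n * k) (j a) = j a := by
    intro k
    have hc : Nat.card (kk p n) = p ^ n := GaloisField.card p n (by omega)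
    have : Fintype (kk p n) := Fintype.ofFinite _
    rw [Nat.card_eq_fintype_card] at hc
    rw [← Nat.cast_mul, frz_natCast, ← map_pow, pow_mul, ← hc, FiniteField.pow_card_pow]
  obtain ⟨k, rfl | rfl⟩ := k.eq_nat_or_neg
  · exact h1 k
  · conv_lhs => rw [← h1 k]
    rw [← frz_add]
    simp [frz_zero]

/-- the leading terms of the `y j`, shifted by powers of `q` to a common size, are independent
over `𝔽_p` -/
def Adapted (n : ℕ) {m : ℕ} (y : Fin m → OO K) : Prop :=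
  ∀ (s : Finset (Fin m)) (k : Fin m → ℤ) (c : Fin m → ℕ) (σ : ℝ),
    (∀ j ∈ s, ‖frz p (n * k j) (y j)‖ = σ) →
    ‖∑ j ∈ s, (c j : OO K) * frz p (n * k j) (y j)‖ < σ → ∀ j ∈ s, p ∣ c j

variable {p}

omit [IsAlgClosed K] in
/-- coefficientwise `ε`-close laws -/
def Close (ε : ℝ) (F F' : FormalGroup (OO K)) : Prop :=
  ∀ d, ‖coeff d F.toPowerSeries - coeff d F'.toPowerSeries‖ ≤ ε

omit [IsAlgClosed K] in
/-- `F(π ^ Q ^ i) ≈ 0` to every order -/
def AsympVanish (Q : ℕ) {m : ℕ} (F : MvPowerSeries (Fin m) K) (π : Fin m → OO K) (r : ℝ) : Prop :=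
  ∀ N : ℕ, ∃ M : ℝ, ∀ᶠ i : ℕ in atTop,
    ‖MvPolynomial.eval (fun j => (π j : K) ^ Q ^ i) (truncTotal N F)‖ ≤ M * r ^ (N * Q ^ i)

variable (p)

/-- cancellation of the leading terms in a dominant class of exponents -/
def LeadCancel (n : ℕ) {m : ℕ} (γ : Fin m → ℤ → OO K) (y : Fin m → OO K) : Prop :=
  ∀ (R e₀ : ℤ) (ν θ : ℝ) (𝒢 : Finset (Fin m × ℤ)), 0 < ν → θ < 1 →
    (∀ j e, e ≡ e₀ [ZMOD n] → ‖γ j e * frz p (e + R) (y j)‖ ≤ ν) →
    (∀ j e (u : ℕ), 1 ≤ u → e + u ≡ e₀ [ZMOD n] →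
      ‖γ j e * frz p (e + R) (y j)‖ ^ p ^ u ≤ θ * ν) →
    (∀ j e, (j, e) ∈ 𝒢 ↔ e ≡ e₀ [ZMOD n] ∧ ‖γ j e * frz p (e + R) (y j)‖ = ν) →
    ‖∑ x ∈ 𝒢, γ x.1 x.2 * frz p (x.2 + R) (y x.1)‖ < ν

variable [CompleteSpace K]

/-- the map from the universal cover of `Γ` to the points of a deformation `F` -/
def rho (n : ℕ) (F : FormalGroup (OO K)) (y : OO K) : OO K :=
  limUnder atTop fun k : ℕ => ev1 (IO K) (frz p (-(n * k : ℤ)) y) (mulSeries F (p ^ k))

end Crest.Agent.R227
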