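import Mathlib

/-! # Row 227: a complete algebraically closed field over `𝔽_p⟦T⟧` (auxiliary file for `Point`). -/

set_option autoImplicit false
set_option linter.unusedSectionVars false

open Polynomial

noncomputable section
namespace Crest.Agent.R227.PointAux

/-- a complete ultrametric field with a dense algebraically closed subfield is algebraically
closed (any characteristic) -/
theorem isAlgClosed_of_denseRange {K L : Type*} [Field K] [NontriviallyNormedField L]
    [CompleteSpace L] [IsUltrametricDist L] [Algebra K L]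
    (hi : DenseRange (algebraMap K L)) [IsAlgClosed K] : IsAlgClosed L := by
  apply IsAlgClosed.of_exists_root
  intro f fmon firr
  have fnatdeg0 : f.natDegree ≠ 0 := (Irreducible.natDegree_pos firr).ne'
  let F := f.SplittingField
  let _ : NormedField F := spectralNorm.normedField L F
  let _ : NormedAlgebra L F := spectralNorm.normedAlgebra L F
  let a := rootOfSplits (SplittingField.splits f)
      (by simpa using degree_ne_of_natDegree_ne fnatdeg0)
  have fa0 : f.aeval a = 0 := by
    rw [← eval_map_algebraMap]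
    exact eval_rootOfSplits (Polynomial.SplittingField.splits f)
      (by simpa using degree_ne_of_natDegree_ne fnatdeg0)
  have hclosed : IsClosed (Set.range (algebraMap L F)) :=
    (algebraMap_isometry L F).isClosedEmbedding.isClosed_range
  have key : ∀ δ : ℝ, 0 < δ → ∃ b ∈ Set.range (algebraMap L F), dist a b < δ := by
    intro δ δpos
    have hε : (δ / (max ‖a‖ 1)) ^ f.natDegree / (f.natDegree + 1) > 0 := by positivity
    obtain ⟨g, gmon, gdeg, gcoeff⟩ :=
      exists_monic_and_natDegree_eq_and_norm_map_algebraMap_coeff_sub_lt hi fmon hε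
    obtain ⟨b, hb, hab⟩ := exists_aroots_norm_sub_lt_of_norm_coeff_sub_lt
      hε fa0 fmon (gmon.map _) (gdeg ▸ (g.natDegree_map _)) gcoeff
      (by simpa [Polynomial.map_map] using (IsAlgClosed.splits g).map ((algebraMap L F).comp _))
    have hab : ‖a - b‖ < δ := by
      rw [← Real.rpow_natCast, ← mul_comm_div, div_self, one_mul,
        ← Real.rpow_mul (div_pos δpos (by positivity)).le, mul_inv_cancel₀] at hab
      · simpa [mul_assoc, div_mul_cancel₀ _ (by positivity : (max ‖a‖ 1) > 0).ne'] using hab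
      · simp [fnatdeg0]
      · positivity
    rw [Polynomial.aroots_def, Splits.roots_map ((IsAlgClosed.splits g).map _),
        Multiset.mem_map] at hb
    obtain ⟨b', _, hb'⟩ := hb
    exact ⟨b, ⟨b', hb'⟩, by rwa [dist_eq_norm]⟩
  have ha : a ∈ Set.range (algebraMap L F) := by
    rw [← hclosed.closure_eq, Metric.mem_closure_iff]
    exact key
  obtain ⟨a', ha'⟩ := ha
  use a'
  apply_fun algebraMap L F
  · rwa [← Polynomial.aeval_algebraMap_apply_eq_algebraMap_eval, ha', map_zero]
  · exact RingHom.injective _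

/-- elements algebraic over the prime field are fixed by a power of Frobenius -/
theorem exists_pow_eq_of_isIntegral {p : ℕ} [Fact p.Prime] {K : Type*} [Field K]
    [Algebra (ZMod p) K] {ζ : K} (h : IsIntegral (ZMod p) ζ) :
    ∃ N : ℕ, 0 < N ∧ ζ ^ p ^ N = ζ := by
  let E := IntermediateField.adjoin (ZMod p) {ζ}
  have : FiniteDimensional (ZMod p) E := IntermediateField.adjoin.finiteDimensional h
  have : Finite E := Module.finite_of_finite (ZMod p)
  let _ : Fintype E := Fintype.ofFinite E
  refine ⟨Module.finrank (ZMod p) E, Module.finrank_pos, ?_⟩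
  have h1 : Fintype.card E = p ^ Module.finrank (ZMod p) E := by
    rw [Module.card_eq_pow_finrank (K := ZMod p) (V := E), ZMod.card]
  have h2 := FiniteField.pow_card (IntermediateField.AdjoinSimple.gen (ZMod p) ζ)
  rw [h1] at h2
  simpa using congrArg (algebraMap E K) h2

theorem norm_sum_lt_one {K : Type*} [NormedField K] [IsUltrametricDist K] {ι : Type*}
    (s : Finset ι) (f : ι → K) (h : ∀ i ∈ s, ‖f i‖ < 1) : ‖∑ i ∈ s, f i‖ < 1 := by
  classical
  induction s using Finset.induction_on with
  | empty => simp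
  | insert a s ha ih =>
    rw [Finset.sum_insert ha]
    exact (IsUltrametricDist.norm_add_le_max _ _).trans_lt
      (max_lt (h a (Finset.mem_insert_self _ _))
        (ih fun i hi => h i (Finset.mem_insert_of_mem hi)))

/-- a root of a monic polynomial whose coefficients are close to the prime field is close to an
element algebraic over the prime field -/
theorem exists_close {p : ℕ} [Fact p.Prime] {K : Type*} [NormedField K] [IsUltrametricDist K]
    [IsAlgClosed K] [Algebra (ZMod p) K] {f : K[X]} (hf : f.Monic) {z : K} (hz : ‖z‖ ≤ 1)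
    (hfz : f.eval z = 0) (hc : ∀ i, ∃ a : ZMod p, ‖f.coeff i - algebraMap (ZMod p) K a‖ < 1) :
    ∃ (ζ : K) (N : ℕ), 0 < N ∧ ζ ^ p ^ N = ζ ∧ ‖z - ζ‖ < 1 := by
  choose a ha using hc
  set d := f.natDegree with hd
  let g : (ZMod p)[X] := X ^ d + ∑ i ∈ Finset.range d, C (a i) * X ^ i
  have hg : g.Monic := by
    refine monic_X_pow_add ?_
    refine (degree_sum_le _ _).trans_lt ?_
    refine (Finset.sup_lt_iff (WithBot.bot_lt_coe d)).2 fun i hi => ?_
    exact (degree_C_mul_X_pow_le i (a i)).trans_lt (WithBot.coe_lt_coe.2 (Finset.mem_range.1 hi))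
  have h1 : aeval z g = ∑ i ∈ Finset.range d, (algebraMap (ZMod p) K (a i) - f.coeff i) * z ^ i := by
    have h2 := hfz
    rw [eval_eq_sum_range, Finset.sum_range_succ, ← hd] at h2
    have h3 : f.coeff d = 1 := hf.coeff_natDegree
    rw [h3, one_mul] at h2
    simp only [g, map_add, map_pow, aeval_X, map_sum, map_mul, aeval_C, sub_mul,
      Finset.sum_sub_distrib]
    linear_combination h2
  have h2 : ‖aeval z g‖ < 1 := by
    rw [h1]
    refine norm_sum_lt_one _ _ fun i _ => ?_
    rw [norm_mul, norm_pow, norm_sub_rev]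
    exact mul_lt_one_of_nonneg_of_lt_one_left (norm_nonneg _) (ha i)
      (pow_le_one₀ (norm_nonneg _) hz)
  have hg' : (g.map (algebraMap (ZMod p) K)).Monic := hg.map _
  have h3 := (IsAlgClosed.splits (g.map (algebraMap (ZMod p) K))).eval_eq_prod_roots_of_monic hg' z
  rw [eval_map_algebraMap] at h3
  by_contra hcon
  push Not at hcon
  have h4 : ∀ ζ ∈ (g.map (algebraMap (ZMod p) K)).roots, 1 ≤ ‖z - ζ‖ := by
    intro ζ hζ
    have hr : aeval ζ g = 0 := by
      rw [← eval_map_algebraMap]
      exact (mem_roots hg'.ne_zero).1 hζ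
    obtain ⟨N, hN, hζN⟩ := exists_pow_eq_of_isIntegral (p := p) (ζ := ζ) ⟨g, hg, hr⟩
    exact hcon ζ N hN hζN
  have h5 : ∀ s : Multiset K, (∀ ζ ∈ s, 1 ≤ ‖z - ζ‖) → 1 ≤ ‖(s.map fun ζ => z - ζ).prod‖ := by
    intro s
    induction s using Multiset.induction_on with
    | empty => simp
    | cons b s ih =>
      intro h
      rw [Multiset.map_cons, Multiset.prod_cons, norm_mul]
      exact one_le_mul_of_one_le_of_one_le (h b (Multiset.mem_cons_self _ _))
        (ih fun ζ hζ => h ζ (Multiset.mem_cons_of_mem hζ))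
  have h6 := h5 _ h4
  rw [← h3] at h6
  exact absurd h2 (not_lt.2 h6)

/-- the completion of the algebraic closure of a complete field with residue field `𝔽_p` -/
theorem exists_completion {p : ℕ} [Fact p.Prime] (K₀ : Type) [NontriviallyNormedField K₀]
    [IsUltrametricDist K₀] [CompleteSpace K₀] [CharP K₀ p]
    (hres : ∀ c : K₀, ‖c‖ ≤ 1 → ∃ a : ℤ, ‖c - a‖ < 1) :
    ∃ (K : Type) (_ : NontriviallyNormedField K) (_ : IsUltrametricDist K) (_ : CompleteSpace K)
      (_ : IsAlgClosed K) (_ : CharP K p) (φ : K₀ →+* K), (∀ x, ‖φ x‖ = ‖x‖) ∧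
      ∀ z : K, ‖z‖ ≤ 1 → ∃ (ζ : K) (N : ℕ), 0 < N ∧ ζ ^ p ^ N = ζ ∧ ‖z - ζ‖ < 1 := by
  let K₁ := AlgebraicClosure K₀
  let _ : NontriviallyNormedField K₁ := spectralNorm.nontriviallyNormedField K₀ K₁
  let _ : NormedAlgebra K₀ K₁ := spectralNorm.normedAlgebra K₀ K₁
  have : IsUltrametricDist K₁ := IsUltrametricDist.of_normedAlgebra K₀
  have hc1 : CharP K₁ p := charP_of_injective_algebraMap (algebraMap K₀ K₁).injective p
  let _ : Algebra (ZMod p) K₁ := ZMod.algebra K₁ p
  have hres1 : ∀ z : K₁, ‖z‖ ≤ 1 → ∃ (ζ : K₁) (N : ℕ), 0 < N ∧ ζ ^ p ^ N = ζ ∧ ‖z - ζ‖ < 1 := by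
    intro z hz
    have hint : IsIntegral K₀ z := Algebra.IsIntegral.isIntegral z
    have hm := minpoly.monic hint
    have h1 : ∀ i, ‖(minpoly K₀ z).coeff i‖ ≤ 1 := (spectralValue_le_one_iff hm).1 hz
    refine exists_close (f := (minpoly K₀ z).map (algebraMap K₀ K₁)) (hm.map _) hz
      (by rw [eval_map_algebraMap, minpoly.aeval]) fun i => ?_
    obtain ⟨a, ha⟩ := hres _ (h1 i)
    refine ⟨(a : ZMod p), ?_⟩
    rw [coeff_map, map_intCast, ← map_intCast (algebraMap K₀ K₁), ← map_sub, norm_algebraMap']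
    exact ha
  let K := UniformSpace.Completion K₁
  let _ : NontriviallyNormedField K :=
    { (inferInstance : NormedField K) with
      non_trivial := by
        obtain ⟨x, hx⟩ := NontriviallyNormedField.non_trivial (α := K₁)
        exact ⟨(x : K), by rwa [UniformSpace.Completion.norm_coe]⟩ }
  have hu : IsUltrametricDist K := IsUltrametricDist.of_normedAlgebra K₁
  have hdense : DenseRange (algebraMap K₁ K) := UniformSpace.Completion.denseRange_coe
  have hnorm : ∀ x : K₁, ‖algebraMap K₁ K x‖ = ‖x‖ := fun x => UniformSpace.Completion.norm_coe x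
  refine ⟨K, inferInstance, hu, inferInstance, isAlgClosed_of_denseRange hdense,
    charP_of_injective_algebraMap (algebraMap K₁ K).injective p,
    (algebraMap K₁ K).comp (algebraMap K₀ K₁), fun x => ?_, fun z hz => ?_⟩
  · rw [RingHom.comp_apply, hnorm, norm_algebraMap']
  · obtain ⟨z₁, hz₁⟩ := Metric.denseRange_iff.1 hdense z 1 one_pos
    rw [dist_eq_norm] at hz₁
    have h1 : ‖z₁‖ ≤ 1 := by
      rw [← hnorm]
      have : algebraMap K₁ K z₁ = z + -(z - algebraMap K₁ K z₁) := by ring
      rw [this]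
      refine (IsUltrametricDist.norm_add_le_max _ _).trans (max_le hz ?_)
      rw [norm_neg]; exact hz₁.le
    obtain ⟨ζ, N, hN, hζ, hzζ⟩ := hres1 z₁ h1
    refine ⟨algebraMap K₁ K ζ, N, hN, by rw [← map_pow, hζ], ?_⟩
    have : z - algebraMap K₁ K ζ = (z - algebraMap K₁ K z₁) + algebraMap K₁ K (z₁ - ζ) := by
      rw [map_sub]; ring
    rw [this]
    refine (IsUltrametricDist.norm_add_le_max _ _).trans_lt (max_lt hz₁ ?_)
    rwa [hnorm]

/-- a complete algebraically closed field containing `𝔽_p⟦T⟧` -/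
theorem exists_field (p : ℕ) [Fact p.Prime] :
    ∃ (K : Type) (_ : NontriviallyNormedField K) (_ : IsUltrametricDist K) (_ : CompleteSpace K)
      (_ : IsAlgClosed K) (_ : CharP K p) (φ : PowerSeries (ZMod p) →+* K),
      Function.Injective φ ∧ (∀ x, ‖φ x‖ ≤ 1) ∧ ‖φ PowerSeries.X‖ < 1 ∧
      ∀ z : K, ‖z‖ ≤ 1 → ∃ (ζ : K) (N : ℕ), 0 < N ∧ ζ ^ p ^ N = ζ ∧ ‖z - ζ‖ < 1 := by
  let k := ZMod p
  let K₀ := LaurentSeries k
  have hd : (Valued.v : Valuation K₀ (WithZero (Multiplicative ℤ))).IsRankOneDiscrete :=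
    Valuation.IsRankOneDiscrete.mk' ((PowerSeries.idealX k).valuation K₀)
  let _ : (Valued.v : Valuation K₀ (WithZero (Multiplicative ℤ))).RankOne :=
    Valuation.IsRankOneDiscrete.rankOne _ (e := 2) one_lt_two
  let _ : NontriviallyNormedField K₀ :=
    Valued.toNontriviallyNormedField K₀ (WithZero (Multiplicative ℤ))
  have hu : IsUltrametricDist K₀ := inferInstance
  have hcomp : CompleteSpace K₀ := LaurentSeries.instLaurentSeriesComplete
  have hinj : Function.Injective (algebraMap (PowerSeries k) K₀) := IsFractionRing.injective _ _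
  have hcp : CharP (PowerSeries k) p :=
    charP_of_injective_ringHom (f := (PowerSeries.C : k →+* PowerSeries k))
      PowerSeries.C_injective p
  have hc : CharP K₀ p := charP_of_injective_algebraMap hinj p
  have hle : ∀ f : PowerSeries k, ‖algebraMap (PowerSeries k) K₀ f‖ ≤ 1 := fun f =>
    Valued.toNormedField.norm_le_one_iff.2 ((LaurentSeries.val_le_one_iff_eq_coe k _).2 ⟨f, rfl⟩)
  have hX : ‖algebraMap (PowerSeries k) K₀ PowerSeries.X‖ < 1 := by
    refine Valued.toNormedField.norm_lt_one_iff.2 ?_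
    have := LaurentSeries.valuation_X_pow k 1
    rw [pow_one] at this
    refine this.trans_lt ?_
    rw [← WithZero.exp_zero, WithZero.exp_lt_exp]
    norm_num
  have hres : ∀ c : K₀, ‖c‖ ≤ 1 → ∃ a : ℤ, ‖c - a‖ < 1 := by
    intro c hc
    obtain ⟨f, rfl⟩ := (LaurentSeries.val_le_one_iff_eq_coe k _).1
      (Valued.toNormedField.norm_le_one_iff.1 hc)
    obtain ⟨a, ha⟩ := ZMod.intCast_surjective (PowerSeries.constantCoeff f)
    refine ⟨a, ?_⟩
    have h1 : PowerSeries.X ∣ f - (a : PowerSeries k) := by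
      rw [PowerSeries.X_dvd_iff, map_sub, map_intCast, ha, sub_self]
    obtain ⟨g, hg⟩ := h1
    have h2 : (f : K₀) - a = algebraMap (PowerSeries k) K₀ (f - a) := by
      rw [map_sub, map_intCast]; rfl
    rw [h2, hg, map_mul, norm_mul]
    exact mul_lt_one_of_nonneg_of_lt_one_left (norm_nonneg _) hX (hle g)
  obtain ⟨K, i1, i2, i3, i4, i5, φ, hφ, hK⟩ := exists_completion (p := p) K₀ hres
  refine ⟨K, i1, i2, i3, i4, i5, φ.comp (algebraMap (PowerSeries k) K₀),
    φ.injective.comp hinj, fun x => ?_, ?_, hK⟩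
  · rw [RingHom.comp_apply, hφ]; exact hle x
  · rw [RingHom.comp_apply, hφ]; exact hX

end Crest.Agent.R227.PointAux
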