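import Crest.Agent.R227.Test
import Crest.Agent.R227.OO
import Crest.Agent.R227.PointA

/-! # Row 227: a point with values in a complete algebraically closed field of characteristic `p`. -/

set_option autoImplicit false
set_option linter.unusedSectionVars false

open IsLocalRing

noncomputable section
namespace Crest.Agent.R227

/-- the residue field is algebraic over `𝔽_p` -/
def ResAlg (p : ℕ) (K : Type) [NormedField K] : Prop :=
  ∀ z : K, ‖z‖ ≤ 1 → ∃ (ζ : K) (N : ℕ), 0 < N ∧ ζ ^ p ^ N = ζ ∧ ‖z - ζ‖ < 1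

namespace PointAux

theorem mem_smul_top_pi {R ι : Type} [CommRing R] [Finite ι] (J : Ideal R) (x : ι → R) :
    x ∈ J • (⊤ : Submodule R (ι → R)) ↔ ∀ i, x i ∈ J := by
  classical
  constructor
  · intro hx i
    refine Submodule.smul_induction_on hx (fun r hr y _ => ?_) (fun y z hy hz => ?_)
    · exact J.mul_mem_right _ hr
    · exact J.add_mem hy hz
  · intro h
    have := Fintype.ofFinite ι
    rw [pi_eq_sum_univ' x]
    exact Submodule.sum_mem _ fun i _ => Submodule.smul_mem_smul (h i) Submodule.mem_top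

theorem isPrecomplete_pi {R ι : Type} [CommRing R] [Finite ι] (I : Ideal R) [IsPrecomplete I R] :
    IsPrecomplete I (ι → R) := by
  refine ⟨fun f hf => ?_⟩
  have h : ∀ i, ∃ L : R, ∀ n, f n i ≡ L [SMOD (I ^ n • ⊤ : Submodule R R)] := by
    intro i
    refine IsPrecomplete.prec' (fun n => f n i) fun {m n} hmn => ?_
    have := hf hmn
    rw [SModEq.sub_mem, mem_smul_top_pi] at this
    rw [SModEq.sub_mem, smul_eq_mul, Ideal.mul_top]
    exact this i
  choose L hL using h
  refine ⟨L, fun n => ?_⟩
  rw [SModEq.sub_mem, mem_smul_top_pi]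
  intro i
  have := hL i n
  rwa [SModEq.sub_mem, smul_eq_mul, Ideal.mul_top] at this

/-- complete Nakayama lemma -/
theorem finite_of_finite_quot {R B : Type} [CommRing R] [CommRing B] [Algebra R B] (I : Ideal R)
    [IsPrecomplete I R] [IsHausdorff I B] [Finite (B ⧸ I.map (algebraMap R B))] :
    Module.Finite R B := by
  classical
  let ι := B ⧸ I.map (algebraMap R B)
  have := Fintype.ofFinite ι
  choose s hs using Ideal.Quotient.mk_surjective (I := I.map (algebraMap R B))
  have := isPrecomplete_pi (ι := ι) I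
  let f : (ι → R) →ₗ[R] B := Fintype.linearCombination R s
  refine Module.Finite.of_surjective f (surjective_of_mkQ_comp_surjective (I := I) ?_)
  intro y
  obtain ⟨b, rfl⟩ := Submodule.mkQ_surjective _ y
  refine ⟨Pi.single (Ideal.Quotient.mk _ b) 1, ?_⟩
  rw [LinearMap.comp_apply, Submodule.mkQ_apply, Submodule.mkQ_apply, Submodule.Quotient.eq,
    Ideal.smul_top_eq_map, Submodule.restrictScalars_mem, ← Ideal.Quotient.eq]
  simp only [f, Fintype.linearCombination_apply_single, one_smul]
  exact hs _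

theorem norm_le_one_of_monic {R K : Type} [CommRing R] [NontriviallyNormedField K]
    [IsUltrametricDist K] [Algebra R K] (h : ∀ r, ‖algebraMap R K r‖ ≤ 1) {x : K}
    (hx : IsIntegral R x) : ‖x‖ ≤ 1 := by
  let v := NormedField.valuation (K := K)
  have h1 : ∀ y : K, y ∈ v.integer ↔ ‖y‖ ≤ 1 := fun y => by
    rw [Valuation.mem_integer_iff, NormedField.valuation_apply, ← NNReal.coe_le_coe]
    rfl
  let ψ : R →+* v.integer := (algebraMap R K).codRestrict v.integer fun r => (h1 _).2 (h r)
  let _ : Algebra R v.integer := ψ.toAlgebra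
  have : IsScalarTower R v.integer K := IsScalarTower.of_algebraMap_eq fun _ => rfl
  exact (h1 x).1 ((Valuation.integer.integers v).mem_of_integral hx.tower_top)

end PointAux

open PointAux

/-- Plan.  `exists_dim_one` gives `Q`; `B = A ⧸ Q` is a domain of characteristic `p`, finite over
`k⟦T⟧` (`T ↦ v`, `exists_ev`, injective; finite by `surjective_of_mkQ_comp_surjective`).  `K₀ = k((T))`
as a complete nontrivially normed field (`LaurentSeries` with `Valued.toNormedField`, or any model),
`K₁` its algebraic closure with the spectral norm (imitate `Mathlib/NumberTheory/Padics/Complex.lean`),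
`K` the completion of `K₁`.  `K` is algebraically closed: approximate a monic polynomial by
polynomials over `K₁` and choose a Cauchy sequence of roots (no Krasner lemma needed).
Embed `Frac B` in `K₁`; elements of `B` are integral over `k⟦T⟧`, so have norm `≤ 1`. -/
theorem exists_point {p : ℕ} [Fact p.Prime] {n : ℕ} (hn : 1 ≤ n) {A : Type} [CommRing A]
    [IsLocalRing A] [Algebra (WW p n) A] {r : A →+* kk p n} (hA : IsTest p n A r) (P : Ideal A)
    [P.IsPrime] (hp : (p : A) ∈ P) {v : A} (hv : v ∉ P) (hvm : v ∈ maximalIdeal A) :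
    ∃ (K : Type) (_ : NontriviallyNormedField K) (_ : IsUltrametricDist K) (_ : CompleteSpace K)
      (_ : IsAlgClosed K) (_ : CharP K p) (t : A →+* OO K), ResAlg p K ∧
      (∀ x ∈ maximalIdeal A, ‖t x‖ < 1) ∧ (∀ x ∈ P, t x = 0) ∧ t v ≠ 0 := by
  have := hA.noeth
  obtain ⟨Q, N, hQ, hPQ, hvQ, hN⟩ := exists_dim_one P hv hvm
  obtain ⟨i0, r', hB, -, hmax⟩ := hA.quot Q hQ.ne_top
  set B := A ⧸ Q
  have := hB.noeth
  have := hB.complete
  have : IsDomain B := Ideal.Quotient.isDomain Q
  have hpB : (p : B) = 0 := by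
    rw [← map_natCast (Ideal.Quotient.mk Q), Ideal.Quotient.eq_zero_iff_mem]
    exact hPQ hp
  have : CharP B p := (CharP.charP_iff_prime_eq_zero Fact.out).2 hpB
  set w : B := Ideal.Quotient.mk Q v with hw
  have hw0 : w ≠ 0 := by rwa [hw, Ne, Ideal.Quotient.eq_zero_iff_mem]
  have hwm : w ∈ maximalIdeal B := by
    rw [hmax]; exact Ideal.mem_map_of_mem _ hvm
  have hNB : maximalIdeal B ^ N ≤ Ideal.span {w} := by
    rw [hmax, ← Ideal.map_pow]
    refine (Ideal.map_mono hN).trans ?_
    rw [Ideal.map_sup, Ideal.map_quotient_self, bot_sup_eq, Ideal.map_span, Set.image_singleton]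
  let R := PowerSeries (ZMod p)
  obtain ⟨ε, -, hεX⟩ := exists_ev (σ := Unit) (maximalIdeal B) (ZMod.castHom (dvd_refl p) B)
    (fun _ => w) (fun _ => Ideal.le_radical hwm)
  let ε' : R →+* B := ε
  have hε : ε' PowerSeries.X = w := hεX ()
  let _ : Algebra R B := ε'.toAlgebra
  have halg : algebraMap R B PowerSeries.X = w := hε
  have hmap : (Ideal.span {PowerSeries.X} : Ideal R).map (algebraMap R B) = Ideal.span {w} := by
    rw [Ideal.map_span, Set.image_singleton, halg]
  have hw1 : Ideal.span {w} ≠ ⊤ := by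
    rw [Ne, Ideal.span_singleton_eq_top]
    exact hwm
  have : IsHausdorff (Ideal.span {PowerSeries.X} : Ideal R) B := by
    rw [← IsHausdorff.map_algebraMap_iff (S := B), hmap]
    exact IsHausdorff.of_isDomain _ hw1
  have : Finite (B ⧸ maximalIdeal B) := by
    rw [← hB.ker]
    exact Finite.of_equiv _ (RingHom.quotientKerEquivOfSurjective hB.surj).symm.toEquiv
  have : Finite (B ⧸ maximalIdeal B ^ N) :=
    Ideal.finite_quotient_pow (IsNoetherian.noetherian _) N
  have : Finite (B ⧸ (Ideal.span {PowerSeries.X} : Ideal R).map (algebraMap R B)) := by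
    rw [hmap]
    exact Finite.of_surjective _ (Ideal.Quotient.factor_surjective hNB)
  have : Module.Finite R B := finite_of_finite_quot (Ideal.span {PowerSeries.X})
  have hinj : Function.Injective (algebraMap R B) := by
    rw [injective_iff_map_eq_zero]
    intro f hf
    by_contra hf0
    obtain ⟨k, u, rfl⟩ :=
      IsDiscreteValuationRing.eq_unit_mul_pow_irreducible hf0 PowerSeries.X_irreducible
    rw [map_mul, map_pow, halg] at hf
    exact mul_ne_zero (u.isUnit.map (algebraMap R B)).ne_zero (pow_ne_zero k hw0) hf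
  obtain ⟨K, i1, i2, i3, i4, i5, φ, hφinj, hφ1, hφX, hK⟩ := exists_field p
  let _ : Algebra R K := φ.toAlgebra
  have : Module.IsTorsionFree R B :=
    (Module.isTorsionFree_iff_algebraMap_injective).2 hinj
  have : Module.IsTorsionFree R K :=
    (Module.isTorsionFree_iff_algebraMap_injective).2 hφinj
  let τ : B →ₐ[R] K := IsAlgClosed.lift
  have hτ : ∀ b, ‖τ b‖ ≤ 1 := fun b =>
    norm_le_one_of_monic (R := R) hφ1 ((Algebra.IsIntegral.isIntegral b).map τ)
  have hτw : τ w = φ PowerSeries.X := by
    rw [← halg, AlgHom.commutes]; rfl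
  let t : A →+* OO K :=
    ((τ : B →+* K).comp (Ideal.Quotient.mk Q)).codRestrict (OO K) fun a => hτ _
  have ht : ∀ a, ((t a : OO K) : K) = τ (Ideal.Quotient.mk Q a) := fun _ => rfl
  refine ⟨K, i1, i2, i3, i4, i5, t, hK, fun x hx => ?_, fun x hx => ?_, ?_⟩
  · change ‖τ (Ideal.Quotient.mk Q x)‖ < 1
    have h1 : Ideal.Quotient.mk Q x ∈ maximalIdeal B := by
      rw [hmax]; exact Ideal.mem_map_of_mem _ hx
    obtain ⟨c, hc⟩ := Ideal.mem_span_singleton'.1 (hNB (Ideal.pow_mem_pow h1 N))
    have h2 : ‖τ (Ideal.Quotient.mk Q x)‖ ^ N < 1 := by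
      rw [← norm_pow, ← map_pow, ← hc, map_mul, norm_mul, hτw]
      exact mul_lt_one_of_nonneg_of_lt_one_right (hτ c) (norm_nonneg _) hφX
    exact lt_of_not_ge fun h => absurd h2 (not_lt.2 (one_le_pow₀ h))
  · apply Subtype.ext
    rw [ht, Ideal.Quotient.eq_zero_iff_mem.2 (hPQ hx), map_zero]
    rfl
  · intro h
    have h1 : τ w = 0 := by
      rw [hw, ← ht, h]; rfl
    rw [hτw] at h1
    exact PowerSeries.X_ne_zero (hφinj (h1.trans (map_zero φ).symm))

end Crest.Agent.R227
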