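import Crest.Agent.R227.Perf

/-! # Row 227: the universal cover and an adapted basis of the Tate module. -/

set_option autoImplicit false
set_option linter.unusedSectionVars false

open MvPowerSeries Filter Topology

noncomputable section
namespace Crest.Agent.R227

open Crest.LubinTate

variable {K : Type} [NontriviallyNormedField K] [IsUltrametricDist K] [CompleteSpace K]
  [IsAlgClosed K] {p : ℕ} [Fact p.Prime] [CharP K p] {n : ℕ}

/-- a deformation `F` over `O_K` of the law `Γ` with `[p]_Γ = X ^ q` -/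
structure IsDef (Γ : FormalGroup (kk p n)) (j : kk p n →+* OO K) (ε : ℝ)
    (F : FormalGroup (OO K)) : Prop where
  one_le : 1 ≤ n
  hp : mulSeries Γ p = PowerSeries.X ^ (p ^ n)
  nonneg : 0 ≤ ε
  lt_one : ε < 1
  close : Close ε F (Γ.map j)

variable {Γ : FormalGroup (kk p n)} {j : kk p n →+* OO K} {ε : ℝ} {F : FormalGroup (OO K)}

theorem tate_rad {x : OO K} (hx : ‖x‖ < 1) : x ∈ (IO K).radical := (mem_IO_radical K x).2 hx

theorem tate_lt {x : OO K} (hx : x ∈ (IO K).radical) : ‖x‖ < 1 := (mem_IO_radical K x).1 hx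

theorem tate_lt_of_sub {x y : OO K} {r : ℝ} (hy : ‖y‖ < r) (h : ‖x - y‖ < r) : ‖x‖ < r := by
  simpa using OO_norm_add_lt K h hy

theorem tate_sub_le {x y z : OO K} {r : ℝ} (h : ‖x - y‖ ≤ r) (h' : ‖y - z‖ ≤ r) : ‖x - z‖ ≤ r := by
  have := OO_norm_add_le K (x - y) (y - z)
  rw [sub_add_sub_cancel] at this
  exact this.trans (max_le h h')

theorem tate_close_mul {F' : FormalGroup (OO K)} (hε : 0 ≤ ε) (h : Close ε F F') (a e : ℕ) :
    ‖PowerSeries.coeff e (mulSeries F a - mulSeries F' a)‖ ≤ ε := by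
  have h1 : F.map (Ideal.Quotient.mk (ball K ε)) = F'.map (Ideal.Quotient.mk (ball K ε)) := by
    ext d
    simp only [FormalGroup.map_toPowerSeries, coeff_map]
    exact Ideal.Quotient.eq.2 ((mem_ball K hε _).2 (h d))
  have h2 := map_mulSeries F (Ideal.Quotient.mk (ball K ε)) a
  rw [h1, ← map_mulSeries] at h2
  have h3 := congrArg (PowerSeries.coeff e) h2
  rw [PowerSeries.coeff_map, PowerSeries.coeff_map] at h3
  rw [map_sub]
  exact (mem_ball K hε _).1 (Ideal.Quotient.eq.1 h3)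

theorem IsDef.mulSeries_map (h : IsDef Γ j ε F) (k : ℕ) :
    mulSeries (Γ.map j) (p ^ k) = PowerSeries.X ^ p ^ (n * k) := by
  have h1 : mulSeries (Γ.map j) p = PowerSeries.X ^ p ^ n := by
    rw [← map_mulSeries, h.hp, map_pow, PowerSeries.map_X]
  induction k with
  | zero => rw [pow_zero, mulSeries_one, mul_zero, pow_zero, pow_one]
  | succ k ih =>
    have hs : PowerSeries.HasSubst (PowerSeries.X ^ p ^ (n * k) : PowerSeries (OO K)) :=
      PowerSeries.HasSubst.X_pow (pow_ne_zero _ (Fact.out : p.Prime).ne_zero)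
    rw [pow_succ', mulSeries_mul, ih, h1, PowerSeries.subst_pow hs, PowerSeries.subst_X hs,
      ← pow_mul, ← pow_add, Nat.mul_succ]

theorem IsDef.coeff_mulSeries_pow (h : IsDef Γ j ε F) (k e : ℕ) :
    ‖PowerSeries.coeff e (mulSeries F (p ^ k) - PowerSeries.X ^ (p ^ (n * k)))‖ ≤ ε := by
  rw [← h.mulSeries_map k]
  exact tate_close_mul h.nonneg h.close _ e

theorem IsDef.coeff_mulSeries (h : IsDef Γ j ε F) (e : ℕ) :
    ‖PowerSeries.coeff e (mulSeries F p - PowerSeries.X ^ (p ^ n))‖ ≤ ε := by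
  simpa using h.coeff_mulSeries_pow 1 e

theorem tate_ev1_lt {x : OO K} (hx : ‖x‖ < 1) {f : PowerSeries (OO K)}
    (hf : PowerSeries.constantCoeff f = 0) : ‖ev1 (IO K) x f‖ < 1 :=
  tate_lt (ev1_mem _ (tate_rad hx) hf)

theorem tate_ev1_sub_le {x x' : OO K} (hx : ‖x‖ < 1) (hx' : ‖x'‖ < 1) (hε : 0 ≤ ε)
    (h : ‖x - x'‖ ≤ ε) {f f' : PowerSeries (OO K)}
    (hf : ∀ e, ‖PowerSeries.coeff e f - PowerSeries.coeff e f'‖ ≤ ε) :
    ‖ev1 (IO K) x f - ev1 (IO K) x' f'‖ ≤ ε := by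
  refine norm_ev_sub_le (a := fun _ : Unit => x) (a' := fun _ : Unit => x') (fun _ => hx)
    (fun _ => hx') hε (fun _ => h) fun d => ?_
  have := hf (d ())
  rwa [PowerSeries.coeff, ← Finsupp.unique_single d] at this

theorem tate_ev1_lip {x x' : OO K} (hx : ‖x‖ < 1) (hx' : ‖x'‖ < 1) (f : PowerSeries (OO K)) :
    ‖ev1 (IO K) x f - ev1 (IO K) x' f‖ ≤ ‖x - x'‖ :=
  tate_ev1_sub_le hx hx' (norm_nonneg _) le_rfl fun e => by simp

theorem tate_ev2_sub_le {F' : FormalGroup (OO K)} {x y x' y' : OO K} (hx : ‖x‖ < 1) (hy : ‖y‖ < 1)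
    (hx' : ‖x'‖ < 1) (hy' : ‖y'‖ < 1) (hε : 0 ≤ ε) (h : ‖x - x'‖ ≤ ε) (h' : ‖y - y'‖ ≤ ε)
    (hF : Close ε F F') : ‖ev2 (IO K) F x y - ev2 (IO K) F' x' y'‖ ≤ ε :=
  norm_ev_sub_le (fun i => by fin_cases i <;> simpa) (fun i => by fin_cases i <;> simpa) hε
    (fun i => by fin_cases i <;> simpa) hF

theorem tate_tendsto_ev1 {u : ℕ → OO K} {x : OO K} (hu : ∀ k, ‖u k‖ < 1) (hx : ‖x‖ < 1)
    (h : Tendsto u atTop (𝓝 x)) (f : PowerSeries (OO K)) :
    Tendsto (fun k => ev1 (IO K) (u k) f) atTop (𝓝 (ev1 (IO K) x f)) := by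
  rw [tendsto_iff_norm_sub_tendsto_zero] at h ⊢
  exact squeeze_zero (fun _ => norm_nonneg _) (fun k => tate_ev1_lip (hu k) hx f) h

theorem tate_tendsto_ev2 {u v : ℕ → OO K} {x y : OO K} (hu : ∀ k, ‖u k‖ < 1) (hv : ∀ k, ‖v k‖ < 1)
    (hx : ‖x‖ < 1) (hy : ‖y‖ < 1) (h : Tendsto u atTop (𝓝 x)) (h' : Tendsto v atTop (𝓝 y)) :
    Tendsto (fun k => ev2 (IO K) F (u k) (v k)) atTop (𝓝 (ev2 (IO K) F x y)) := by
  rw [tendsto_iff_norm_sub_tendsto_zero] at h h' ⊢
  have h2 := h.add h'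
  rw [add_zero] at h2
  refine squeeze_zero (fun _ => norm_nonneg _) (fun k => ?_) h2
  exact tate_ev2_sub_le (hu k) (hv k) hx hy (by positivity) (le_add_of_nonneg_right (norm_nonneg _))
    (le_add_of_nonneg_left (norm_nonneg _)) fun d => by simp; positivity

theorem tate_ev1_mul {x : OO K} (hx : ‖x‖ < 1) (a b : ℕ) :
    ev1 (IO K) x (mulSeries F (a * b)) =
      ev1 (IO K) (ev1 (IO K) x (mulSeries F b)) (mulSeries F a) := by
  rw [mulSeries_mul, ev1_subst _ (tate_rad hx) (constantCoeff_mulSeries F b)]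

theorem tate_ev1_X_pow {x : OO K} (hx : ‖x‖ < 1) (a : ℕ) :
    ev1 (IO K) x (PowerSeries.X ^ a) = x ^ a := by
  rw [map_pow, ev1_X _ (tate_rad hx)]

theorem tate_pow_lt {x : OO K} (hx : ‖x‖ < 1) {a : ℕ} (ha : a ≠ 0) : ‖x ^ a‖ < 1 := by
  rw [norm_pow]
  exact pow_lt_one₀ (norm_nonneg _) hx ha

/-- `[p]` is a series in `X ^ p` (`exists_versch` with `h = 1`) -/
theorem norm_mulSeries_sub_le [F.IsComm] {x x' : OO K} (hx : ‖x‖ < 1) (hx' : ‖x'‖ < 1) (k : ℕ) :
    ‖ev1 (IO K) x (mulSeries F (p ^ k)) - ev1 (IO K) x' (mulSeries F (p ^ k))‖ ≤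
      ‖x - x'‖ ^ p ^ k := by
  have hp : p ≠ 0 := (Fact.out : p.Prime).ne_zero
  obtain ⟨V, hV, hV'⟩ := exists_versch p F 1 fun l hl => by
    rw [Nat.lt_one_iff.1 hl, pow_zero, coeff_one_mulSeries]
    exact CharP.cast_eq_zero _ _
  rw [pow_one] at hV'
  have key : ∀ {z z' : OO K}, ‖z‖ < 1 → ‖z'‖ < 1 →
      ‖ev1 (IO K) z (mulSeries F p) - ev1 (IO K) z' (mulSeries F p)‖ ≤ ‖z - z'‖ ^ p := by
    intro z z' hz hz'
    have c0 : PowerSeries.constantCoeff (PowerSeries.X ^ p : PowerSeries (OO K)) = 0 := by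
      simp [hp]
    rw [hV', ev1_subst _ (tate_rad hz) c0, ev1_subst _ (tate_rad hz') c0, tate_ev1_X_pow hz,
      tate_ev1_X_pow hz', ← norm_pow, sub_pow_char]
    exact tate_ev1_lip (tate_pow_lt hz hp) (tate_pow_lt hz' hp) V
  induction k with
  | zero => rw [pow_zero, mulSeries_one, ev1_X _ (tate_rad hx), ev1_X _ (tate_rad hx'), pow_one]
  | succ k ih =>
    rw [pow_succ', tate_ev1_mul hx, tate_ev1_mul hx', mul_comm p, pow_mul]
    exact (key (tate_ev1_lt hx (constantCoeff_mulSeries F _))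
      (tate_ev1_lt hx' (constantCoeff_mulSeries F _))).trans
      (pow_le_pow_left₀ (norm_nonneg _) ih p)

theorem tate_frz_pow (k : ℕ) (y : OO K) :
    frz p (-(n * (k + 1 : ℕ) : ℤ)) y ^ p ^ n = frz p (-(n * k : ℤ)) y := by
  rw [← frz_natCast, ← frz_add]
  congr 2
  push_cast
  ring

theorem IsDef.norm_mul_sub_pow (h : IsDef Γ j ε F) {x : OO K} (hx : ‖x‖ < 1) :
    ‖ev1 (IO K) x (mulSeries F p) - x ^ p ^ n‖ ≤ ε := by
  rw [← tate_ev1_X_pow hx]
  refine tate_ev1_sub_le hx hx h.nonneg (by simpa using h.nonneg) fun e => ?_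
  rw [← map_sub]
  exact h.coeff_mulSeries e

theorem IsDef.pow_le (h : IsDef Γ j ε F) {a b : ℕ} (hab : a ≤ b) : ε ^ b ≤ ε ^ a :=
  pow_le_pow_of_le_one h.nonneg h.lt_one.le hab

theorem IsDef.tendsto_pow (h : IsDef Γ j ε F) :
    Tendsto (fun k : ℕ => ε ^ p ^ k) atTop (𝓝 0) :=
  (tendsto_pow_atTop_nhds_zero_of_lt_one h.nonneg h.lt_one).comp
    (tendsto_pow_atTop_atTop_of_one_lt (Fact.out : p.Prime).one_lt)

theorem IsDef.rho_step [F.IsComm] (h : IsDef Γ j ε F) {y : OO K} (hy : ‖y‖ < 1) (k : ℕ) :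
    ‖ev1 (IO K) (frz p (-(n * (k + 1 : ℕ) : ℤ)) y) (mulSeries F (p ^ (k + 1))) -
      ev1 (IO K) (frz p (-(n * k : ℤ)) y) (mulSeries F (p ^ k))‖ ≤ ε ^ p ^ k := by
  have h1 := norm_frz_lt p (-(n * (k + 1 : ℕ) : ℤ)) hy
  rw [pow_succ, tate_ev1_mul h1]
  refine (norm_mulSeries_sub_le (tate_ev1_lt h1 (constantCoeff_mulSeries F _))
    (norm_frz_lt p _ hy) k).trans (pow_le_pow_left₀ (norm_nonneg _) ?_ _)
  rw [← tate_frz_pow k y]
  exact h.norm_mul_sub_pow h1

theorem IsDef.tendsto_rho₀ [F.IsComm] (h : IsDef Γ j ε F) {y : OO K} (hy : ‖y‖ < 1) :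
    Tendsto (fun k : ℕ => ev1 (IO K) (frz p (-(n * k : ℤ)) y) (mulSeries F (p ^ k))) atTop
      (𝓝 (rho p n F y)) := by
  refine CauchySeq.tendsto_limUnder (cauchySeq_of_le_geometric ε 1 h.lt_one fun k => ?_)
  rw [dist_comm, dist_eq_norm, one_mul]
  exact (h.rho_step hy k).trans (h.pow_le (Nat.lt_pow_self (Fact.out : p.Prime).one_lt).le)

/-- the rate of convergence -/
theorem IsDef.norm_rho_sub_approx [F.IsComm] (h : IsDef Γ j ε F) {y : OO K} (hy : ‖y‖ < 1)
    (k : ℕ) : ‖rho p n F y - ev1 (IO K) (frz p (-(n * k : ℤ)) y) (mulSeries F (p ^ k))‖ ≤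
      ε ^ p ^ k := by
  have h1 : ∀ i : ℕ, k ≤ i → ‖ev1 (IO K) (frz p (-(n * i : ℤ)) y) (mulSeries F (p ^ i)) -
      ev1 (IO K) (frz p (-(n * k : ℤ)) y) (mulSeries F (p ^ k))‖ ≤ ε ^ p ^ k := by
    intro i hi
    induction i, hi using Nat.le_induction with
    | base => rw [sub_self, norm_zero]; exact pow_nonneg h.nonneg _
    | succ i hi ih =>
      exact tate_sub_le ((h.rho_step hy i).trans
        (h.pow_le (Nat.pow_le_pow_right (Fact.out : p.Prime).pos hi))) ih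
  refine le_of_tendsto ((h.tendsto_rho₀ hy).sub_const _).norm ?_
  filter_upwards [eventually_ge_atTop k] with i hi
  exact h1 i hi

theorem IsDef.tendsto_rho [F.IsComm] (h : IsDef Γ j ε F) {y : OO K} (hy : ‖y‖ < 1) {z : ℕ → OO K}
    (hz : ∀ k : ℕ, ‖z k - frz p (-(n * k : ℤ)) y‖ ≤ ε) :
    Tendsto (fun k => ev1 (IO K) (z k) (mulSeries F (p ^ k))) atTop (𝓝 (rho p n F y)) := by
  have h1 : Tendsto (fun k : ℕ => ev1 (IO K) (z k) (mulSeries F (p ^ k)) -
      ev1 (IO K) (frz p (-(n * k : ℤ)) y) (mulSeries F (p ^ k))) atTop (𝓝 0) := by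
    rw [tendsto_zero_iff_norm_tendsto_zero]
    refine squeeze_zero (fun _ => norm_nonneg _) (fun k => ?_) h.tendsto_pow
    have h2 := norm_frz_lt p (-(n * k : ℤ)) hy
    exact (norm_mulSeries_sub_le (tate_lt_of_sub h2 ((hz k).trans_lt h.lt_one)) h2 k).trans
      (pow_le_pow_left₀ (norm_nonneg _) (hz k) _)
  simpa using h1.add (h.tendsto_rho₀ hy)

theorem IsDef.norm_rho_sub [F.IsComm] (h : IsDef Γ j ε F) {y : OO K} (hy : ‖y‖ < 1) :
    ‖rho p n F y - y‖ ≤ ε := by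
  have h1 := h.norm_rho_sub_approx hy 0
  rwa [Nat.cast_zero, mul_zero, neg_zero, frz_zero, pow_zero, mulSeries_one, ev1_X _ (tate_rad hy),
    pow_one] at h1

theorem IsDef.norm_rho_lt [F.IsComm] (h : IsDef Γ j ε F) {y : OO K} (hy : ‖y‖ < 1) :
    ‖rho p n F y‖ < 1 :=
  tate_lt_of_sub hy ((h.norm_rho_sub hy).trans_lt h.lt_one)

theorem IsDef.rho_zero [F.IsComm] (h : IsDef Γ j ε F) : rho p n F 0 = 0 := by
  have h1 := h.tendsto_rho₀ (y := 0) (by simp)
  simp only [map_zero, ev1_zero, constantCoeff_mulSeries] at h1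
  exact tendsto_nhds_unique h1 tendsto_const_nhds

theorem IsDef.frz_comp (h : IsDef Γ j ε F) (k : ℤ) :
    ((frz p (n * k) : OO K ≃+* OO K) : OO K →+* OO K).comp j = j :=
  RingHom.ext fun a => frz_galois p h.one_le j k a

theorem IsDef.frz_ev2 (h : IsDef Γ j ε F) (k : ℤ) {y y' : OO K} (hy : ‖y‖ < 1) (hy' : ‖y'‖ < 1) :
    frz p (n * k) (ev2 (IO K) (Γ.map j) y y') =
      ev2 (IO K) (Γ.map j) (frz p (n * k) y) (frz p (n * k) y') := by
  have h1 := comp_ev2 (IO K) (IO K) ((frz p (n * k) : OO K ≃+* OO K) : OO K →+* OO K) (Γ.map j)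
    (tate_rad hy) (tate_rad hy') (tate_rad (norm_frz_lt p _ hy)) (tate_rad (norm_frz_lt p _ hy'))
  rw [map_map, h.frz_comp] at h1
  exact h1

theorem IsDef.frz_ev1 (h : IsDef Γ j ε F) (k : ℤ) {y : OO K} (hy : ‖y‖ < 1)
    (g : PowerSeries (kk p n)) : frz p (n * k) (ev1 (IO K) y (PowerSeries.map j g)) =
      ev1 (IO K) (frz p (n * k) y) (PowerSeries.map j g) := by
  have h1 := comp_ev1 (IO K) (IO K) ((frz p (n * k) : OO K ≃+* OO K) : OO K →+* OO K)
    (tate_rad hy) (tate_rad (norm_frz_lt p _ hy)) (PowerSeries.map j g)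
  rw [← RingHom.comp_apply (PowerSeries.map _) (PowerSeries.map j), ← PowerSeries.map_comp,
    h.frz_comp] at h1
  exact h1

theorem IsDef.rho_add [F.IsComm] (h : IsDef Γ j ε F) {y y' : OO K} (hy : ‖y‖ < 1)
    (hy' : ‖y'‖ < 1) : rho p n F (ev2 (IO K) (Γ.map j) y y') =
      ev2 (IO K) F (rho p n F y) (rho p n F y') := by
  have w := fun k : ℕ => norm_frz_lt p (-(n * k : ℤ)) hy
  have w' := fun k : ℕ => norm_frz_lt p (-(n * k : ℤ)) hy'
  have h1 := h.tendsto_rho (tate_lt (ev2_mem _ (Γ.map j) (tate_rad hy) (tate_rad hy')))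
    (z := fun k => ev2 (IO K) F (frz p (-(n * k : ℤ)) y) (frz p (-(n * k : ℤ)) y')) fun k => by
      have h2 := h.frz_ev2 (-k) hy hy'
      rw [mul_neg] at h2
      rw [h2]
      exact tate_ev2_sub_le (w k) (w' k) (w k) (w' k) h.nonneg (by simpa using h.nonneg)
        (by simpa using h.nonneg) h.close
  have h2 := tate_tendsto_ev2 (F := F) (fun k => tate_ev1_lt (w k) (constantCoeff_mulSeries F _))
    (fun k => tate_ev1_lt (w' k) (constantCoeff_mulSeries F _)) (h.norm_rho_lt hy)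
    (h.norm_rho_lt hy') (h.tendsto_rho₀ hy) (h.tendsto_rho₀ hy')
  refine tendsto_nhds_unique h1 (h2.congr fun k => ?_)
  exact (ev1_hom _ (hom_mulSeries F _) (tate_rad (w k)) (tate_rad (w' k))).symm

theorem IsDef.rho_pow [F.IsComm] (h : IsDef Γ j ε F) {y : OO K} (hy : ‖y‖ < 1) (i : ℕ) :
    rho p n F (y ^ p ^ (n * i)) = ev1 (IO K) (rho p n F y) (mulSeries F (p ^ i)) := by
  have w := fun k : ℕ => norm_frz_lt p (-(n * k : ℤ)) hy
  have h1 := (h.tendsto_rho₀ (tate_pow_lt hy (a := p ^ (n * i))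
    (pow_ne_zero _ (Fact.out : p.Prime).ne_zero))).comp (tendsto_add_atTop_nat i)
  have h2 := tate_tendsto_ev1 (fun k => tate_ev1_lt (w k) (constantCoeff_mulSeries F _))
    (h.norm_rho_lt hy) (h.tendsto_rho₀ hy) (mulSeries F (p ^ i))
  refine tendsto_nhds_unique h1 (h2.congr fun k => ?_)
  have h3 : frz p (-(n * (k + i : ℕ) : ℤ)) (y ^ p ^ (n * i)) = frz p (-(n * k : ℤ)) y := by
    rw [← frz_natCast, ← frz_add]
    congr 2
    push_cast
    ring
  rw [Function.comp_apply, h3, ← tate_ev1_mul (w k), ← pow_add, add_comm]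

theorem IsDef.rho_hom {F' : FormalGroup (OO K)} [F.IsComm] [F'.IsComm] (h : IsDef Γ j ε F)
    (h' : IsDef Γ j ε F') {θ : PowerSeries (OO K)} (hθ : IsFGHom F' F θ)
    {g : PowerSeries (kk p n)} (hg0 : PowerSeries.constantCoeff g = 0)
    (hg : ∀ e, ‖PowerSeries.coeff e θ - j (PowerSeries.coeff e g)‖ ≤ ε) {y : OO K} (hy : ‖y‖ < 1) :
    ev1 (IO K) (rho p n F' y) θ = rho p n F (ev1 (IO K) y (PowerSeries.map j g)) := by
  have w := fun k : ℕ => norm_frz_lt p (-(n * k : ℤ)) hy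
  have c0 : PowerSeries.constantCoeff (PowerSeries.map j g) = 0 := by
    rw [← PowerSeries.coeff_zero_eq_constantCoeff_apply, PowerSeries.coeff_map,
      PowerSeries.coeff_zero_eq_constantCoeff_apply, hg0, map_zero]
  have h1 := h.tendsto_rho (tate_ev1_lt hy c0)
    (z := fun k => ev1 (IO K) (frz p (-(n * k : ℤ)) y) θ) fun k => by
      have h2 := h.frz_ev1 (-k) hy g
      rw [mul_neg] at h2
      rw [h2]
      exact tate_ev1_sub_le (w k) (w k) h.nonneg (by simpa using h.nonneg) fun e => by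
        rw [PowerSeries.coeff_map]
        exact hg e
  have h2 := tate_tendsto_ev1 (fun k => tate_ev1_lt (w k) (constantCoeff_mulSeries F' _))
    (h'.norm_rho_lt hy) (h'.tendsto_rho₀ hy) θ
  refine tendsto_nhds_unique h2 (h1.congr fun k => ?_)
  rw [← ev1_subst _ (tate_rad (w k)) hθ.1, ← hom_comm_mulSeries hθ,
    ev1_subst _ (tate_rad (w k)) (constantCoeff_mulSeries F' _)]

theorem tate_norm_eq_one {x : OO K} (h : ‖x - 1‖ < 1) : ‖x‖ = 1 := by
  rw [OO_norm_eq_one_iff]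
  intro hx
  have h1 : ‖(1 : OO K)‖ < 1 := tate_lt_of_sub hx (by rwa [norm_sub_rev])
  simp at h1

theorem tate_norm_eq {x y : OO K} (h : ‖x - y‖ < ‖y‖) : ‖x‖ = ‖y‖ := by
  refine le_antisymm ?_ (not_lt.1 fun hx => ?_)
  · have := OO_norm_add_le K (x - y) y
    rw [sub_add_cancel] at this
    exact this.trans (max_le h.le le_rfl)
  · exact lt_irrefl _ (tate_lt_of_sub hx (by rwa [norm_sub_rev]))

/-- division by `p` -/
theorem IsDef.exists_div (h : IsDef Γ j ε F) {x : OO K} (hx : ‖x‖ < 1) :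
    ∃ x' : OO K, ‖x'‖ < 1 ∧ ev1 (IO K) x' (mulSeries F p) = x := by
  obtain ⟨d, hd⟩ : ∃ d, p ^ n = d + 1 :=
    Nat.exists_eq_succ_of_ne_zero (pow_ne_zero _ (Fact.out : p.Prime).ne_zero)
  have h1 : ∀ e, ‖PowerSeries.coeff e (mulSeries F p - PowerSeries.C x) -
      PowerSeries.coeff e (PowerSeries.X ^ (d + 1) : PowerSeries (OO K))‖ < 1 := by
    intro e
    have h2 := (h.coeff_mulSeries e).trans_lt h.lt_one
    have h3 : ‖-PowerSeries.coeff e (PowerSeries.C x)‖ < 1 := by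
      rw [norm_neg, PowerSeries.coeff_C]
      split_ifs
      · exact hx
      · simp
    have h4 := OO_norm_add_lt K h2 h3
    rw [hd] at h4
    convert h4 using 2
    simp only [map_sub]
    ring
  obtain ⟨x', hx', h0⟩ := OO_exists_root (f := mulSeries F p - PowerSeries.C x) (d := d)
    (fun e he => by simpa [PowerSeries.coeff_X_pow, he.ne] using h1 e)
    (tate_norm_eq_one (by simpa [PowerSeries.coeff_X_pow] using h1 (d + 1)))
  rw [map_sub, ev1_C, sub_eq_zero] at h0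
  exact ⟨x', hx', h0⟩

theorem IsDef.rho_surj [F.IsComm] (h : IsDef Γ j ε F) {x : OO K} (hx : ‖x‖ < 1) :
    ∃ y : OO K, ‖y‖ < 1 ∧ rho p n F y = x := by
  have hp : p.Prime := Fact.out
  choose D hD hD' using fun z : {z : OO K // ‖z‖ < 1} => h.exists_div z.2
  let z : ℕ → {z : OO K // ‖z‖ < 1} := fun k => (fun w => ⟨D w, hD w⟩)^[k] ⟨x, hx⟩
  have hz : ∀ k, ev1 (IO K) (z (k + 1)).1 (mulSeries F p) = (z k).1 := fun k => by
    simp only [z, Function.iterate_succ_apply']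
    exact hD' _
  have hz0 : (z 0).1 = x := rfl
  have hz' : ∀ k, ev1 (IO K) (z k).1 (mulSeries F (p ^ k)) = x := by
    intro k
    induction k with
    | zero => rw [pow_zero, mulSeries_one, ev1_X _ (tate_rad (z 0).2), hz0]
    | succ k ih => rw [pow_succ, tate_ev1_mul (z (k + 1)).2, hz, ih]
  have h1 : ∀ k, ‖(z (k + 1)).1 ^ p ^ (n * (k + 1)) - (z k).1 ^ p ^ (n * k)‖ ≤ ε ^ p ^ (n * k) := by
    intro k
    rw [Nat.mul_succ, add_comm (n * k) n, pow_add, pow_mul _ (p ^ n), ← sub_pow_char_pow, norm_pow,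
      norm_sub_rev, ← hz k]
    exact pow_le_pow_left₀ (norm_nonneg _) (h.norm_mul_sub_pow (z (k + 1)).2) _
  have hc : CauchySeq fun k => (z k).1 ^ p ^ (n * k) := by
    refine cauchySeq_of_le_geometric ε 1 h.lt_one fun k => ?_
    rw [dist_comm, dist_eq_norm, one_mul]
    refine (h1 k).trans (h.pow_le ?_)
    exact (Nat.le_mul_of_pos_left k h.one_le).trans (Nat.lt_pow_self hp.one_lt).le
  obtain ⟨y, hy⟩ := cauchySeq_tendsto_of_complete hc
  have h2 : ∀ k, ‖y - (z k).1 ^ p ^ (n * k)‖ ≤ ε ^ p ^ (n * k) := by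
    intro k
    refine le_of_tendsto (hy.sub_const _).norm ?_
    filter_upwards [eventually_ge_atTop k] with i hi
    induction i, hi using Nat.le_induction with
    | base => rw [sub_self, norm_zero]; exact pow_nonneg h.nonneg _
    | succ i hi ih =>
      exact tate_sub_le ((h1 i).trans
        (h.pow_le (Nat.pow_le_pow_right hp.pos (Nat.mul_le_mul_left n hi)))) ih
  have hy1 : ‖y‖ < 1 := by
    have h3 := h2 0
    rw [mul_zero, pow_zero, pow_one, pow_one] at h3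
    exact tate_lt_of_sub (z 0).2 (h3.trans_lt h.lt_one)
  refine ⟨y, hy1, ?_⟩
  have h3 := h.tendsto_rho hy1 (z := fun k => (z k).1) fun k => by
    refine le_of_pow_le_pow_left₀ (pow_ne_zero (n * k) hp.ne_zero) h.nonneg ?_
    rw [← norm_pow, sub_pow_char_pow, ← frz_natCast p _ (frz p _ y), ← frz_add, Nat.cast_mul,
      add_neg_cancel, frz_zero, norm_sub_rev]
    exact h2 k
  simp only [hz'] at h3
  exact tendsto_nhds_unique h3 tendsto_const_nhds

theorem IsDef.finite_torsion (h : IsDef Γ j ε F) (k : ℕ) :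
    {x : OO K | ‖x‖ < 1 ∧ ev1 (IO K) x (mulSeries F (p ^ k)) = 0}.Finite := by
  by_contra hinf
  obtain ⟨t, ht, hc⟩ := Set.Infinite.exists_subset_card_eq hinf (p ^ (n * k) + 1)
  have h1 := card_roots_le (f := mulSeries F (p ^ k)) (d := p ^ (n * k))
    ⟨_, le_rfl, tate_norm_eq_one (by
      simpa [PowerSeries.coeff_X_pow] using
        (h.coeff_mulSeries_pow k (p ^ (n * k))).trans_lt h.lt_one)⟩ t fun x hx => ht hx
  omega

theorem IsDef.norm_rho_le [F.IsComm] (h : IsDef Γ j ε F) {w : OO K} (hw : ‖w‖ < 1) {k : ℕ}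
    (hk : ‖frz p (-(n * k : ℤ)) w‖ ≤ ε) : ‖rho p n F w‖ ≤ ε ^ p ^ k := by
  have h1 := norm_mulSeries_sub_le (F := F) (p := p) (norm_frz_lt p (-(n * k : ℤ)) hw)
    (x' := 0) (by simp) k
  rw [ev1_zero, constantCoeff_mulSeries, sub_zero (frz p _ w)] at h1
  simpa using tate_sub_le (h.norm_rho_sub_approx hw k)
    (h1.trans (pow_le_pow_left₀ (norm_nonneg _) hk _))

/-- the norm takes finitely many values on the primitive elements of the Tate module -/
theorem IsDef.finite_norms [F.IsComm] (h : IsDef Γ j ε F) :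
    {r : ℝ | ∃ y : OO K, ‖y‖ < 1 ∧ rho p n F y = 0 ∧ rho p n F (frz p (-(n : ℤ)) y) ≠ 0 ∧
      r = ‖y‖}.Finite := by
  have htor : ∀ (y : OO K) (k : ℕ), ‖y‖ < 1 → rho p n F y = 0 →
      ev1 (IO K) (rho p n F (frz p (-(n * k : ℤ)) y)) (mulSeries F (p ^ k)) = 0 := by
    intro y k hy hy0
    rw [← h.rho_pow (norm_frz_lt p _ hy), ← frz_natCast, ← frz_add, Nat.cast_mul, add_neg_cancel,
      frz_zero, hy0]
  obtain ⟨k, hk⟩ : ∃ k : ℕ, ∀ x ∈ {x : OO K | ‖x‖ < 1 ∧
      ev1 (IO K) x (mulSeries F (p ^ 1)) = 0}, x ≠ 0 → ε ^ p ^ k < ‖x‖ := by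
    refine ((h.finite_torsion 1).eventually_all (l := atTop) |>.2 fun x _ => ?_).exists
    by_cases hx : x = 0
    · exact Eventually.of_forall fun _ h => absurd hx h
    · filter_upwards [h.tendsto_pow.eventually (eventually_lt_nhds (norm_pos_iff.2 hx))] with k hk _
      exact hk
  refine ((h.finite_torsion (k + 1)).image fun x => ‖x‖ ^ p ^ (n * (k + 1))).subset ?_
  rintro _ ⟨y, hy, hy0, hy1, rfl⟩
  have e : frz p (-(n * k : ℤ)) (frz p (-(n : ℤ)) y) = frz p (-(n * (k + 1 : ℕ) : ℤ)) y := by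
    rw [← frz_add]
    congr 2
    push_cast
    ring
  have h1 : ε < ‖frz p (-(n * (k + 1 : ℕ) : ℤ)) y‖ := by
    by_contra h1
    have h2 := h.norm_rho_le (norm_frz_lt p (-(n : ℤ)) hy) (k := k) (by rw [e]; exact not_lt.1 h1)
    refine absurd h2 (not_le.2 (hk _ ⟨h.norm_rho_lt (norm_frz_lt p _ hy), ?_⟩ hy1))
    simpa using htor y 1 hy hy0
  refine ⟨rho p n F (frz p (-(n * (k + 1 : ℕ) : ℤ)) y),
    ⟨h.norm_rho_lt (norm_frz_lt p _ hy), htor y _ hy hy0⟩, ?_⟩
  change ‖_‖ ^ _ = _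
  rw [tate_norm_eq ((h.norm_rho_sub (norm_frz_lt p _ hy)).trans_lt h1), ← norm_pow, ← frz_natCast,
    ← frz_add, Nat.cast_mul, add_neg_cancel, frz_zero]

/-- an étale isogeny has simple zeros -/
theorem tate_deriv_ne {F' : FormalGroup (OO K)} {V : PowerSeries (OO K)} (hV : IsFGHom F' F V)
    (hV1 : PowerSeries.coeff 1 V ≠ 0) {a : OO K} (ha : ‖a‖ < 1) :
    ev1 (IO K) a (PowerSeries.derivative (OO K) V) ≠ 0 := by
  intro h0
  have h1 := congrArg (ev1 (IO K) a) (hom_derivative hV)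
  have hu : IsUnit (uSer F) := by
    rw [PowerSeries.isUnit_iff_constantCoeff, constantCoeff_uSer]
    exact isUnit_one
  rw [map_mul, map_mul, h0, zero_mul, ev1_C, ev1_subst _ (tate_rad ha) hV.1] at h1
  exact hV1 ((hu.map _).mul_left_eq_zero.1 h1.symm)

theorem IsDef.exists_torsion [F.IsComm] (hF : IsDef Γ j ε F) {h m : ℕ}
    (hn : n = h + m) {V : PowerSeries (OO K)}
    (hV : IsFGHom (F.map (iterateFrobenius (OO K) p h)) F V)
    (hV' : mulSeries F p = PowerSeries.subst (PowerSeries.X ^ p ^ h : PowerSeries (OO K)) V)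
    (hV1 : PowerSeries.coeff 1 V ≠ 0) :
    ∃ b : Fin (p ^ m) → Pt (IO K) F, Function.Injective b ∧ ∀ i, p • b i = 0 := by
  classical
  have hp : p.Prime := Fact.out
  have hQ : p ^ h ≠ 0 := pow_ne_zero _ hp.ne_zero
  have h1 : ∀ e, ‖PowerSeries.coeff e V - if e = p ^ m then 1 else 0‖ < 1 := by
    intro e
    have h2 := (hF.coeff_mulSeries (p ^ h * e)).trans_lt hF.lt_one
    rw [map_sub, hV', PowerSeries.coeff_subst_X_pow hQ, if_pos (Dvd.intro e rfl),
      Nat.mul_div_cancel_left _ (Nat.pos_of_ne_zero hQ), PowerSeries.coeff_X_pow, hn, pow_add] at h2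
    simpa [hp.ne_zero] using h2
  obtain ⟨a, u, ha, -, hfac⟩ := exists_factor (f := V) (d := p ^ m)
    (fun e he => by simpa [he.ne] using h1 e) (tate_norm_eq_one (by simpa using h1 (p ^ m)))
  have h0 : ∀ i, ev1 (IO K) (a i) (PowerSeries.X - PowerSeries.C (a i)) = 0 := fun i => by
    rw [map_sub, ev1_X _ (tate_rad (ha i)), ev1_C, sub_self]
  have hinj : Function.Injective a := by
    intro i i' hii
    by_contra hne
    obtain ⟨W, hW⟩ := (Finset.prod_dvd_prod_of_subset {i, i'} Finset.univ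
      (fun i => PowerSeries.X - PowerSeries.C (a i)) (Finset.subset_univ _)).mul_left u
    rw [← hfac, Finset.prod_pair hne, ← hii, mul_assoc] at hW
    refine tate_deriv_ne hV hV1 (ha i) ?_
    rw [hW, Derivation.leibniz, smul_eq_mul, smul_eq_mul]
    simp only [map_add, map_mul (ev1 (IO K) (a i)), h0, zero_mul, add_zero]
  obtain ⟨b, hb⟩ : ∃ b : Fin (p ^ m) → Pt (IO K) F, ∀ i, (b i).1 = frz p (-(h : ℤ)) (a i) :=
    ⟨fun i => ⟨frz p (-(h : ℤ)) (a i), tate_rad (norm_frz_lt p _ (ha i))⟩, fun _ => rfl⟩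
  refine ⟨b, fun i i' hii => ?_, fun i => Pt.ext ?_⟩
  · exact hinj ((frz p (-(h : ℤ))).injective (by rw [← hb, ← hb, hii]))
  · have h2 := norm_frz_lt p (-(h : ℤ)) (ha i)
    rw [Pt.nsmul_val, Pt.zero_val, hb, hV', ev1_subst _ (tate_rad h2) (by simp [hp.ne_zero]),
      tate_ev1_X_pow h2,
      ← frz_natCast, ← frz_add, add_neg_cancel, frz_zero, hfac, map_mul, map_prod,
      Finset.prod_eq_zero (Finset.mem_univ i) (h0 i), mul_zero]

/-- independence over `𝔽_p` -/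
def TateIndep (p : ℕ) {A : Type} [AddCommGroup A] {m : ℕ} (x : Fin m → A) : Prop :=
  ∀ c : Fin m → ℤ, ∑ l, c l • x l = 0 → ∀ l, (p : ℤ) ∣ c l

theorem tate_exists_indep {A : Type} [AddCommGroup A] {m : ℕ} (hfin : {x : A | p • x = 0}.Finite)
    {b : Fin (p ^ m) → A} (hb : Function.Injective b) (hb' : ∀ i, p • b i = 0) :
    ∃ x : Fin m → A, (∀ l, p • x l = 0) ∧ TateIndep p x := by
  have hp : p.Prime := Fact.out
  have : NeZero p := ⟨hp.ne_zero⟩
  let H := AddSubgroup.torsionBy A (p : ℤ)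
  let : Module (ZMod p) H := AddSubgroup.torsionBy.zmodModule
  have hH : ∀ x : A, x ∈ H ↔ p • x = 0 := fun x => AddSubgroup.torsionBy.nsmul_iff
  have : Finite H := (hfin.subset fun x hx => (hH x).1 hx : (H : Set A).Finite).to_subtype
  have h1 : p ^ m ≤ Nat.card H := by
    have := Nat.card_le_card_of_injective (fun i => (⟨b i, (hH _).2 (hb' i)⟩ : H))
      fun i i' h => hb (congrArg Subtype.val h)
    simpa using this
  rw [Module.natCard_eq_pow_finrank (K := ZMod p), Nat.card_zmod,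
    Nat.pow_le_pow_iff_right hp.one_lt] at h1
  obtain ⟨x, hx⟩ := exists_linearIndependent_of_le_finrank h1
  refine ⟨fun l => (x l : A), fun l => (hH _).1 (x l).2, fun c hc l => ?_⟩
  rw [← ZMod.intCast_zmod_eq_zero_iff_dvd]
  refine Fintype.linearIndependent_iff.1 hx (fun l => (c l : ZMod p)) ?_ l
  simp only [Int.cast_smul_eq_zsmul]
  apply Subtype.ext
  simpa using hc

theorem TateIndep.ne_zero {A : Type} [AddCommGroup A] {m : ℕ} {x : Fin m → A} (h : TateIndep p x)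
    (l : Fin m) : x l ≠ 0 := by
  classical
  intro h0
  have h1 := h (Pi.single l 1) (by
    rw [Finset.sum_eq_single l (fun i _ hi => by simp [hi]) (by simp), h0, smul_zero]) l
  rw [Pi.single_eq_same] at h1
  exact (Fact.out : p.Prime).not_dvd_one (by exact_mod_cast h1)

theorem TateIndep.injective {A : Type} [AddCommGroup A] {m : ℕ} {x : Fin m → A}
    (h : TateIndep p x) : Function.Injective fun c : Fin m → Fin p => ∑ l, (c l : ℕ) • x l := by
  intro c c' hc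
  funext l
  have h1 := h (fun l => ((c l : ℕ) : ℤ) - ((c' l : ℕ) : ℤ)) (by
    simp only [sub_smul, natCast_zsmul, Finset.sum_sub_distrib]
    exact sub_eq_zero.2 hc) l
  have h2 := Int.eq_zero_of_abs_lt_dvd h1 (by
    have := (c l).2
    have := (c' l).2
    rw [abs_lt]
    omega)
  exact Fin.ext (by omega)

theorem TateIndep.update {A : Type} [AddCommGroup A] {m : ℕ} {x : Fin m → A} (h : TateIndep p x)
    (d : Fin m → ℤ) (l₀ : Fin m) (hd : ¬ (p : ℤ) ∣ d l₀) :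
    TateIndep p (Function.update x l₀ (∑ l, d l • x l)) := by
  intro c hc
  have h1 : ∀ l, c l • Function.update x l₀ (∑ l, d l • x l) l =
      (if l = l₀ then 0 else c l) • x l + if l = l₀ then c l₀ • ∑ l, d l • x l else 0 := by
    intro l
    by_cases hl : l = l₀
    · subst hl
      simp
    · simp [hl]
  simp only [h1, Finset.sum_add_distrib, Finset.sum_ite_eq', Finset.mem_univ, if_true,
    Finset.smul_sum, smul_smul] at hc
  have h2 := h (fun l => (if l = l₀ then 0 else c l) + c l₀ * d l) (by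
    simp only [add_smul, Finset.sum_add_distrib]
    exact hc)
  have h3 : (p : ℤ) ∣ c l₀ := by
    have h4 := h2 l₀
    simp only [if_true, zero_add] at h4
    exact ((Int.Prime.dvd_mul' (Fact.out : p.Prime) h4).resolve_right fun h5 =>
      hd (by simpa using h5)).trans (by simp)
  intro l
  by_cases hl : l = l₀
  · exact hl ▸ h3
  · have h4 := h2 l
    simp only [hl, if_false] at h4
    exact (dvd_add_left (h3.mul_right _)).1 h4

/-- the point `x` is `a` up to terms of second order -/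
def TateApx (σ : ℝ) {G : FormalGroup (OO K)} (x : Pt (IO K) G) (a : OO K) : Prop :=
  ‖x.1 - a‖ ≤ σ ^ 2 ∧ ‖a‖ ≤ σ

theorem TateApx.add {σ : ℝ} (h0 : 0 ≤ σ) (h1 : σ ≤ 1) {G : FormalGroup (OO K)}
    {x y : Pt (IO K) G} {a b : OO K} (hx : TateApx σ x a) (hy : TateApx σ y b) :
    TateApx σ (x + y) (a + b) := by
  have h2 : σ ^ 2 ≤ σ := by nlinarith
  have h3 : ‖x.1‖ ≤ σ := by simpa using tate_sub_le (z := 0) (hx.1.trans h2) (by simpa using hx.2)
  have h4 : ‖y.1‖ ≤ σ := by simpa using tate_sub_le (z := 0) (hy.1.trans h2) (by simpa using hy.2)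
  refine ⟨?_, (OO_norm_add_le K a b).trans (max_le hx.2 hy.2)⟩
  obtain ⟨c, hc⟩ := ev2_eq (IO K) G x.2 y.2
  have e : (x + y).1 - (a + b) = (x.1 - a) + (y.1 - b) + x.1 * y.1 * c := by
    rw [Pt.add_val, hc]
    ring
  rw [e]
  refine (OO_norm_add_le K _ _).trans (max_le ((OO_norm_add_le K _ _).trans (max_le hx.1 hy.1)) ?_)
  rw [norm_mul, norm_mul, sq]
  exact (mul_le_of_le_one_right (by positivity) (OO.norm_le_one K c)).trans
    (mul_le_mul h3 h4 (norm_nonneg _) h0)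

theorem TateApx.zero {σ : ℝ} (h0 : 0 ≤ σ) {G : FormalGroup (OO K)} :
    TateApx σ (0 : Pt (IO K) G) 0 := by
  refine ⟨?_, by simpa using h0⟩
  rw [Pt.zero_val, sub_zero, norm_zero]
  positivity

theorem TateApx.nsmul {σ : ℝ} (h0 : 0 ≤ σ) (h1 : σ ≤ 1) {G : FormalGroup (OO K)} [G.IsComm]
    {x : Pt (IO K) G} {a : OO K} (hx : TateApx σ x a) (c : ℕ) :
    TateApx σ (c • x) ((c : OO K) * a) := by
  induction c with
  | zero => simpa using TateApx.zero h0
  | succ c ih =>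
    rw [succ_nsmul, Nat.cast_succ, add_mul, one_mul]
    exact ih.add h0 h1 hx

theorem TateApx.sum {σ : ℝ} (h0 : 0 ≤ σ) (h1 : σ ≤ 1) {G : FormalGroup (OO K)} [G.IsComm]
    {ι : Type} (s : Finset ι) {x : ι → Pt (IO K) G} {a : ι → OO K}
    (hx : ∀ i ∈ s, TateApx σ (x i) (a i)) : TateApx σ (∑ i ∈ s, x i) (∑ i ∈ s, a i) := by
  classical
  induction s using Finset.induction_on with
  | empty => simpa using TateApx.zero h0
  | insert i s hi ih =>
    rw [Finset.sum_insert hi, Finset.sum_insert hi]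
    exact (hx i (Finset.mem_insert_self _ _)).add h0 h1
      (ih fun i hi => hx i (Finset.mem_insert_of_mem hi))

/-- `ρ` as a homomorphism -/
def IsDef.rhoHom [Γ.IsComm] [F.IsComm] (h : IsDef Γ j ε F) :
    Pt (IO K) (Γ.map j) →+ Pt (IO K) F where
  toFun y := ⟨rho p n F y.1, tate_rad (h.norm_rho_lt (tate_lt y.2))⟩
  map_zero' := Pt.ext h.rho_zero
  map_add' y y' := Pt.ext (h.rho_add (tate_lt y.2) (tate_lt y'.2))

/-- division by `p` on the universal cover -/
def IsDef.divHom [Γ.IsComm] (h : IsDef Γ j ε F) :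
    Pt (IO K) (Γ.map j) →+ Pt (IO K) (Γ.map j) where
  toFun y := ⟨frz p (-(n : ℤ)) y.1, tate_rad (norm_frz_lt p _ (tate_lt y.2))⟩
  map_zero' := Pt.ext (map_zero _)
  map_add' y y' := Pt.ext (by
    have h1 := h.frz_ev2 (-1) (tate_lt y.2) (tate_lt y'.2)
    rw [mul_neg_one] at h1
    exact h1)

theorem IsDef.pow_nsmul_val [Γ.IsComm] (h : IsDef Γ j ε F) (k : ℕ) (y : Pt (IO K) (Γ.map j)) :
    (p ^ k • y).1 = y.1 ^ p ^ (n * k) := by
  rw [Pt.nsmul_val, h.mulSeries_map, tate_ev1_X_pow (tate_lt y.2)]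

theorem IsDef.divHom_nsmul [Γ.IsComm] (h : IsDef Γ j ε F) (y : Pt (IO K) (Γ.map j)) :
    h.divHom (p • y) = y := by
  refine Pt.ext ?_
  have h1 := h.pow_nsmul_val 1 y
  rw [pow_one, mul_one] at h1
  change frz p (-(n : ℤ)) (p • y).1 = y.1
  rw [h1, ← frz_natCast, ← frz_add, neg_add_cancel, frz_zero]

theorem tate_norm_frz_lt_iff (R : ℤ) (x y : OO K) : ‖frz p R x‖ < ‖frz p R y‖ ↔ ‖x‖ < ‖y‖ := by
  have hp : (0 : ℝ) < p := by exact_mod_cast (Fact.out : p.Prime).pos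
  rw [norm_frz, norm_frz, Real.rpow_lt_rpow_iff (norm_nonneg _) (norm_nonneg _) (by positivity)]

/-- Plan.  `V` is a unit times `p^m` linear factors (`exists_factor`), with distinct roots
(`hom_derivative`: `V'` has no zero in the disc), so `G[p]` has `p^m` points and is an
`𝔽_p`-vector space.  `T = {y | ρ y = 0}` is a subgroup of `Pt (Γ.map j)`, `x₁ y = ρ (y^(1/q))` maps it
onto `G[p]` (division points by `exists_factor`, `y = lim x_k^(q^k)`) with kernel `T^q`.  Norms on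
`T` are `≤ ε`, norms on `T \ T^q` are bounded below and take finitely many values (`ρ (y^(1/q^k))`
lies in the finite set `G[p^k]`, `card_roots_le`).  Among the families with independent `x₁ (y j)`
take one minimising `∏ ‖y j‖`: if `‖∑ c_j y_j^(q^k_j)‖ < σ`, normalise `min k_j = 0` over `p ∤ c_j`
and replace `y_j` (`k_j = 0`) by the `Γ`-sum `∑ c_j p^(k_j) y_j`. -/
theorem IsDef.exists_basis [Γ.IsComm] [F.IsComm] (hF : IsDef Γ j ε F) {h m : ℕ} (hh : 1 ≤ h)
    (hn : n = h + m) {V : PowerSeries (OO K)}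
    (hV : IsFGHom (F.map (iterateFrobenius (OO K) p h)) F V)
    (hV' : mulSeries F p = PowerSeries.subst (PowerSeries.X ^ p ^ h : PowerSeries (OO K)) V)
    (hV1 : PowerSeries.coeff 1 V ≠ 0) :
    ∃ (y : Fin m → OO K) (x : Fin m → Pt (IO K) F), (∀ l, ‖y l‖ < 1) ∧ (∀ l, y l ≠ 0) ∧
      (∀ l, rho p n F (y l) = 0) ∧ (∀ l, (x l).1 = rho p n F (frz p (-(n : ℤ)) (y l))) ∧
      Function.Injective (fun c : Fin m → Fin p => ∑ l, (c l : ℕ) • x l) ∧ Adapted p n y := by
  classical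
  have hp : p.Prime := Fact.out
  obtain ⟨b, hb, hb'⟩ := hF.exists_torsion hn hV hV' hV1
  have hfin : {x : Pt (IO K) F | p • x = 0}.Finite := by
    refine Set.Finite.of_finite_image (f := fun x => x.1) ((hF.finite_torsion 1).subset ?_)
      fun x _ y _ e => Pt.ext e
    rintro _ ⟨x, hx, rfl⟩
    refine ⟨tate_lt x.2, ?_⟩
    rw [pow_one, ← Pt.nsmul_val, show p • x = 0 from hx, Pt.zero_val]
  obtain ⟨x₀, hx₀, hx₀'⟩ := tate_exists_indep hfin hb hb'
  let x₁ : Pt (IO K) (Γ.map j) →+ Pt (IO K) F := hF.rhoHom.comp hF.divHom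
  let A : Set (Fin m → Pt (IO K) (Γ.map j)) :=
    {y | (∀ l, hF.rhoHom (y l) = 0) ∧ TateIndep p fun l => x₁ (y l)}
  have hA : A.Nonempty := by
    have hsurj : ∀ x : Pt (IO K) F, ∃ w : Pt (IO K) (Γ.map j), hF.rhoHom w = x := fun x => by
      obtain ⟨w, hw, hw'⟩ := hF.rho_surj (tate_lt x.2)
      exact ⟨⟨w, tate_rad hw⟩, Pt.ext hw'⟩
    choose w hw'' using fun l => hsurj (x₀ l)
    refine ⟨fun l => p • w l, fun l => ?_, ?_⟩
    · rw [map_nsmul, hw'', hx₀]
    · simp only [x₁, AddMonoidHom.comp_apply, hF.divHom_nsmul, hw'']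
      exact hx₀'
  let N : (Fin m → Pt (IO K) (Γ.map j)) → ℝ := fun y => ∏ l, ‖(y l).1‖
  have hN : (N '' A).Finite := by
    refine ((Set.Finite.pi' fun _ : Fin m => hF.finite_norms).image fun r => ∏ l, r l).subset ?_
    rintro _ ⟨y, hy, rfl⟩
    refine ⟨fun l => ‖(y l).1‖, fun l => ⟨(y l).1, tate_lt (y l).2,
      congrArg Subtype.val (hy.1 l), fun h0 => hy.2.ne_zero l (Pt.ext h0), rfl⟩, rfl⟩
  obtain ⟨_, ⟨y, hy, rfl⟩, hmin⟩ := Set.exists_min_image (N '' A) id hN (hA.image N)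
  have hy0 : ∀ l, (y l).1 ≠ 0 := fun l h0 => hy.2.ne_zero l (by
    rw [show y l = 0 from Pt.ext h0, map_zero])
  refine ⟨fun l => (y l).1, fun l => x₁ (y l), fun l => tate_lt (y l).2, hy0,
    fun l => congrArg Subtype.val (hy.1 l), fun l => rfl, hy.2.injective, ?_⟩
  intro s k c σ hσ hlt
  by_contra hcon
  let s' := s.filter fun l => ¬ p ∣ c l
  have hs' : s'.Nonempty := by
    by_contra h0
    refine hcon fun l hl => by_contra fun h1 => h0 ⟨l, Finset.mem_filter.2 ⟨hl, h1⟩⟩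
  obtain ⟨l₀, hl₀, hk⟩ := Finset.exists_min_image s' k hs'
  let κ : Fin m → ℕ := fun l => (k l - k l₀).toNat
  have hκ : ∀ l ∈ s', frz p (n * k l) (y l).1 = frz p (n * k l₀) ((y l).1 ^ p ^ (n * κ l)) := by
    intro l hl
    rw [← frz_natCast, ← frz_add, Nat.cast_mul, Int.toNat_of_nonneg (sub_nonneg.2 (hk l hl))]
    congr 2
    ring
  have hsum : ∑ l ∈ s, (c l : OO K) * frz p (n * k l) (y l).1 =
      frz p (n * k l₀) (∑ l ∈ s', (c l : OO K) * (y l).1 ^ p ^ (n * κ l)) := by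
    rw [map_sum, ← Finset.sum_filter_of_ne (p := fun l => ¬ p ∣ c l) fun l _ h0 h1 => h0 (by
      rw [(CharP.cast_eq_zero_iff (OO K) p (c l)).2 h1, zero_mul])]
    refine Finset.sum_congr rfl fun l hl => ?_
    rw [map_mul, map_natCast, hκ l hl]
  have hσ₀ := hσ l₀ (Finset.mem_filter.1 hl₀).1
  rw [hsum, ← hσ₀, tate_norm_frz_lt_iff] at hlt
  have hle : ∀ l ∈ s', ‖(y l).1 ^ p ^ (n * κ l)‖ ≤ ‖(y l₀).1‖ := by
    intro l hl
    rw [← not_lt, ← tate_norm_frz_lt_iff (p := p) (n * k l₀), ← hκ l hl, hσ₀,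
      hσ l (Finset.mem_filter.1 hl).1]
    exact lt_irrefl _
  have hpos : 0 < ‖(y l₀).1‖ := norm_pos_iff.2 (hy0 l₀)
  have hlt1 := tate_lt (y l₀).2
  have hapx := TateApx.sum hpos.le hlt1.le s' (x := fun l => c l • p ^ κ l • y l)
    (a := fun l => (c l : OO K) * (y l).1 ^ p ^ (n * κ l)) fun l hl =>
      TateApx.nsmul hpos.le hlt1.le ⟨by rw [hF.pow_nsmul_val]; simp, hle l hl⟩ _
  set z := ∑ l ∈ s', c l • p ^ κ l • y l with hz
  have hzlt : ‖z.1‖ < ‖(y l₀).1‖ := tate_lt_of_sub hlt (hapx.1.trans_lt (by nlinarith))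
  have hmem : Function.update y l₀ z ∈ A := by
    constructor
    · intro l
      by_cases hl : l = l₀
      · subst hl
        simp [hz, map_sum, map_nsmul, hy.1]
      · rw [Function.update_of_ne hl]
        exact hy.1 l
    · have h1 := hy.2.update (fun l => if l ∈ s' then ((c l * p ^ κ l : ℕ) : ℤ) else 0) l₀ (by
        simp only [hl₀, if_true, κ, sub_self, Int.toNat_zero, pow_zero, mul_one]
        exact_mod_cast (Finset.mem_filter.1 hl₀).2)
      convert h1 using 1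
      funext l
      by_cases hl : l = l₀
      · subst hl
        simp only [Function.update_self, hz, map_sum, map_nsmul, ite_smul, zero_smul,
          Finset.sum_ite_mem, Finset.univ_inter, natCast_zsmul, mul_smul]
      · simp only [Function.update_of_ne hl]
  have h2 := hmin _ ⟨_, hmem, rfl⟩
  simp only [id, N] at h2
  have h3 : ∏ l ∈ Finset.univ.erase l₀, ‖(Function.update y l₀ z l).1‖ =
      ∏ l ∈ Finset.univ.erase l₀, ‖(y l).1‖ := Finset.prod_congr rfl fun l hl => by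
    rw [Function.update_of_ne (Finset.ne_of_mem_erase hl)]
  rw [← Finset.mul_prod_erase _ _ (Finset.mem_univ l₀),
    ← Finset.mul_prod_erase _ _ (Finset.mem_univ l₀), Function.update_self, h3] at h2
  exact absurd (le_of_mul_le_mul_right h2
    (Finset.prod_pos fun l _ => norm_pos_iff.2 (hy0 l))) hzlt.not_ge

end Crest.Agent.R227
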