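import Crest.Agent.R227.Ev

/-! # Row 227: test rings and elementary facts on the Lubin–Tate ring. -/

set_option autoImplicit false
set_option linter.unusedSectionVars false

open MvPowerSeries IsLocalRing

noncomputable section
namespace Crest.Agent.R227

open Crest.LubinTate

namespace TestAux

theorem isPrecomplete_of_finite {R M : Type} [CommRing R] (I : Ideal R) [IsPrecomplete I R]
    [AddCommGroup M] [Module R M] [Module.Finite R M] : IsPrecomplete I M := by
  rw [← AdicCompletion.of_surjective_iff]
  intro y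
  obtain ⟨t, rfl⟩ := AdicCompletion.ofTensorProduct_surjective_of_finite I M y
  induction t using TensorProduct.induction_on with
  | zero => exact ⟨0, by simp⟩
  | tmul r x =>
    obtain ⟨r', rfl⟩ := AdicCompletion.of_surjective I R r
    refine ⟨r' • x, ?_⟩
    rw [AdicCompletion.ofTensorProduct_tmul, map_smul]
    have : AdicCompletion.of I R r' = algebraMap R (AdicCompletion I R) r' := rfl
    rw [this, algebraMap_smul]
  | add s t hs ht =>
    obtain ⟨a, ha⟩ := hs
    obtain ⟨b, hb⟩ := ht
    exact ⟨a + b, by rw [map_add, map_add, ha, hb]⟩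

theorem isPrecomplete_of_sq_le {R : Type} [CommRing R] {I J : Ideal R} (hJI : J ≤ I)
    (hIJ : I ^ 2 ≤ J) [h : IsPrecomplete J R] : IsPrecomplete I R := by
  refine ⟨fun f hf => ?_⟩
  have key : ∀ m : ℕ, I ^ (2 * m) ≤ J ^ m := fun m => by
    rw [pow_mul]
    exact Ideal.pow_right_mono hIJ m
  obtain ⟨L, hL⟩ := h.prec (f := fun m => f (2 * m)) (fun {m k} hmk => by
    have := hf (m := 2 * m) (n := 2 * k) (by omega)
    exact this.mono (Submodule.smul_mono_left (key m)))
  refine ⟨L, fun m => ?_⟩
  have h1 := hf (m := m) (n := 2 * m) (by omega)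
  exact h1.trans ((hL m).mono (Submodule.smul_mono_left (Ideal.pow_right_mono hJI m)))

theorem exists_lift_of_surj {A B : Type} [CommRing A] [CommRing B] (r : A →+* B)
    (hr : Function.Surjective r) (g : PowerSeries B) (h0 : PowerSeries.constantCoeff g = 0) :
    ∃ g' : PowerSeries A, PowerSeries.constantCoeff g' = 0 ∧ PowerSeries.map r g' = g := by
  classical
  choose s hs using hr
  refine ⟨PowerSeries.mk fun i => if i = 0 then 0 else s (PowerSeries.coeff i g), ?_, ?_⟩
  · rw [← PowerSeries.coeff_zero_eq_constantCoeff_apply, PowerSeries.coeff_mk, if_pos rfl]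
  · ext i
    rw [PowerSeries.coeff_map, PowerSeries.coeff_mk]
    split_ifs with hi
    · subst hi
      rw [map_zero, PowerSeries.coeff_zero_eq_constantCoeff_apply, h0]
    · exact hs _

theorem pow_le_span_of_forall_prime {D : Type} [CommRing D] [IsDomain D] [IsLocalRing D]
    [IsNoetherianRing D] {v : D} (hv0 : v ≠ 0) (hvm : v ∈ maximalIdeal D)
    (h : ∀ q : Ideal D, q.IsPrime → q ≠ ⊥ → v ∈ q) :
    ∃ N : ℕ, maximalIdeal D ^ N ≤ Ideal.span {v} := by
  classical
  have hfin := (Ideal.span {v}).finite_minimalPrimes_of_isNoetherianRing D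
  have hvle : Ideal.span {v} ≤ maximalIdeal D := (Ideal.span_singleton_le_iff_mem _).2 hvm
  have hsub : ((maximalIdeal D : Ideal D) : Set D) ⊆
      ⋃ q ∈ (↑hfin.toFinset : Set (Ideal D)), ((id q : Ideal D) : Set D) := by
    intro x hx
    simp only [Set.Finite.coe_toFinset, id, Set.mem_iUnion, SetLike.mem_coe, exists_prop]
    by_cases hx0 : x = 0
    · obtain ⟨q, hq, -⟩ := Ideal.exists_minimalPrimes_le hvle
      exact ⟨q, hq, hx0 ▸ q.zero_mem⟩
    · have hxle : Ideal.span {x} ≤ maximalIdeal D := (Ideal.span_singleton_le_iff_mem _).2 hx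
      obtain ⟨q, hq, -⟩ := Ideal.exists_minimalPrimes_le hxle
      have hqp : q.IsPrime := hq.1.1
      have hxq : x ∈ q := (Ideal.span_singleton_le_iff_mem _).1 hq.1.2
      have hq0 : q ≠ ⊥ := fun e => hx0 (by simpa [e] using hxq)
      have hht := Ideal.height_le_one_of_isPrincipal_of_mem_minimalPrimes _ q hq
      have hvq : Ideal.span {v} ≤ q := (Ideal.span_singleton_le_iff_mem _).2 (h q hqp hq0)
      obtain ⟨q', hq', hle⟩ := Ideal.exists_minimalPrimes_le hvq
      have hq'p : q'.IsPrime := hq'.1.1
      have hvq' : v ∈ q' := (Ideal.span_singleton_le_iff_mem _).1 hq'.1.2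
      have hq'0 : (⊥ : Ideal D) < q' :=
        bot_lt_iff_ne_bot.2 fun e => hv0 (by simpa [e] using hvq')
      refine ⟨q', hq', ?_⟩
      rcases hle.eq_or_lt with e | hlt
      · rw [e]; exact hxq
      · exfalso
        have h1 := Ideal.height_add_one_le_of_lt_of_isPrime hq'0
        have h2 := Ideal.height_add_one_le_of_lt_of_isPrime hlt
        rw [Ideal.height_bot, zero_add] at h1
        have h3 : (1 : ℕ∞) + 1 ≤ 1 := le_trans (le_trans (by gcongr) h2) hht
        exact absurd h3 (by decide)
  obtain ⟨q, hq, hmq⟩ := (Ideal.subset_union_prime (s := hfin.toFinset) (f := id) ⊥ ⊥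
    (fun q hq _ _ => (hfin.mem_toFinset.1 hq).1.1)).1 hsub
  have hq' := hfin.mem_toFinset.1 hq
  refine Ideal.exists_pow_le_of_le_radical_of_fg ?_ (IsNoetherian.noetherian _)
  rw [Ideal.radical_eq_sInf]
  refine le_sInf fun J hJ => ?_
  have hJm : J ≤ maximalIdeal D := le_maximalIdeal hJ.2.ne_top
  exact le_trans hmq (hq'.2 ⟨hJ.2, hJ.1⟩ (hJm.trans hmq))

theorem mem_span_X_iff {K σ : Type} [CommRing K] [Finite σ] (f : MvPowerSeries σ K) :
    f ∈ Ideal.span (Set.range (X : σ → MvPowerSeries σ K)) ↔ constantCoeff f = 0 := by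
  have h := mem_span_X_pow_iff f 1
  rw [pow_one] at h
  rw [h]
  constructor
  · intro h
    exact h 0 (by simp)
  · intro h d hd
    have : d = 0 := (Finsupp.degree_eq_zero_iff d).1 (by omega)
    subst this
    exact h

end TestAux

open TestAux

variable (p : ℕ) [Fact p.Prime] (n : ℕ)

/-- the residue field -/
abbrev kk : Type := GaloisField p n

/-- its Witt vectors -/
abbrev WW : Type := WittVector p (GaloisField p n)

/-- the rings `(B, r)` on which the universal property can be tested -/
structure IsTest (B : Type) [CommRing B] [IsLocalRing B] [Algebra (WW p n) B]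
    (r : B →+* kk p n) : Prop where
  noeth : IsNoetherianRing B
  complete : IsAdicComplete (maximalIdeal B) B
  surj : Function.Surjective r
  ker : RingHom.ker r = maximalIdeal B
  comp : r.comp (algebraMap (WW p n) B) = WittVector.constantCoeff

theorem residue_surjective : Function.Surjective (LTRing.residue p n) := by
  intro x
  obtain ⟨w, hw⟩ := WittVector.constantCoeff_surjective p x
  refine ⟨C w, ?_⟩
  rw [← hw]
  simp [LTRing.residue]

/-- the maximal ideal of `E₀` is `(p, u₁, …)` -/
theorem maximalIdeal_LT :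
    maximalIdeal (LTRing p n) = psIdeal (Fin (n - 1)) (Ideal.span {(p : WW p n)}) := by
  rw [← ker_eq_maximalIdeal _ (residue_surjective p n)]
  ext f
  have h := mem_psIdeal_pow (Ideal.span {(p : WW p n)}) f 1
  rw [pow_one] at h
  rw [h, RingHom.mem_ker, ← WittVector.ker_constantCoeff]
  constructor
  · intro hf d
    by_cases hd : d = 0
    · subst hd
      simpa [RingHom.mem_ker, LTRing.residue] using hf
    · have : 1 - d.degree = 0 := by
        have : d.degree ≠ 0 := fun e => hd ((Finsupp.degree_eq_zero_iff d).1 e)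
        omega
      rw [this, pow_zero, Ideal.one_eq_top]
      trivial
  · intro hf
    have := hf 0
    simpa [RingHom.mem_ker, LTRing.residue] using this

theorem isTest_LT : IsTest p n (LTRing p n) (LTRing.residue p n) where
  noeth := inferInstance
  complete := by
    rw [maximalIdeal_LT]
    infer_instance
  surj := residue_surjective p n
  ker := ker_eq_maximalIdeal _ (residue_surjective p n)
  comp := by
    refine RingHom.ext fun w => ?_
    change LTRing.residue p n (C w) = _
    simp [LTRing.residue]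

variable {p n}

theorem IsTest.natCast_mem {B : Type} [CommRing B] [IsLocalRing B] [Algebra (WW p n) B]
    {r : B →+* kk p n} (h : IsTest p n B r) : (p : B) ∈ maximalIdeal B := by
  rw [← h.ker, RingHom.mem_ker, map_natCast]
  exact CharP.cast_eq_zero _ _

/-- quotients of test rings -/
theorem IsTest.quot {B : Type} [CommRing B] [IsLocalRing B] [Algebra (WW p n) B]
    {r : B →+* kk p n} (h : IsTest p n B r) (J : Ideal B) (hJ : J ≠ ⊤) :
    ∃ (_ : IsLocalRing (B ⧸ J)) (r' : B ⧸ J →+* kk p n), IsTest p n (B ⧸ J) r' ∧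
      r'.comp (Ideal.Quotient.mk J) = r ∧
      maximalIdeal (B ⧸ J) = (maximalIdeal B).map (Ideal.Quotient.mk J) := by
  have : Nontrivial (B ⧸ J) := Ideal.Quotient.nontrivial_iff.2 hJ
  have hloc : IsLocalRing (B ⧸ J) :=
    IsLocalRing.of_surjective' (Ideal.Quotient.mk J) Ideal.Quotient.mk_surjective
  have := h.noeth
  have := h.complete
  have hJr : ∀ a ∈ J, r a = 0 := fun a ha => by
    rw [← RingHom.mem_ker, h.ker]
    exact le_maximalIdeal hJ ha
  have hm : maximalIdeal (B ⧸ J) = (maximalIdeal B).map (Ideal.Quotient.mk J) :=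
    (map_maximalIdeal_of_surjective _ Ideal.Quotient.mk_surjective).symm
  have hs : Function.Surjective (Ideal.Quotient.lift J r hJr) := fun y => by
    obtain ⟨x, hx⟩ := h.surj y
    exact ⟨Ideal.Quotient.mk J x, hx⟩
  refine ⟨hloc, Ideal.Quotient.lift J r hJr, ⟨inferInstance, ?_, hs, ker_eq_maximalIdeal _ hs, ?_⟩,
    RingHom.ext fun _ => rfl, hm⟩
  · have hp : IsPrecomplete (maximalIdeal (B ⧸ J)) (B ⧸ J) := by
      rw [hm]
      exact (IsPrecomplete.map_algebraMap_iff (R := B) (S := B ⧸ J)).2
        (isPrecomplete_of_finite (maximalIdeal B))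
    exact IsAdicComplete.mk
  · rw [← h.comp]
    exact RingHom.ext fun _ => rfl

/-- dual numbers over a test ring -/
theorem IsTest.dual {B : Type} [CommRing B] [IsLocalRing B] [Algebra (WW p n) B]
    {r : B →+* kk p n} (h : IsTest p n B r) :
    ∃ _ : IsLocalRing (DualNumber B), IsTest p n (DualNumber B)
      (r.comp (TrivSqZeroExt.fstHom B B B).toRingHom) := by
  have hloc : IsLocalRing (DualNumber B) := IsLocalRing.of_isUnit_or_isUnit_one_sub_self fun a => by
    rw [TrivSqZeroExt.isUnit_iff_isUnit_fst, TrivSqZeroExt.isUnit_iff_isUnit_fst]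
    simpa using isUnit_or_isUnit_one_sub_self a.fst
  have := h.noeth
  have := h.complete
  have : Module.Finite B (DualNumber B) := inferInstanceAs (Module.Finite B (B × B))
  have hN : IsNoetherianRing (DualNumber B) := IsNoetherianRing.of_finite B _
  have hs : Function.Surjective (r.comp (TrivSqZeroExt.fstHom B B B).toRingHom) := fun y => by
    obtain ⟨x, hx⟩ := h.surj y
    exact ⟨TrivSqZeroExt.inl x, hx⟩
  have hk := ker_eq_maximalIdeal _ hs
  have hmem : ∀ x : DualNumber B, x ∈ maximalIdeal (DualNumber B) ↔ x.fst ∈ maximalIdeal B := by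
    intro x
    rw [← hk, ← h.ker]
    rfl
  refine ⟨hloc, ⟨hN, ?_, hs, hk, ?_⟩⟩
  · have hp0 : IsPrecomplete ((maximalIdeal B).map (algebraMap B (DualNumber B)))
        (DualNumber B) := (IsPrecomplete.map_algebraMap_iff (R := B) (S := DualNumber B)).2
        (isPrecomplete_of_finite (maximalIdeal B))
    have hp : IsPrecomplete (maximalIdeal (DualNumber B)) (DualNumber B) := by
      refine isPrecomplete_of_sq_le
        (J := (maximalIdeal B).map (algebraMap B (DualNumber B))) ?_ ?_
      · rw [Ideal.map_le_iff_le_comap]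
        intro b hb
        exact (hmem _).2 hb
      · rw [sq, Ideal.mul_le]
        intro x hx y hy
        have hx' := Ideal.mem_map_of_mem (algebraMap B (DualNumber B)) ((hmem _).1 hx)
        have hy' := Ideal.mem_map_of_mem (algebraMap B (DualNumber B)) ((hmem _).1 hy)
        have e : x * y = algebraMap B (DualNumber B) x.fst * y +
            algebraMap B (DualNumber B) y.fst * TrivSqZeroExt.inr x.snd := by
          ext
          · simp [TrivSqZeroExt.algebraMap_eq_inl]
          · simp [TrivSqZeroExt.algebraMap_eq_inl, mul_comm]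
        rw [e]
        exact add_mem (Ideal.mul_mem_right _ _ hx') (Ideal.mul_mem_right _ _ hy')
    exact IsAdicComplete.mk
  · rw [← h.comp]
    exact RingHom.ext fun _ => rfl

/-- every series over `k` lifts to `W(k)` with the same vanishing constant term -/
theorem exists_lift_WW (g : PowerSeries (kk p n)) (h0 : PowerSeries.constantCoeff g = 0) :
    ∃ g' : PowerSeries (WW p n), PowerSeries.constantCoeff g' = 0 ∧
      PowerSeries.map (WittVector.constantCoeff : WW p n →+* kk p n) g' = g :=
  exists_lift_of_surj _ (WittVector.constantCoeff_surjective p) g h0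

theorem IsTest.exists_lift {B : Type} [CommRing B] [IsLocalRing B] [Algebra (WW p n) B]
    {r : B →+* kk p n} (h : IsTest p n B r) (g : PowerSeries (kk p n))
    (h0 : PowerSeries.constantCoeff g = 0) :
    ∃ g' : PowerSeries B, PowerSeries.constantCoeff g' = 0 ∧ PowerSeries.map r g' = g :=
  exists_lift_of_surj _ h.surj g h0

theorem IsTest.isUnit_iff {B : Type} [CommRing B] [IsLocalRing B] [Algebra (WW p n) B]
    {r : B →+* kk p n} (h : IsTest p n B r) (x : B) : IsUnit x ↔ r x ≠ 0 := by
  rw [Ne, ← RingHom.mem_ker, h.ker, mem_maximalIdeal, mem_nonunits_iff, not_not]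

/-- a one-dimensional prime avoiding `v` (maximal among the primes over `P` avoiding `v`: every
nonzero prime of the quotient contains `v`; Krull's principal ideal theorem, prime avoidance) -/
theorem exists_dim_one {A : Type} [CommRing A] [IsLocalRing A] [IsNoetherianRing A] (P : Ideal A)
    [P.IsPrime] {v : A} (hv : v ∉ P) (hvm : v ∈ maximalIdeal A) :
    ∃ (Q : Ideal A) (N : ℕ), Q.IsPrime ∧ P ≤ Q ∧ v ∉ Q ∧
      maximalIdeal A ^ N ≤ Q ⊔ Ideal.span {v} := by
  obtain ⟨Q, ⟨hQp, hPQ, hvQ⟩, hmax⟩ := set_has_maximal_iff_noetherian.2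
    (inferInstance : IsNoetherian A A) {Q : Ideal A | Q.IsPrime ∧ P ≤ Q ∧ v ∉ Q}
    ⟨P, inferInstance, le_rfl, hv⟩
  have := hQp
  have hloc : IsLocalRing (A ⧸ Q) :=
    IsLocalRing.of_surjective' (Ideal.Quotient.mk Q) Ideal.Quotient.mk_surjective
  have hm : maximalIdeal (A ⧸ Q) = (maximalIdeal A).map (Ideal.Quotient.mk Q) :=
    (map_maximalIdeal_of_surjective _ Ideal.Quotient.mk_surjective).symm
  obtain ⟨N, hN⟩ := pow_le_span_of_forall_prime (D := A ⧸ Q) (v := Ideal.Quotient.mk Q v)
    (fun e => hvQ (Ideal.Quotient.eq_zero_iff_mem.1 e))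
    (hm ▸ Ideal.mem_map_of_mem _ hvm) (fun q hq hq0 => by
      by_contra hvq
      have hle : Q ≤ q.comap (Ideal.Quotient.mk Q) := fun a ha => by
        rw [Ideal.mem_comap, Ideal.Quotient.eq_zero_iff_mem.2 ha]
        exact q.zero_mem
      refine hmax (q.comap (Ideal.Quotient.mk Q)) ⟨hq.comap _, hPQ.trans hle, hvq⟩
        (lt_of_le_of_ne hle fun e => hq0 ?_)
      rw [eq_bot_iff]
      intro y hy
      obtain ⟨a, rfl⟩ := Ideal.Quotient.mk_surjective y
      have : a ∈ Q := by rw [e]; exact hy
      exact Ideal.Quotient.eq_zero_iff_mem.2 this)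
  refine ⟨Q, N, hQp, hPQ, hvQ, fun a ha => ?_⟩
  have h1 : Ideal.Quotient.mk Q a ∈ maximalIdeal (A ⧸ Q) ^ N := by
    rw [hm, ← Ideal.map_pow]
    exact Ideal.mem_map_of_mem _ ha
  obtain ⟨c, hc⟩ := Ideal.mem_span_singleton'.1 (hN h1)
  obtain ⟨c, rfl⟩ := Ideal.Quotient.mk_surjective c
  rw [← map_mul, Ideal.Quotient.eq] at hc
  have e : a = -(c * v - a) + c * v := by ring
  rw [e]
  exact Submodule.add_mem_sup (Q.neg_mem hc) (Ideal.mul_mem_left _ _ (Ideal.subset_span rfl))

/-- formal inverse function theorem (surjectivity of a substitution) -/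
theorem subst_surjective {K σ : Type} [Field K] [Finite σ] {b : σ → MvPowerSeries σ K}
    (hb : ∀ i, constantCoeff (b i) = 0)
    (h : Ideal.span (Set.range (X : σ → MvPowerSeries σ K)) ≤
      Ideal.span (Set.range b) ⊔ Ideal.span (Set.range (X : σ → MvPowerSeries σ K)) ^ 2) :
    Function.Surjective (fun f : MvPowerSeries σ K => (f.subst b : MvPowerSeries σ K)) := by
  have hs : HasSubst b := hasSubst_of_constantCoeff_zero hb
  set I : Ideal (MvPowerSeries σ K) := Ideal.span (Set.range (X : σ → MvPowerSeries σ K)) with hI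
  let φ : MvPowerSeries σ K →+* MvPowerSeries σ K := (substAlgHom (R := K) hs).toRingHom
  have hφ : ∀ f, φ f = f.subst b := fun f => congrFun (coe_substAlgHom hs) f
  have hle : I ≤ Ideal.span (Set.range b) := by
    refine Submodule.le_of_le_smul_of_le_jacobson_bot (I := I) (IsNoetherian.noetherian _)
      (IsAdicComplete.le_jacobson_bot I) ?_
    rwa [smul_eq_mul, ← sq]
  have hge : Ideal.span (Set.range b) ≤ I := by
    rw [Ideal.span_le]
    rintro _ ⟨i, rfl⟩
    exact (mem_span_X_iff _).2 (hb i)
  have hmap : I.map φ = I := by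
    rw [hI, Ideal.map_span, ← Set.range_comp]
    have : (φ ∘ X : σ → MvPowerSeries σ K) = b := funext fun i => by
      rw [Function.comp_apply, hφ, subst_X hs]
    rw [this]
    exact le_antisymm hge hle
  have : IsHausdorff (I.map φ) (MvPowerSeries σ K) := by
    rw [hmap]
    infer_instance
  have := surjective_of_mk_map_comp_surjective (I := I) φ (fun y => by
    obtain ⟨f, rfl⟩ := Ideal.Quotient.mk_surjective y
    refine ⟨C (constantCoeff f), ?_⟩
    rw [RingHom.comp_apply, Ideal.Quotient.eq, hmap, hφ, subst_C]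
    exact (mem_span_X_iff _).2 (by simp))
  intro y
  obtain ⟨x, hx⟩ := this y
  exact ⟨x, (hφ x).symm.trans hx⟩

/-- the hypothesis of `subst_surjective` from the Jacobian -/
theorem span_X_le_of_jacobian {K σ : Type} [Field K] [Fintype σ] {b : σ → MvPowerSeries σ K}
    (hb : ∀ i, constantCoeff (b i) = 0)
    (h : ∀ a : σ → K, (∀ i, ∑ l, coeff (Finsupp.single l 1) (b i) * a l = 0) → a = 0) :
    Ideal.span (Set.range (X : σ → MvPowerSeries σ K)) ≤
      Ideal.span (Set.range b) ⊔ Ideal.span (Set.range (X : σ → MvPowerSeries σ K)) ^ 2 := by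
  classical
  let M : Matrix σ σ K := Matrix.of fun i l => coeff (Finsupp.single l 1) (b i)
  have hinj : Function.Injective M.mulVec := by
    intro a a' e
    rw [← sub_eq_zero]
    refine h _ fun i => ?_
    have : M.mulVec (a - a') = 0 := by rw [Matrix.mulVec_sub, e, sub_self]
    exact congrFun this i
  obtain ⟨N, hN⟩ := (Matrix.mulVec_injective_iff_isUnit.1 hinj).exists_left_inv
  rw [Ideal.span_le]
  rintro _ ⟨j, rfl⟩
  have e : (X j : MvPowerSeries σ K) = ∑ i, C (N j i) * b i + (X j - ∑ i, C (N j i) * b i) := by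
    ring
  rw [SetLike.mem_coe, e]
  refine Submodule.add_mem_sup
    (Ideal.sum_mem _ fun i _ => Ideal.mul_mem_left _ _ (Ideal.subset_span ⟨i, rfl⟩)) ?_
  rw [mem_span_X_pow_iff]
  intro d hd
  rw [map_sub, map_sum]
  simp only [coeff_C_mul]
  by_cases hd0 : d.degree = 0
  · have : d = 0 := (Finsupp.degree_eq_zero_iff d).1 hd0
    subst this
    simp [hb]
  · have hd1 : d ∈ {d : σ →₀ ℕ | d.degree = 1} := by
      change d.degree = 1
      omega
    rw [← Finsupp.range_single_one] at hd1
    obtain ⟨l, rfl⟩ := hd1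
    have h1 : ∑ i, N j i * coeff (Finsupp.single l 1) (b i) = (N * M) j l := rfl
    rw [h1, hN, coeff_X, Matrix.one_apply]
    simp only [Finsupp.single_left_inj (one_ne_zero : (1 : ℕ) ≠ 0), eq_comm (a := l), sub_self]

end Crest.Agent.R227
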