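import Crest.Agent.R227.Perf

/-! # Row 227: the field of constants and decoupling. -/

set_option autoImplicit false
set_option linter.unusedSectionVars false

open MvPowerSeries Filter Topology

noncomputable section
namespace Crest.Agent.R227

open Crest.LubinTate

section Const
variable (K : Type) [Field K] (p : ℕ) [Fact p.Prime] [CharP K p]

theorem zar_fix_mul {x : K} {N : ℕ} (h : iterateFrobenius K p N x = x) (k : ℕ) :
    iterateFrobenius K p (N * k) x = x := by
  induction k with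
  | zero => simp
  | succ k ih => rw [Nat.mul_succ, iterateFrobenius_add_apply, h, ih]

/-- elements fixed by a power of Frobenius -/
def zarK : Subfield K where
  carrier := {x | ∃ N, 0 < N ∧ iterateFrobenius K p N x = x}
  mul_mem' := by
    rintro a b ⟨N, hN, ha⟩ ⟨N', hN', hb⟩
    refine ⟨N * N', Nat.mul_pos hN hN', ?_⟩
    rw [map_mul, zar_fix_mul K p ha, mul_comm N, zar_fix_mul K p hb]
  one_mem' := ⟨1, one_pos, map_one _⟩
  add_mem' := by
    rintro a b ⟨N, hN, ha⟩ ⟨N', hN', hb⟩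
    refine ⟨N * N', Nat.mul_pos hN hN', ?_⟩
    rw [map_add, zar_fix_mul K p ha, mul_comm N, zar_fix_mul K p hb]
  zero_mem' := ⟨1, one_pos, map_zero _⟩
  neg_mem' := by
    rintro a ⟨N, hN, ha⟩
    exact ⟨N, hN, by rw [map_neg, ha]⟩
  inv_mem' := by
    rintro a ⟨N, hN, ha⟩
    exact ⟨N, hN, by rw [map_inv₀, ha]⟩

variable {K p}

theorem zar_fix_eventually {x : K} (hx : x ∈ zarK K p) (h : ℕ) :
    ∀ᶠ n : ℕ in atTop, iterateFrobenius K p (h * n.factorial) x = x := by
  obtain ⟨N, hN, hx⟩ := hx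
  filter_upwards [eventually_ge_atTop N] with n hn
  obtain ⟨k, hk⟩ := Nat.dvd_factorial hN hn
  rw [hk, mul_left_comm]
  exact zar_fix_mul K p hx _

theorem zar_root (x : zarK K p) : ∃ y : zarK K p, y ^ p = x := by
  obtain ⟨x, N, hN, hx⟩ := x
  obtain ⟨N, rfl⟩ : ∃ k, N = k + 1 := ⟨N - 1, by omega⟩
  refine ⟨⟨x, N + 1, hN, hx⟩ ^ p ^ N, Subtype.ext ?_⟩
  rw [← pow_mul, ← pow_succ]
  rw [iterateFrobenius_def] at hx
  simpa using hx

end Const

variable {K : Type} [NontriviallyNormedField K] [IsUltrametricDist K]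
  {p : ℕ} [Fact p.Prime] [CharP K p]

theorem zar_norm_le (x : zarK K p) : ‖(x : K)‖ ≤ 1 := by
  obtain ⟨x, N, hN, hx⟩ := x
  rw [iterateFrobenius_def] at hx
  by_contra hc
  have h1 : 1 < ‖x‖ := not_le.1 hc
  have h2 : ‖x‖ ^ 1 < ‖x‖ ^ p ^ N :=
    pow_lt_pow_right₀ h1 (Nat.one_lt_pow hN.ne' (Fact.out : p.Prime).one_lt)
  rw [← norm_pow x (p ^ N), hx, pow_one] at h2
  exact lt_irrefl _ h2

variable (K p) in
/-- the constants lie in the valuation ring -/
def zarJ : zarK K p →+* OO K := (zarK K p).subtype.codRestrict (OO K) zar_norm_le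

theorem zarJ_coe (x : zarK K p) : ((zarJ K p x : OO K) : K) = x := rfl

theorem zarJ_injective : Function.Injective (zarJ K p) := (zarJ K p).injective

theorem zar_tendsto_q {h : ℕ} (hh : 1 ≤ h) :
    Tendsto (fun n : ℕ => p ^ (h * n.factorial)) atTop atTop := by
  refine (tendsto_pow_atTop_atTop_of_one_lt (Fact.out : p.Prime).one_lt).comp ?_
  refine tendsto_atTop_mono (fun n => ?_) tendsto_id
  exact (Nat.self_le_factorial n).trans (Nat.le_mul_of_pos_left _ hh)

theorem zar_tendsto_fact : Tendsto (fun n : ℕ => n.factorial) atTop atTop :=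
  tendsto_atTop_mono (fun n => Nat.self_le_factorial n) tendsto_id

/-- decoupling -/
theorem zar_decouple (hK : ResAlg p K) {h : ℕ} (hh : 1 ≤ h) {ι : Type} (s : Finset ι)
    (c z : ι → K) {ρ M : ℝ} (hρ : 0 ≤ ρ)
    (H : ∀ᶠ i : ℕ in atTop, ‖∑ a ∈ s, c a * z a ^ (p ^ h) ^ i‖ ≤ M * ρ ^ (p ^ h) ^ i)
    (φ : K →ₗ[zarK K p] zarK K p) : ‖∑ a ∈ s, (φ (c a) : K) * z a‖ ≤ ρ := by
  classical
  let b := Module.Basis.ofVectorSpace (zarK K p) K
  let t := s.biUnion fun a => (b.repr (c a)).support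
  have hc : ∀ a ∈ s, c a = ∑ β ∈ t, b.repr (c a) β • b β := by
    intro a ha
    conv_lhs => rw [← b.linearCombination_repr (c a)]
    rw [Finsupp.linearCombination_apply, Finsupp.sum_of_support_subset _
      (Finset.subset_biUnion_of_mem (fun a => (b.repr (c a)).support) ha) _ (by simp)]
  obtain ⟨w, hw⟩ : ∃ w : _ → K, ∀ β, w β = ∑ a ∈ s, (b.repr (c a) β : K) * z a := ⟨_, fun _ => rfl⟩
  have claim : ∀ β ∈ t, ‖w β‖ ≤ ρ := by
    by_contra hcon
    push Not at hcon
    obtain ⟨β₁, hβ₁, hβ₁'⟩ := hcon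
    obtain ⟨β₀, hβ₀, hmax⟩ := t.exists_max_image (fun β => ‖w β‖) ⟨β₁, hβ₁⟩
    have hσ : ρ < ‖w β₀‖ := hβ₁'.trans_le (hmax β₁ hβ₁)
    have hσ0 : 0 < ‖w β₀‖ := hρ.trans_lt hσ
    have hw0 : w β₀ ≠ 0 := norm_pos_iff.1 hσ0
    have hz : ∀ β, ∃ ζ : zarK K p, β ∈ t → ‖w β / w β₀ - ζ‖ < 1 := by
      intro β
      by_cases hβ : β ∈ t
      · obtain ⟨ζ, N, hN, h1, h2⟩ := hK (w β / w β₀) (by
          rw [norm_div, div_le_one hσ0]; exact hmax β hβ)
        exact ⟨⟨ζ, N, hN, by rw [iterateFrobenius_def, h1]⟩, fun _ => h2⟩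
      · exact ⟨0, fun h => absurd h hβ⟩
    choose ζ hζ using hz
    have hq := zar_tendsto_q (p := p) hh
    have T1 : Tendsto (fun n : ℕ => ∑ β ∈ t, b β * ((ζ β : K) +
        (w β / w β₀ - ζ β) ^ p ^ (h * n.factorial))) atTop (𝓝 (∑ β ∈ t, b β * ((ζ β : K) + 0))) :=
      tendsto_finsetSum t fun β hβ =>
        (((tendsto_pow_atTop_nhds_zero_of_norm_lt_one (hζ β hβ)).comp hq).const_add _).const_mul _
    have T2 : Tendsto (fun n : ℕ => ∑ β ∈ t, b β * ((ζ β : K) +
        (w β / w β₀ - ζ β) ^ p ^ (h * n.factorial))) atTop (𝓝 0) := by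
      have T3 : Tendsto (fun n : ℕ => M * (ρ / ‖w β₀‖) ^ p ^ (h * n.factorial)) atTop (𝓝 (M * 0)) :=
        ((tendsto_pow_atTop_nhds_zero_of_lt_one (div_nonneg hρ hσ0.le)
          ((div_lt_one hσ0).2 hσ)).comp hq).const_mul M
      rw [mul_zero] at T3
      refine squeeze_zero_norm' ?_ T3
      have E1 : ∀ᶠ n : ℕ in atTop, ∀ β ∈ t, iterateFrobenius K p (h * n.factorial) (ζ β) = ζ β :=
        (eventually_all_finset t).2 fun β _ => zar_fix_eventually (ζ β).2 h
      have E2 : ∀ᶠ n : ℕ in atTop, ∀ β ∈ t, ∀ a ∈ s,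
          iterateFrobenius K p (h * n.factorial) (b.repr (c a) β) = b.repr (c a) β :=
        (eventually_all_finset t).2 fun β _ => (eventually_all_finset s).2 fun a _ =>
          zar_fix_eventually (b.repr (c a) β).2 h
      filter_upwards [E1, E2, zar_tendsto_fact.eventually H] with n e1 e2 e3
      rw [← pow_mul] at e3
      have e4 : ∑ β ∈ t, b β * ((ζ β : K) + (w β / w β₀ - ζ β) ^ p ^ (h * n.factorial)) =
          (∑ a ∈ s, c a * z a ^ p ^ (h * n.factorial)) / w β₀ ^ p ^ (h * n.factorial) := by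
        have e5 : ∑ a ∈ s, c a * z a ^ p ^ (h * n.factorial) =
            ∑ β ∈ t, b β * w β ^ p ^ (h * n.factorial) := by
          rw [Finset.sum_congr rfl fun a ha => by rw [hc a ha, Finset.sum_mul], Finset.sum_comm]
          refine Finset.sum_congr rfl fun β hβ => ?_
          rw [← iterateFrobenius_def, hw, map_sum, Finset.mul_sum]
          refine Finset.sum_congr rfl fun a ha => ?_
          rw [map_mul, e2 β hβ a ha, iterateFrobenius_def, Subfield.smul_def, smul_eq_mul]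
          ring
        rw [e5, Finset.sum_div]
        refine Finset.sum_congr rfl fun β hβ => ?_
        rw [← iterateFrobenius_def (p := p) (x := w β / w β₀ - ζ β), map_sub, e1 β hβ, add_sub_cancel,
          iterateFrobenius_def, div_pow, mul_div_assoc]
      rw [e4, norm_div, norm_pow, div_pow, ← mul_div_assoc]
      exact div_le_div_of_nonneg_right e3 (by positivity)
    have T4 := tendsto_nhds_unique T1 T2
    have T5 : ζ β₀ = 0 := by
      refine linearIndependent_iff'.1 b.linearIndependent t ζ ?_ β₀ hβ₀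
      rw [← T4]
      refine Finset.sum_congr rfl fun β _ => ?_
      rw [Subfield.smul_def, smul_eq_mul, add_zero, mul_comm]
    have := hζ β₀ hβ₀
    rw [T5, div_self hw0] at this
    simp at this
  have e : ∑ a ∈ s, (φ (c a) : K) * z a = ∑ β ∈ t, (φ (b β) : K) * w β := by
    rw [Finset.sum_congr rfl fun a ha => by
      rw [hc a ha, map_sum, AddSubmonoidClass.coe_finsetSum, Finset.sum_mul], Finset.sum_comm]
    refine Finset.sum_congr rfl fun β _ => ?_
    rw [hw, Finset.mul_sum]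
    refine Finset.sum_congr rfl fun a _ => ?_
    rw [map_smul, smul_eq_mul, Subfield.coe_mul]
    ring
  rw [e]
  refine IsUltrametricDist.norm_sum_le_of_forall_le_of_nonneg hρ fun β hβ => ?_
  rw [norm_mul]
  exact (mul_le_of_le_one_left (norm_nonneg _) (zar_norm_le _)).trans (claim β hβ)

/-- coefficientwise application of a linear form -/
def zarMap {σ : Type} (φ : K →ₗ[zarK K p] zarK K p) (F : MvPowerSeries σ K) :
    MvPowerSeries σ (zarK K p) := fun d => φ (coeff d F)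

theorem coeff_zarMap {σ : Type} (φ : K →ₗ[zarK K p] zarK K p) (F : MvPowerSeries σ K)
    (d : σ →₀ ℕ) : coeff d (zarMap φ F) = φ (coeff d F) := rfl

theorem zar_eval_trunc {m : ℕ} (F : MvPowerSeries (Fin m) K) (a : Fin m → K) (N : ℕ) :
    MvPolynomial.eval a (truncTotal N F) =
      ∑ d ∈ (Finsupp.finite_of_degree_lt N).toFinset, coeff d F * d.prod fun i e => a i ^ e := by
  rw [truncTotal, truncFinset_apply, map_sum]
  exact Finset.sum_congr rfl fun d _ => MvPolynomial.eval_monomial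

theorem zar_prod_pow {m : ℕ} (d : Fin m →₀ ℕ) (a : Fin m → K) (q : ℕ) :
    (d.prod fun i e => (a i ^ q) ^ e) = (d.prod fun i e => a i ^ e) ^ q := by
  rw [Finsupp.prod, Finsupp.prod, ← Finset.prod_pow]
  exact Finset.prod_congr rfl fun i _ => pow_right_comm _ _ _

theorem zar_coe_prod {m : ℕ} (d : Fin m →₀ ℕ) (a : Fin m → OO K) :
    ((d.prod fun i e => a i ^ e : OO K) : K) = d.prod fun i e => (a i : K) ^ e := by
  simp [Finsupp.prod]

variable [CompleteSpace K]

theorem zar_asymp_ev (hK : ResAlg p K) {h : ℕ} (hh : 1 ≤ h) {m : ℕ} {F : MvPowerSeries (Fin m) K}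
    {π : Fin m → OO K} (hπ : ∀ i, ‖π i‖ < 1) {r : ℝ} (hr0 : 0 ≤ r) (hr : r < 1)
    (H : AsympVanish (p ^ h) F π r) (φ : K →ₗ[zarK K p] zarK K p) :
    ev (IO K) (zarJ K p) π (zarMap φ F) = 0 := by
  obtain ⟨r', hr0', hr', hπ'⟩ := OO_exists_radius hπ
  have key : ∀ N : ℕ, ‖ev (IO K) (zarJ K p) π (zarMap φ F)‖ ≤ 0 + max r r' ^ N := by
    intro N
    obtain ⟨M, hM⟩ := H N
    have h1 := zar_decouple hK hh (Finsupp.finite_of_degree_lt (σ := Fin m) N).toFinset
      (fun d => coeff d F) (fun d => d.prod fun i e => (π i : K) ^ e) (M := M) (pow_nonneg hr0 N)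
      (hM.mono fun i hi => by
        rw [zar_eval_trunc, pow_mul] at hi
        simpa only [zar_prod_pow] using hi) φ
    have h2 := OO_norm_ev_sub_sum (zarJ K p) hr0' hr' hπ' (zarMap φ F) (k := N)
      (s := (Finsupp.finite_of_degree_lt (σ := Fin m) N).toFinset)
      (fun d hd hd' => absurd (by simpa using hd) hd')
    have h3 : ‖∑ d ∈ (Finsupp.finite_of_degree_lt (σ := Fin m) N).toFinset,
        zarJ K p (coeff d (zarMap φ F)) * d.prod fun i e => π i ^ e‖ ≤ r ^ N := by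
      rw [← OO_norm_coe, AddSubmonoidClass.coe_finsetSum]
      simpa only [Subring.coe_mul, zar_coe_prod, zarJ_coe, coeff_zarMap] using h1
    have h4 := OO_norm_add_le K (ev (IO K) (zarJ K p) π (zarMap φ F) -
      ∑ d ∈ (Finsupp.finite_of_degree_lt (σ := Fin m) N).toFinset,
        zarJ K p (coeff d (zarMap φ F)) * d.prod fun i e => π i ^ e)
      (∑ d ∈ (Finsupp.finite_of_degree_lt (σ := Fin m) N).toFinset,
        zarJ K p (coeff d (zarMap φ F)) * d.prod fun i e => π i ^ e)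
    rw [sub_add_cancel] at h4
    rw [zero_add]
    exact h4.trans (max_le (h2.trans (pow_le_pow_left₀ hr0' (le_max_right _ _) N))
      (h3.trans (pow_le_pow_left₀ hr0 (le_max_left _ _) N)))
  exact norm_le_zero_iff.1 (OO_le_of_le_add_pow (le_max_of_le_left hr0) (max_lt hr hr') key)

theorem zar_asymp_of_ev {Q : ℕ} (hQ : Q ≠ 0) {m : ℕ} {g : MvPowerSeries (Fin m) (OO K)}
    {π : Fin m → OO K} {r : ℝ} (hr0 : 0 ≤ r) (hr : r < 1) (hπ : ∀ i, ‖π i‖ ≤ r)
    (H : ∀ i : ℕ, ev (IO K) (RingHom.id _) (fun l => π l ^ Q ^ i) g = 0) :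
    AsympVanish Q (MvPowerSeries.map (OO K).subtype g) π r := by
  intro N
  refine ⟨1, Eventually.of_forall fun i => ?_⟩
  have h2 := OO_norm_ev_sub_sum (RingHom.id _) (a := fun l => π l ^ Q ^ i) (r := r ^ Q ^ i)
    (pow_nonneg hr0 _) (pow_lt_one₀ hr0 hr (pow_ne_zero i hQ))
    (fun l => by rw [norm_pow]; exact pow_le_pow_left₀ (norm_nonneg _) (hπ l) _) g (k := N)
    (s := (Finsupp.finite_of_degree_lt (σ := Fin m) N).toFinset)
    (fun d hd hd' => absurd (by simpa using hd) hd')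
  rw [H i, zero_sub, norm_neg, ← OO_norm_coe, AddSubmonoidClass.coe_finsetSum, ← pow_mul,
    mul_comm] at h2
  rw [zar_eval_trunc, one_mul]
  simpa only [Subring.coe_mul, zar_coe_prod, RingHom.id_apply, coeff_map, Subring.coe_subtype,
    SubmonoidClass.coe_pow] using h2

end Crest.Agent.R227
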