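import Crest.Agent.R227.ZarA

/-! # Row 227: analytic functions on points, the ideal of a subgroup. -/

set_option autoImplicit false
set_option linter.unusedSectionVars false

open MvPowerSeries Filter Topology

noncomputable section
namespace Crest.Agent.R227

open Crest.LubinTate

theorem zar_ev_zero {R S σ : Type} [CommRing R] [CommRing S] [Finite σ] (I : Ideal S)
    [IsAdicComplete I S] (φ : R →+* S) (f : MvPowerSeries σ R) :
    ev I φ (fun _ => 0) f = φ (constantCoeff f) := by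
  have h := ev_sub_mem_span I φ (a := fun _ : σ => 0) (fun _ => zero_mem _) f
  have h2 : Ideal.span (Set.range fun _ : σ => (0 : S)) = ⊥ := by
    rw [Ideal.span_eq_bot]
    rintro _ ⟨_, rfl⟩
    rfl
  rw [h2, Ideal.mem_bot, sub_eq_zero] at h
  exact h

theorem zar_taylor_poly {R S σ : Type} [CommRing R] [CommRing S] [DecidableEq σ] (φ : R →+* S)
    (a : σ → S) (l : σ) (δ : S) (P : MvPolynomial σ R) :
    δ ^ 2 ∣ MvPolynomial.eval₂ φ (Function.update a l (a l + δ)) P - MvPolynomial.eval₂ φ a P -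
      δ * MvPolynomial.eval₂ φ a (MvPolynomial.pderiv l P) := by
  induction P using MvPolynomial.induction_on with
  | C c => simp
  | add P Q hP hQ =>
    have := dvd_add hP hQ
    simp only [map_add, MvPolynomial.eval₂_add]
    convert this using 1
    ring
  | mul_X P i hP =>
    obtain ⟨c, hc⟩ := hP
    rw [sub_sub, sub_eq_iff_eq_add] at hc
    simp only [Derivation.leibniz, smul_eq_mul, MvPolynomial.eval₂_add, MvPolynomial.eval₂_mul,
      MvPolynomial.eval₂_X, hc]
    by_cases h : i = l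
    · subst h
      simp only [MvPolynomial.pderiv_X_self, MvPolynomial.eval₂_one, Function.update_self]
      exact ⟨MvPolynomial.eval₂ φ a (MvPolynomial.pderiv i P) + c * (a i + δ), by ring⟩
    · simp only [MvPolynomial.pderiv_X_of_ne h, MvPolynomial.eval₂_zero, Function.update_of_ne h]
      exact ⟨c * a i, by ring⟩

variable {K : Type} [NontriviallyNormedField K] [IsUltrametricDist K] [CompleteSpace K]

theorem zar_taylor {R σ : Type} [CommRing R] [Finite σ] [DecidableEq σ] (φ : R →+* OO K)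
    {a : σ → OO K} (ha : ∀ i, ‖a i‖ < 1) (l : σ) {δ : OO K} (hδ : ‖δ‖ < 1) (f : MvPowerSeries σ R) :
    ‖ev (IO K) φ (Function.update a l (a l + δ)) f - ev (IO K) φ a f -
      δ * ev (IO K) φ a (pderiv R l f)‖ ≤ ‖δ‖ ^ 2 := by
  have ha' : ∀ i, ‖Function.update a l (a l + δ) i‖ < 1 := by
    intro i
    by_cases h : i = l
    · subst h; rw [Function.update_self]; exact OO_norm_add_lt K (ha i) hδ
    · rw [Function.update_of_ne h]; exact ha i
  obtain ⟨r, hr0, hr, hra⟩ := OO_exists_radius ha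
  obtain ⟨r', hr0', hr', hra'⟩ := OO_exists_radius ha'
  refine OO_le_of_le_add_pow (le_max_of_le_left hr0) (max_lt hr hr') fun k => ?_
  obtain ⟨P, hP⟩ : ∃ P, P = truncTotal (k + 1) f := ⟨_, rfl⟩
  obtain ⟨g, hg⟩ : ∃ g, g = f - (P : MvPowerSeries σ R) := ⟨_, rfl⟩
  have hg0 : ∀ d : σ →₀ ℕ, d.degree < k + 1 → coeff d g = 0 := fun d hd => by
    rw [hg, map_sub, MvPolynomial.coeff_coe, hP, coeff_truncTotal _ hd, sub_self]
  have hg1 : ∀ d : σ →₀ ℕ, d.degree < k → coeff d (pderiv R l g) = 0 := fun d hd => by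
    rw [coeff_pderiv, hg0 _ (by rw [map_add, Finsupp.degree_single]; omega), zero_mul]
  have hm : ∀ i, a i ∈ (IO K).radical := fun i => (mem_IO_radical K _).2 (ha i)
  have hm' : ∀ i, Function.update a l (a l + δ) i ∈ (IO K).radical := fun i =>
    (mem_IO_radical K _).2 (ha' i)
  obtain ⟨c, hc⟩ := zar_taylor_poly φ a l δ P
  have e : ev (IO K) φ (Function.update a l (a l + δ)) f - ev (IO K) φ a f -
      δ * ev (IO K) φ a (pderiv R l f) = δ ^ 2 * c +
      (ev (IO K) φ (Function.update a l (a l + δ)) g + -ev (IO K) φ a g +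
        -(δ * ev (IO K) φ a (pderiv R l g))) := by
    rw [hg, ← hc]
    simp only [map_sub, pderiv_coe, ev_coe _ _ hm, ev_coe _ _ hm']
    ring
  have b0 : ‖δ ^ 2 * c‖ ≤ ‖δ‖ ^ 2 := by
    rw [norm_mul, norm_pow]
    exact mul_le_of_le_one_right (by positivity) (OO.norm_le_one K c)
  have hM0 : 0 ≤ max r r' := le_max_of_le_left hr0
  have b1 := norm_ev_le_pow φ hM0 (max_lt hr hr') (fun i => le_max_of_le_right (hra' i))
    (fun d hd => hg0 d (Nat.lt_succ_of_lt hd)) (k := k)
  have b2 := norm_ev_le_pow φ hM0 (max_lt hr hr') (fun i => le_max_of_le_left (hra i))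
    (fun d hd => hg0 d (Nat.lt_succ_of_lt hd)) (k := k)
  have b3 := norm_ev_le_pow φ hM0 (max_lt hr hr') (fun i => le_max_of_le_left (hra i)) hg1
  have b4 : ‖-(δ * ev (IO K) φ a (pderiv R l g))‖ ≤ max r r' ^ k := by
    rw [norm_neg, norm_mul]
    exact (mul_le_of_le_one_left (norm_nonneg _) hδ.le).trans b3
  rw [e]
  refine (norm_add_le _ _).trans (add_le_add b0 ?_)
  exact (OO_norm_add_le K _ _).trans (max_le ((OO_norm_add_le K _ _).trans
    (max_le b1 (by rwa [norm_neg]))) b4)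

variable {Γ : FormalGroup (OO K)} [Γ.IsComm]

/-- functions on points given by a power series with integral coefficients -/
def ZAna {σ : Type} [Finite σ] (Φ : (σ → Pt (IO K) Γ) → OO K) : Prop :=
  ∃ g : MvPowerSeries σ (OO K), ∀ y, Φ y = ev (IO K) (RingHom.id _) (fun i => (y i).1) g

section Ana
variable {σ : Type} [Finite σ]

theorem ZAna.const (c : OO K) : ZAna fun _ : σ → Pt (IO K) Γ => c :=
  ⟨C c, fun _ => by rw [ev_C]; rfl⟩

theorem ZAna.coord (i : σ) : ZAna fun y : σ → Pt (IO K) Γ => (y i).1 :=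
  ⟨X i, fun y => (ev_X _ _ (fun i => (y i).2) i).symm⟩

theorem ZAna.sub {Φ Ψ : (σ → Pt (IO K) Γ) → OO K} (h : ZAna Φ) (h' : ZAna Ψ) :
    ZAna fun y => Φ y - Ψ y := by
  obtain ⟨g, hg⟩ := h
  obtain ⟨g', hg'⟩ := h'
  exact ⟨g - g', fun y => by rw [map_sub, ← hg, ← hg']⟩

theorem ZAna.comp {τ R : Type} [Finite τ] [CommRing R] (φ : R →+* OO K) (f : MvPowerSeries τ R)
    {Φ : (σ → Pt (IO K) Γ) → τ → OO K} (h : ∀ t, ZAna fun y => Φ y t)
    (hm : ∀ y t, Φ y t ∈ (IO K).radical) : ZAna fun y => ev (IO K) φ (Φ y) f := by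
  choose g hg using h
  have h0 : ∀ t, g t ∈ (psIdeal σ (IO K)).radical := fun t => by
    rw [mem_psIdeal_radical]
    have h1 := hg t 0
    rw [show (fun i => ((0 : σ → Pt (IO K) Γ) i).1) = fun _ => 0 from rfl, zar_ev_zero] at h1
    exact h1 ▸ hm 0 t
  refine ⟨ev (psIdeal σ (IO K)) (C.comp φ) g f, fun y => ?_⟩
  rw [comp_ev (psIdeal σ (IO K)) (IO K) _ _ h0 (fun t => hg t y ▸ hm y t)]
  have e1 : (ev (IO K) (RingHom.id _) fun i => (y i).1).comp (C.comp φ) = φ :=
    RingHom.ext fun r => ev_C _ _ _ _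
  have e2 : (fun t => ev (IO K) (RingHom.id _) (fun i => (y i).1) (g t)) = Φ y :=
    funext fun t => (hg t y).symm
  rw [e1, e2]

theorem ZAna.add {Φ Ψ : (σ → Pt (IO K) Γ) → Pt (IO K) Γ} (h : ZAna fun y => (Φ y).1)
    (h' : ZAna fun y => (Ψ y).1) : ZAna fun y => (Φ y + Ψ y).1 :=
  ZAna.comp (RingHom.id _) Γ.toPowerSeries (Φ := fun y => ![(Φ y).1, (Ψ y).1])
    (fun t => by fin_cases t <;> assumption) fun y => ev_pair_mem _ (Φ y).2 (Ψ y).2

end Ana

theorem zar_pt_lt (x : Pt (IO K) Γ) : ‖x.1‖ < 1 := (mem_IO_radical K _).1 x.2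

variable {p : ℕ} [Fact p.Prime] [CharP K p] {m : ℕ}

/-- series over the constants vanishing on `Λ` -/
def ZVan (Λ : AddSubmonoid (Fin m → Pt (IO K) Γ)) (f : MvPowerSeries (Fin m) (zarK K p)) : Prop :=
  ∀ x ∈ Λ, ev (IO K) (zarJ K p) (fun l => (x l).1) f = 0

theorem zar_nsmul {h : ℕ} (hΓ : mulSeries Γ p = PowerSeries.X ^ p ^ h) (y : Pt (IO K) Γ) (i : ℕ) :
    (p ^ i • y).1 = y.1 ^ (p ^ h) ^ i := by
  induction i with
  | zero => simp
  | succ i ih =>
    rw [pow_succ', mul_nsmul', Pt.nsmul_val, hΓ, map_pow, ev1_X _ (p ^ i • y).2, ih, ← pow_mul,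
      ← pow_succ]

theorem zar_descend (hK : ResAlg p K) {h : ℕ} (hh : 1 ≤ h)
    (hΓ : mulSeries Γ p = PowerSeries.X ^ p ^ h) {Λ : AddSubmonoid (Fin m → Pt (IO K) Γ)}
    {g : MvPowerSeries (Fin m) (OO K)}
    (hg : ∀ x ∈ Λ, ev (IO K) (RingHom.id _) (fun l => (x l).1) g = 0)
    (φ : K →ₗ[zarK K p] zarK K p) :
    ZVan Λ (zarMap φ (MvPowerSeries.map (OO K).subtype g)) := by
  intro x hx
  obtain ⟨r, hr0, hr, hx'⟩ := OO_exists_radius fun l => zar_pt_lt (x l)
  refine zar_asymp_ev hK hh (fun l => zar_pt_lt (x l)) hr0 hr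
    (zar_asymp_of_ev (pow_ne_zero h (Fact.out : p.Prime).ne_zero) hr0 hr hx' fun i => ?_) φ
  have := hg _ (Λ.nsmul_mem hx (p ^ i))
  simpa only [Pi.smul_apply, zar_nsmul hΓ] using this

theorem zar_coeff_zero {g : MvPowerSeries (Fin m) (OO K)} {d : Fin m →₀ ℕ}
    (h : ∀ φ : K →ₗ[zarK K p] zarK K p,
      coeff d (zarMap φ (MvPowerSeries.map (OO K).subtype g)) = 0) : coeff d g = 0 :=
  Subtype.ext ((Module.forall_dual_apply_eq_zero_iff (zarK K p) _).1 h)

/-- Zariski density -/
theorem zar_dense (hK : ResAlg p K) {h : ℕ} (hh : 1 ≤ h)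
    (hΓ : mulSeries Γ p = PowerSeries.X ^ p ^ h) {Λ : AddSubmonoid (Fin m → Pt (IO K) Γ)}
    (hI : ∀ f : MvPowerSeries (Fin m) (zarK K p), ZVan Λ f → f = 0)
    {Φ Ψ : (Fin m → Pt (IO K) Γ) → Pt (IO K) Γ} (hΦ : ZAna fun y => (Φ y).1)
    (hΨ : ZAna fun y => (Ψ y).1) (e : ∀ x ∈ Λ, Φ x = Ψ x) (y : Fin m → Pt (IO K) Γ) :
    Φ y = Ψ y := by
  obtain ⟨g, hg⟩ := hΦ.sub hΨ
  have h0 : g = 0 := by
    ext d
    rw [zar_coeff_zero (p := p) fun φ => by
      rw [hI _ (zar_descend hK hh hΓ (fun x hx => by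
        rw [← hg]; exact sub_eq_zero.2 (congrArg Subtype.val (e x hx))) φ), map_zero]]
    rfl
  have := hg y
  rw [h0, map_zero, sub_eq_zero] at this
  exact Pt.ext this

theorem ZVan.const {Λ : AddSubmonoid (Fin m → Pt (IO K) Γ)} {f : MvPowerSeries (Fin m) (zarK K p)}
    (hf : ZVan Λ f) : constantCoeff f = 0 := by
  have h1 := hf 0 Λ.zero_mem
  rw [show (fun i => ((0 : Fin m → Pt (IO K) Γ) i).1) = fun _ => 0 from rfl, zar_ev_zero] at h1
  exact zarJ_injective (by rw [h1, map_zero])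

/-- without linear terms the ideal is stable under derivatives -/
theorem zar_pderiv (hK : ResAlg p K) {h : ℕ} (hh : 1 ≤ h)
    (hΓ : mulSeries Γ p = PowerSeries.X ^ p ^ h) {Λ : AddSubmonoid (Fin m → Pt (IO K) Γ)}
    (hlin : ∀ f : MvPowerSeries (Fin m) (zarK K p), ZVan Λ f →
      ∀ l, coeff (Finsupp.single l 1) f = 0)
    {f : MvPowerSeries (Fin m) (zarK K p)} (hf : ZVan Λ f) (l : Fin m) :
    ZVan Λ (pderiv _ l f) := by
  intro x hx
  obtain ⟨g, hg⟩ : ZAna fun y : Fin m → Pt (IO K) Γ =>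
      ev (IO K) (zarJ K p) (fun i => ((x + y) i).1) f :=
    ZAna.comp _ f (fun t => ZAna.add (ZAna.const _) (ZAna.coord t)) fun y t => ((x + y) t).2
  have hv := zar_descend hK hh hΓ (Λ := Λ) (g := g)
    fun y hy => by rw [← hg]; exact hf _ (Λ.add_mem hx hy)
  have h2 : ∀ d : Fin m →₀ ℕ, d.degree < 2 → coeff d g = 0 := by
    intro d hd
    refine zar_coeff_zero (p := p) fun φ => ?_
    rcases (by omega : d.degree = 0 ∨ d.degree = 1) with h0 | h1
    · rw [(Finsupp.degree_eq_zero_iff d).1 h0]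
      exact (hv φ).const
    · obtain ⟨l', rfl⟩ : d ∈ Set.range fun a => Finsupp.single a 1 := by
        rw [Finsupp.range_single_one]; exact h1
      exact hlin _ (hv φ) l'
  have key : ∀ t : OO K, 0 < ‖t‖ → ‖t‖ < 1 →
      ‖ev (IO K) (zarJ K p) (fun l => (x l).1) (pderiv _ l f)‖ ≤ ‖t‖ := by
    intro t ht0 ht
    let t' : Pt (IO K) Γ := ⟨t, (mem_IO_radical K _).2 ht⟩
    obtain ⟨c, hc⟩ := ev2_eq (IO K) Γ (x l).2 t'.2
    obtain ⟨δ, hδ⟩ : ∃ δ, δ = t * (1 + (x l).1 * c) := ⟨_, rfl⟩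
    have hu : ‖1 + (x l).1 * c‖ = 1 := by
      rw [OO_norm_eq_one_iff]
      intro hlt
      have := OO_norm_add_lt K hlt (show ‖-((x l).1 * c)‖ < 1 by
        rw [norm_neg]; exact OO_norm_mul_lt_left K (zar_pt_lt _) c)
      simp at this
    have hδn : ‖δ‖ = ‖t‖ := by rw [hδ, norm_mul, hu, mul_one]
    have e1 : (fun i => ((x + Pi.single l t' : Fin m → Pt (IO K) Γ) i).1) =
        Function.update (fun i => (x i).1) l ((x l).1 + δ) := by
      funext i
      by_cases hi : i = l
      · subst hi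
        rw [Function.update_self, Pi.add_apply, Pi.single_eq_same, Pt.add_val, hc, hδ]
        change (x i).1 + t + (x i).1 * t * c = _
        ring
      · rw [Function.update_of_ne hi, Pi.add_apply, Pi.single_eq_of_ne hi, add_zero]
    have b1 := zar_taylor (zarJ K p) (fun i => zar_pt_lt (x i)) l (hδn ▸ ht) f
    have b2 := norm_ev_le_pow (RingHom.id _) (a := fun i => ((Pi.single l t' : Fin m → _) i).1)
      ht0.le ht (fun i => by
        by_cases hi : i = l
        · subst hi; rw [Pi.single_eq_same]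
        · rw [Pi.single_eq_of_ne hi]; exact norm_zero.trans_le ht0.le) h2
    rw [← hg] at b2
    beta_reduce at b2
    rw [e1] at b2
    rw [hf x hx, sub_zero, hδn] at b1
    have b3 := OO_norm_add_le K
      (ev (IO K) (zarJ K p) (Function.update (fun i => (x i).1) l ((x l).1 + δ)) f)
      (-(ev (IO K) (zarJ K p) (Function.update (fun i => (x i).1) l ((x l).1 + δ)) f -
        δ * ev (IO K) (zarJ K p) (fun l => (x l).1) (pderiv _ l f)))
    rw [norm_neg, ← sub_eq_add_neg, sub_sub_cancel, norm_mul, hδn] at b3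
    have b4 := b3.trans (max_le b2 b1)
    rw [sq] at b4
    exact le_of_mul_le_mul_left b4 ht0
  obtain ⟨c, hc0, hc1, -⟩ := OO_exists_gen K
  refine norm_le_zero_iff.1 (OO_le_of_le_add_pow hc0.le hc1 fun k => ?_)
  have := key (c ^ (k + 1)) (by rw [norm_pow]; positivity)
    (by rw [norm_pow]; exact pow_lt_one₀ hc0.le hc1 (by omega))
  rw [norm_pow] at this
  rw [zero_add]
  exact this.trans (pow_le_pow_of_le_one hc0.le hc1.le (by omega))

/-- weights preserving the ideal -/
def zarW (Λ : AddSubmonoid (Fin m → Pt (IO K) Γ)) : Subring ((Fin m →₀ ℕ) → zarK K p) where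
  carrier := {w | ∀ f g : MvPowerSeries (Fin m) (zarK K p), ZVan Λ f →
    (∀ d, coeff d g = w d * coeff d f) → ZVan Λ g}
  mul_mem' {a b} ha hb f g hf hg :=
    ha (fun d => b d * coeff d f) g (hb f _ hf fun _ => rfl) fun d => by
      rw [hg, Pi.mul_apply, mul_assoc]; rfl
  one_mem' f g hf hg := by
    rw [show g = f from MvPowerSeries.ext fun d => by rw [hg, Pi.one_apply, one_mul]]
    exact hf
  add_mem' {a b} ha hb f g hf hg x hx := by
    obtain ⟨g₁, h₁⟩ : ∃ g₁ : MvPowerSeries (Fin m) (zarK K p), ∀ d, coeff d g₁ = a d * coeff d f :=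
      ⟨fun d => a d * coeff d f, fun _ => rfl⟩
    obtain ⟨g₂, h₂⟩ : ∃ g₂ : MvPowerSeries (Fin m) (zarK K p), ∀ d, coeff d g₂ = b d * coeff d f :=
      ⟨fun d => b d * coeff d f, fun _ => rfl⟩
    rw [show g = g₁ + g₂ from MvPowerSeries.ext fun d => by
      rw [hg, map_add, h₁, h₂, Pi.add_apply, add_mul], map_add, ha f _ hf h₁ x hx,
      hb f _ hf h₂ x hx, add_zero]
  zero_mem' f g _ hg x _ := by
    rw [show g = 0 from MvPowerSeries.ext fun d => by rw [hg, Pi.zero_apply, zero_mul, map_zero],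
      map_zero]
  neg_mem' {a} ha f g hf hg x hx := by
    have := ha f (-g) hf (fun d => by rw [map_neg, hg, Pi.neg_apply, neg_mul, neg_neg]) x hx
    rwa [map_neg, neg_eq_zero] at this

/-- a nonzero ideal contains a series with a linear term -/
theorem zar_linear (hK : ResAlg p K) {h : ℕ} (hh : 1 ≤ h)
    (hΓ : mulSeries Γ p = PowerSeries.X ^ p ^ h) {Λ : AddSubmonoid (Fin m → Pt (IO K) Γ)}
    (hlin : ∀ f : MvPowerSeries (Fin m) (zarK K p), ZVan Λ f →
      ∀ l, coeff (Finsupp.single l 1) f = 0)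
    {f : MvPowerSeries (Fin m) (zarK K p)} (hf : ZVan Λ f) : f = 0 := by
  classical
  have hp : p.Prime := Fact.out
  have hE : ∀ l, (fun d : Fin m →₀ ℕ => ((d l : ℕ) : zarK K p)) ∈ zarW (p := p) Λ := by
    intro l f g hf hg x hx
    have e : g = X l * pderiv _ l f := by
      refine MvPowerSeries.ext fun d => ?_
      rw [hg, X, coeff_monomial_mul]
      beta_reduce
      split_ifs with h1
      · have h2 : 1 ≤ d l := Finsupp.single_le_iff.1 h1
        rw [coeff_pderiv, tsub_add_cancel_of_le h1, one_mul, mul_comm, Finsupp.tsub_apply,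
          Finsupp.single_eq_same, Nat.cast_pred h2, sub_add_cancel]
      · have h2 : d l = 0 := by
          rw [Finsupp.single_le_iff] at h1
          omega
        rw [h2, Nat.cast_zero, zero_mul]
    rw [e, map_mul, zar_pderiv hK hh hΓ hlin hf l x hx, mul_zero]
  have hW : (∏ l, (1 - (fun d : Fin m →₀ ℕ => ((d l : ℕ) : zarK K p)) ^ (p - 1))) ∈
      zarW (p := p) Λ :=
    Subring.prod_mem _ fun l _ => sub_mem (one_mem _) (pow_mem (hE l) _)
  have key : ∀ (k : ℕ) (f : MvPowerSeries (Fin m) (zarK K p)), ZVan Λ f →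
      ∀ d : Fin m →₀ ℕ, d.degree = k → coeff d f = 0 := by
    intro k
    induction k using Nat.strong_induction_on with
    | _ k ih =>
      intro f hf d hd
      by_cases hdvd : ∀ l, p ∣ d l
      · rcases eq_or_ne d 0 with rfl | hd0
        · exact hf.const
        choose root hroot using zar_root (K := K) (p := p)
        obtain ⟨f₂, hf₂⟩ : ∃ f₂ : MvPowerSeries (Fin m) (zarK K p),
            ∀ e, coeff e f₂ = root (coeff (p • e) f) := ⟨fun e => root (coeff (p • e) f), fun _ => rfl⟩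
        have hdiv : ∀ e : Fin m →₀ ℕ, (∀ l, p ∣ e l) → ∃ e', e = p • e' := fun e he =>
          ⟨e.mapRange (· / p) (by simp), Finsupp.ext fun l => by
            simp [Nat.mul_div_cancel' (he l)]⟩
        have h1 : ZVan Λ (f₂ ^ p) := hW f _ hf fun e => by
          rw [← map_frobenius_expand p hp.ne_zero, coeff_map, Finset.prod_apply]
          by_cases he : ∀ l, p ∣ e l
          · obtain ⟨e', rfl⟩ := hdiv e he
            rw [coeff_expand_smul, hf₂, frobenius_def, hroot, Finset.prod_eq_one, one_mul]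
            intro l _
            rw [Pi.sub_apply, Pi.pow_apply, (CharP.cast_eq_zero_iff _ p _).2 (he l),
              zero_pow (by have := hp.two_le; omega), Pi.one_apply, sub_zero]
          · push Not at he
            obtain ⟨l, hl⟩ := he
            rw [coeff_expand_of_not_dvd p hp.ne_zero _ hl, map_zero,
              Finset.prod_eq_zero (Finset.mem_univ l), zero_mul]
            have h3 : ((e l : ℕ) : zarK K p) ≠ 0 := fun h0 =>
              hl ((CharP.cast_eq_zero_iff _ p _).1 h0)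
            have h4 : ((e l : ℕ) : zarK K p) ^ p = e l := map_natCast (frobenius (zarK K p) p) _
            rw [Pi.sub_apply, Pi.pow_apply, Pi.one_apply, sub_eq_zero]
            refine (mul_right_cancel₀ h3 ?_).symm
            rw [← pow_succ, Nat.sub_add_cancel hp.one_le, h4, one_mul]
        have h2 : ZVan Λ f₂ := fun x hx => by
          have := h1 x hx
          rw [map_pow] at this
          exact pow_eq_zero_iff hp.ne_zero |>.1 this
        obtain ⟨d', rfl⟩ := hdiv d hdvd
        have h3 : d'.degree ≠ 0 := fun h0 => hd0 (by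
          rw [(Finsupp.degree_eq_zero_iff d').1 h0, smul_zero])
        have h4 : d'.degree < k := by
          rw [← hd, map_nsmul, smul_eq_mul]
          exact lt_mul_left (Nat.pos_of_ne_zero h3) hp.one_lt
        rw [← hroot (coeff (p • d') f), ← hf₂, ih _ h4 f₂ h2 d' rfl, zero_pow hp.ne_zero]
      · push Not at hdvd
        obtain ⟨l, hl⟩ := hdvd
        have h1 : Finsupp.single l 1 ≤ d := Finsupp.single_le_iff.2 (Nat.pos_of_ne_zero fun h0 =>
          hl (h0 ▸ dvd_zero p))
        obtain ⟨d', rfl⟩ := exists_add_of_le h1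
        have h2 := ih d'.degree (by rw [← hd, map_add, Finsupp.degree_single]; omega) _
          (zar_pderiv hK hh hΓ hlin hf l) d' rfl
        rw [coeff_pderiv, add_comm d'] at h2
        refine (mul_eq_zero.1 h2).resolve_right fun h0 => hl ?_
        rw [Finsupp.add_apply, Finsupp.single_eq_same, add_comm]
        exact (CharP.cast_eq_zero_iff (zarK K p) p _).1 (by exact_mod_cast h0)
  ext d
  rw [key _ f hf d rfl, map_zero]

end Crest.Agent.R227
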